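import Crest.Agent.R316.Newton

/-! Newman's sign approximant, Thom's lemma, hashing, parity of the number of real points. -/

set_option autoImplicit false
open Crest.Agent.Lib.PolyTime
open scoped Polynomial

namespace Crest.Agent.R316

open Polynomial Finset

namespace SignAux

theorem sg_pos {t : ℝ} (h : 0 < t) : sg t = 1 := by simp [sg, sign_pos h]

theorem sg_neg {t : ℝ} (h : t < 0) : sg t = -1 := by simp [sg, sign_neg h]

theorem sg_zero : sg 0 = 0 := by simp [sg]

theorem abs_sg_le (t : ℝ) : |sg t| ≤ 1 := by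
  rcases lt_trichotomy t 0 with h | rfl | h
  · simp [sg_neg h]
  · simp [sg_zero]
  · simp [sg_pos h]

theorem same_side {s t : ℝ} (h : sg s = sg t) : (0 ≤ s ∧ 0 ≤ t) ∨ (s ≤ 0 ∧ t ≤ 0) := by
  rcases lt_trichotomy s 0 with hs | rfl | hs <;> rcases lt_trichotomy t 0 with ht | rfl | ht
  · exact Or.inr ⟨hs.le, ht.le⟩
  · exact Or.inr ⟨hs.le, le_rfl⟩
  · rw [sg_neg hs, sg_pos ht] at h; omega
  · exact Or.inr ⟨le_rfl, ht.le⟩
  · exact Or.inr ⟨le_rfl, le_rfl⟩
  · exact Or.inl ⟨le_rfl, ht.le⟩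
  · rw [sg_pos hs, sg_neg ht] at h; omega
  · exact Or.inl ⟨hs.le, le_rfl⟩
  · exact Or.inl ⟨hs.le, ht.le⟩

theorem mul_neg_iff_pos {a b : ℝ} (ha : 0 < a) : a * b < 0 ↔ b < 0 :=
  ⟨fun h => by_contra fun hb => (mul_nonneg ha.le (not_lt.1 hb)).not_gt h,
    mul_neg_of_pos_of_neg ha⟩

theorem nwP_nonneg (L m : ℕ) (y : ℝ) : 0 ≤ nwP L m y := by
  rw [nwP, pow_mul]
  positivity

theorem nwP_pos (L m : ℕ) {y : ℝ} (hy : 0 ≤ y) : 0 < nwP L m y := by
  rw [nwP]
  exact pow_pos (prod_pos fun k _ => by positivity) _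

theorem nwDen_pos (L m : ℕ) (y : ℝ) : 0 < nwDen L m y := by
  rw [nwDen]
  rcases le_total 0 y with h | h
  · exact add_pos_of_pos_of_nonneg (nwP_pos L m h) (nwP_nonneg L m _)
  · exact add_pos_of_nonneg_of_pos (nwP_nonneg L m _) (nwP_pos L m (neg_nonneg.2 h))

theorem nwP_neg_le (L m : ℕ) {y : ℝ} (h1 : 1 ≤ 2 ^ L * y) (h2 : y ≤ 2 ^ L) :
    9 ^ m * nwP L m (-y) ≤ nwP L m y := by
  set Y := 2 ^ L * y with hY
  obtain ⟨k, hk1, hk2⟩ := exists_nat_pow_near h1 (one_lt_two : (1 : ℝ) < 2)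
  have hYL : Y ≤ 2 ^ (2 * L) := by
    rw [hY, two_mul, pow_add]
    gcongr
  have hk : k ∈ range (2 * L + 1) := by
    rw [mem_range, Nat.lt_succ_iff]
    exact (pow_le_pow_iff_right₀ (one_lt_two : (1 : ℝ) < 2)).1 (hk1.trans hYL)
  have key : 3 * |∏ j ∈ range (2 * L + 1), (2 ^ L * -y + 2 ^ j : ℝ)| ≤
      ∏ j ∈ range (2 * L + 1), (Y + 2 ^ j : ℝ) := by
    rw [abs_prod, ← mul_prod_erase _ _ hk, ← mul_prod_erase _ _ hk, ← mul_assoc]
    refine mul_le_mul ?_ (prod_le_prod (fun j _ => abs_nonneg _) fun j _ => ?_)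
      (prod_nonneg fun j _ => abs_nonneg _) (by positivity)
    · rw [mul_neg, ← hY, abs_of_nonpos (by linarith)]
      rw [pow_succ] at hk2
      linarith
    · rw [mul_neg, ← hY, abs_le]
      have : (0 : ℝ) < 2 ^ j := by positivity
      constructor <;> linarith
  have := pow_le_pow_left₀ (by positivity) key (2 * m)
  rw [mul_pow, pow_mul, pow_mul, sq_abs, ← pow_mul _ 2 m, ← pow_mul _ 2 m] at this
  rw [nwP, nwP, show (9 : ℝ) = 3 ^ 2 by norm_num, ← pow_mul]
  exact this

theorem nw_err (L m : ℕ) {y : ℝ} (h : |y| ≤ 2 ^ L ∧ (y ≠ 0 → 1 ≤ 2 ^ L * |y|)) :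
    |nwNum L m y / nwDen L m y - sg y| ≤ 2 / 9 ^ m := by
  have hd := nwDen_pos L m y
  have h9 : (0 : ℝ) < 9 ^ m := by positivity
  rcases lt_trichotomy y 0 with hy | rfl | hy
  · rw [abs_of_neg hy] at h
    have h1 := nwP_neg_le L m (h.2 hy.ne) h.1
    rw [neg_neg] at h1
    have h2 := nwP_nonneg L m y
    have e : nwNum L m y / nwDen L m y - sg y = 2 * nwP L m y / nwDen L m y := by
      rw [sg_neg hy]
      field_simp
      rw [nwNum, nwDen]
      push_cast
      ring
    rw [e, abs_of_nonneg (by positivity), div_le_div_iff₀ hd h9, nwDen]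
    nlinarith
  · simp [nwNum, sg_zero]
    positivity
  · rw [abs_of_pos hy] at h
    have h1 := nwP_neg_le L m (h.2 hy.ne') h.1
    have h2 := nwP_nonneg L m (-y)
    have e : nwNum L m y / nwDen L m y - sg y = -(2 * nwP L m (-y) / nwDen L m y) := by
      rw [sg_pos hy]
      field_simp
      rw [nwNum, nwDen]
      push_cast
      ring
    rw [e, abs_neg, abs_of_nonneg (by positivity), div_le_div_iff₀ hd h9, nwDen]
    nlinarith

theorem mul_prod_ite {n k : ℕ} (hk : k ∈ range n) (f : ℕ → ℝ) :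
    f k * ∏ k' ∈ range n, (if k' = k then 1 else f k') = ∏ k' ∈ range n, f k' := by
  rw [← mul_prod_erase _ _ hk, ← mul_prod_erase _ f hk, if_pos rfl, one_mul]
  congr 1
  exact prod_congr rfl fun j hj => if_neg (ne_of_mem_erase hj)

theorem condDen_pos (L m nt : ℕ) (y : ℕ → ℝ) : 0 < condDen L m nt y :=
  prod_pos fun _ _ => nwDen_pos L m _

theorem condNum_eq (L m nt : ℕ) (y w : ℕ → ℝ) (c : ℝ) :
    condNum L m nt y w c = condDen L m nt y *
      (∑ k ∈ range nt, w k * (nwNum L m (y k) / nwDen L m (y k)) - c) := by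
  rw [condNum, mul_sub, mul_sum, mul_comm c]
  congr 1
  refine sum_congr rfl fun k hk => ?_
  rw [condDen, ← mul_prod_ite hk fun k => nwDen L m (y k)]
  have := (nwDen_pos L m (y k)).ne'
  field_simp

theorem condPoly_eq (L m nc nt : ℕ) (y w : ℕ → ℕ → ℝ) (c : ℕ → ℝ) :
    condPoly L m nc nt y w c = (∏ i ∈ range nc, condDen L m nt (y i) ^ 2) *
      (4 * ∑ i ∈ range nc,
        (∑ k ∈ range nt, w i k * (nwNum L m (y i k) / nwDen L m (y i k)) - c i) ^ 2 - 1) := by
  rw [condPoly, mul_sub, mul_one, mul_left_comm, mul_sum (range nc) _ (∏ _ ∈ _, _)]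
  congr 2
  refine sum_congr rfl fun i hi => ?_
  rw [condNum_eq, ← mul_prod_ite hi fun i => condDen L m nt (y i) ^ 2]
  ring

theorem derivative_hasseDeriv {R : Type} [CommRing R] (U : R[X]) (k : ℕ) :
    derivative (hasseDeriv k U) = (k + 1) • hasseDeriv (k + 1) U := by
  have := LinearMap.congr_fun (hasseDeriv_comp (R := R) 1 k) U
  rw [LinearMap.comp_apply, hasseDeriv_one', LinearMap.smul_apply, Nat.choose_one_right,
    add_comm 1 k] at this
  exact this

theorem between {V : ℝ[X]} {s t : ℝ}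
    (h : (∀ x ∈ Set.Icc s t, 0 ≤ (derivative V).eval x) ∨
      ∀ x ∈ Set.Icc s t, (derivative V).eval x ≤ 0) {x : ℝ} (hx : x ∈ Set.Icc s t) :
    (V.eval s ≤ V.eval x ∧ V.eval x ≤ V.eval t) ∨ (V.eval t ≤ V.eval x ∧ V.eval x ≤ V.eval s) := by
  have hs : s ∈ Set.Icc s t := ⟨le_rfl, hx.1.trans hx.2⟩
  have ht : t ∈ Set.Icc s t := ⟨hx.1.trans hx.2, le_rfl⟩
  rcases h with h | h
  · have := monotoneOn_of_deriv_nonneg (convex_Icc s t) (f := fun x => V.eval x)
      V.continuous.continuousOn V.differentiable.differentiableOn fun x hx => by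
        rw [V.deriv]
        exact h x (interior_subset hx)
    exact Or.inl ⟨this hs hx hx.1, this hx ht hx.2⟩
  · have := antitoneOn_of_deriv_nonpos (convex_Icc s t) (f := fun x => V.eval x)
      V.continuous.continuousOn V.differentiable.differentiableOn fun x hx => by
        rw [V.deriv]
        exact h x (interior_subset hx)
    exact Or.inr ⟨this hx ht hx.2, this hs hx hx.1⟩

theorem thom_lt {U : ℝ[X]} {s t : ℝ} (hst : s < t) (hs : U.eval s = 0) (ht : U.eval t = 0)
    (h : ∀ k, sg ((hasseDeriv k U).eval s) = sg ((hasseDeriv k U).eval t)) : U = 0 := by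
  have step : ∀ k, ((∀ x ∈ Set.Icc s t, 0 ≤ (hasseDeriv (k + 1) U).eval x) ∨
      ∀ x ∈ Set.Icc s t, (hasseDeriv (k + 1) U).eval x ≤ 0) →
      (∀ x ∈ Set.Icc s t, 0 ≤ (derivative (hasseDeriv k U)).eval x) ∨
      ∀ x ∈ Set.Icc s t, (derivative (hasseDeriv k U)).eval x ≤ 0 := by
    intro k hk
    rw [derivative_hasseDeriv]
    refine hk.imp (fun h x hx => ?_) fun h x hx => ?_
    · rw [eval_smul]
      exact nsmul_nonneg (h x hx) _
    · rw [eval_smul]
      exact nsmul_nonpos (h x hx) _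
  have key : ∀ j k, k + j = U.natDegree + 1 →
      (∀ x ∈ Set.Icc s t, 0 ≤ (hasseDeriv k U).eval x) ∨
        ∀ x ∈ Set.Icc s t, (hasseDeriv k U).eval x ≤ 0 := by
    intro j
    induction j with
    | zero =>
      intro k hk
      rw [hasseDeriv_eq_zero_of_lt_natDegree U k (by omega)]
      simp
    | succ j ih =>
      intro k hk
      have h1 := step k (ih (k + 1) (by omega))
      rcases same_side (h k) with h2 | h2
      · refine Or.inl fun x hx => ?_
        rcases between h1 hx with h3 | h3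
        · exact h2.1.trans h3.1
        · exact h2.2.trans h3.1
      · refine Or.inr fun x hx => ?_
        rcases between h1 hx with h3 | h3
        · exact h3.2.trans h2.2
        · exact h3.2.trans h2.1
  have h1 := step 0 (key U.natDegree 1 (by omega))
  rw [hasseDeriv_zero'] at h1
  refine eq_zero_of_infinite_isRoot U ((Set.Icc_infinite hst).mono fun x hx => ?_)
  rcases between h1 hx with h3 | h3
  · exact le_antisymm (h3.2.trans ht.le) (hs.ge.trans h3.1)
  · exact le_antisymm (h3.2.trans hs.le) (ht.ge.trans h3.1)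

theorem digits_zero (n : ℕ) (d : ℕ → ℤ) (hd : ∀ k, |d k| ≤ 2)
    (h : ∑ k ∈ range n, 3 ^ k * d k = 0) : ∀ k < n, d k = 0 := by
  induction n generalizing d with
  | zero => intro k hk; omega
  | succ n ih =>
    rw [sum_range_succ'] at h
    have e : ∑ k ∈ range n, 3 ^ (k + 1) * d (k + 1) = 3 * ∑ k ∈ range n, 3 ^ k * d (k + 1) := by
      rw [mul_sum]
      exact sum_congr rfl fun k _ => by ring
    rw [e, pow_zero, one_mul] at h
    have h0 := abs_le.1 (hd 0)
    have h1 : d 0 = 0 := by omega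
    have h2 := ih (fun k => d (k + 1)) (fun k => hd _) (by omega)
    intro k hk
    cases k with
    | zero => exact h1
    | succ k => exact h2 k (by omega)

theorem digits_le (n : ℕ) (d : ℕ → ℤ) (hd : ∀ k, |d k| ≤ 2) :
    |∑ k ∈ range n, 3 ^ k * d k| + 1 ≤ 3 ^ n := by
  induction n with
  | zero => simp
  | succ n ih =>
    rw [sum_range_succ, pow_succ]
    have h1 := abs_add_le (∑ k ∈ range n, 3 ^ k * d k) (3 ^ n * d n)
    have h2 : |3 ^ n * d n| ≤ 3 ^ n * 2 := by
      rw [abs_mul, abs_of_nonneg (by positivity)]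
      exact mul_le_mul_of_nonneg_left (hd n) (by positivity)
    linarith

theorem aeval_hasseDeriv (U : ℤ[X]) (k : ℕ) (t : ℝ) :
    aeval t (hasseDeriv k U) = (hasseDeriv k (U.map (algebraMap ℤ ℝ))).eval t := by
  rw [← eval_map_algebraMap]
  congr 1
  ext j
  simp [hasseDeriv_coeff]

theorem exists_not_dvd {K P : ℕ} (h0 : P ≠ 0) (hP : P ≤ 3 ^ K) : ∃ q < 4 * K + 9, ¬ q + 1 ∣ P := by
  by_contra hc
  push Not at hc
  have h1 : Nat.lcmUpto (4 * K + 9) ∣ P := Finset.lcm_dvd fun b hb => by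
    obtain ⟨hb1, hb2⟩ := mem_Icc.1 hb
    have := hc (b - 1) (by omega)
    rwa [Nat.sub_add_cancel hb1] at this
  have h2 := (Chebyshev.two_pow_le_mul_lcmUpto (4 * K + 9)).trans
    (Nat.mul_le_mul_left _ ((Nat.le_of_dvd (Nat.pos_of_ne_zero h0) h1).trans hP))
  have h3 : K < 2 ^ K := Nat.lt_two_pow_self
  have h4 : 3 ^ K * 2 ^ K ≤ 16 ^ K := by
    rw [← mul_pow]
    exact Nat.pow_le_pow_left (by norm_num) K
  have h5 : 2 ^ (4 * K + 9) = 512 * 16 ^ K := by
    rw [pow_add, pow_mul]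
    ring
  have h6 : 0 < 3 ^ K := by positivity
  rw [h5] at h2
  nlinarith

theorem trailingCoeff_map_int (U : ℤ[X]) :
    (U.map (Int.castRingHom ℂ)).trailingCoeff = (U.trailingCoeff : ℂ) := by
  by_cases hU : U = 0
  · simp [hU]
  have hi : Function.Injective (Int.castRingHom ℂ) := Int.cast_injective
  rw [trailingCoeff, trailingCoeff, coeff_map,
    natTrailingDegree_eq_support_min' ((Polynomial.map_ne_zero_iff hi).2 hU),
    natTrailingDegree_eq_support_min' hU]
  simp only [support_map_of_injective U hi]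
  rfl

open Classical in
theorem trailingCoeff_X_add_C (v : ℂ) :
    (X + C v : ℂ[X]).trailingCoeff = if v = 0 then 1 else v := by
  split_ifs with h
  · simp [h, trailingCoeff]
  · rw [trailingCoeff_eq_coeff_zero (by simpa using h)]
    simp

theorem trailingCoeff_prod {ι : Type} (s : Finset ι) (f : ι → ℂ[X]) :
    (∏ j ∈ s, f j).trailingCoeff = ∏ j ∈ s, (f j).trailingCoeff := by
  classical
  induction s using Finset.induction_on with
  | empty => simp [trailingCoeff]
  | insert a s ha ih => rw [prod_insert ha, prod_insert ha, trailingCoeff_mul, ih]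

theorem aeval_star {M : ℕ} (ζ : Fin M → ℂ) (f : MvPolynomial (Fin M) ℤ) :
    MvPolynomial.aeval (star ζ) f = (starRingEnd ℂ) (MvPolynomial.aeval ζ f) := by
  induction f using MvPolynomial.induction_on with
  | C a => simp
  | add p q hp hq => simp [hp, hq]
  | mul_X p i hp => simp [hp]

theorem aeval_ofReal {M : ℕ} (x : Fin M → ℝ) (f : MvPolynomial (Fin M) ℤ) :
    MvPolynomial.aeval (fun i => (x i : ℂ)) f = ((MvPolynomial.aeval x f : ℝ) : ℂ) := by
  induction f using MvPolynomial.induction_on with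
  | C a => simp
  | add p q hp hq => simp [hp, hq]
  | mul_X p i hp => simp [hp]

end SignAux

open SignAux

theorem map_condPoly {K K' : Type} [CommRing K] [CommRing K'] (f : K →+* K') (L m nc nt : ℕ)
    (y w : ℕ → ℕ → K) (c : ℕ → K) :
    f (condPoly L m nc nt y w c) =
      condPoly L m nc nt (fun i k => f (y i k)) (fun i k => f (w i k)) fun i => f (c i) := by
  simp only [condPoly, condNum, condDen, nwNum, nwDen, nwP, map_sub, map_mul, map_sum, map_prod,
    map_pow, map_add, map_neg, map_ofNat, apply_ite f, map_one]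

theorem condPoly_neg_iff {L m nc nt W : ℕ} (y : ℕ → ℕ → ℝ) (w : ℕ → ℕ → ℤ) (c : ℕ → ℤ)
    (hy : ∀ i < nc, ∀ k < nt, |y i k| ≤ 2 ^ L ∧ (y i k ≠ 0 → 1 ≤ 2 ^ L * |y i k|))
    (hw : ∀ i < nc, ∑ k ∈ range nt, (w i k).natAbs ≤ W) (hm : 4 * W * (nc + 1) ≤ 9 ^ m) :
    condPoly L m nc nt y (fun i k => (w i k : ℝ)) (fun i => (c i : ℝ)) < 0 ↔
      ∀ i < nc, ∑ k ∈ range nt, w i k * sg (y i k) = c i := by
  rw [condPoly_eq, mul_neg_iff_pos (prod_pos fun i _ => pow_pos (condDen_pos _ _ _ _) 2)]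
  set e : ℕ → ℝ := fun i =>
    ∑ k ∈ range nt, (w i k : ℝ) * (nwNum L m (y i k) / nwDen L m (y i k)) - c i with he
  have h9 : (0 : ℝ) < 9 ^ m := by positivity
  have hn : (0 : ℝ) < nc + 1 := by positivity
  have herr : ∀ i < nc, |e i - ((∑ k ∈ range nt, w i k * sg (y i k) - c i : ℤ) : ℝ)| ≤
      1 / (2 * (nc + 1)) := by
    intro i hi
    have e1 : e i - ((∑ k ∈ range nt, w i k * sg (y i k) - c i : ℤ) : ℝ) =
        ∑ k ∈ range nt, (w i k : ℝ) * (nwNum L m (y i k) / nwDen L m (y i k) - sg (y i k)) := by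
      simp only [he, mul_sub, sum_sub_distrib]
      push_cast
      ring
    have e2 : ∑ k ∈ range nt, |(w i k : ℝ)| ≤ W := by
      have := (Nat.cast_le (α := ℝ)).2 (hw i hi)
      simpa [Nat.cast_natAbs] using this
    have e3 : (4 * W * (nc + 1) : ℝ) ≤ 9 ^ m := by exact_mod_cast hm
    rw [e1]
    calc _ ≤ ∑ k ∈ range nt, |(w i k : ℝ)| * (2 / 9 ^ m) := by
          refine (abs_sum_le_sum_abs _ _).trans (sum_le_sum fun k hk => ?_)
          rw [abs_mul]
          exact mul_le_mul_of_nonneg_left (nw_err L m (hy i hi k (mem_range.1 hk))) (abs_nonneg _)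
      _ ≤ W * (2 / 9 ^ m) := by
          rw [← sum_mul]
          gcongr
      _ ≤ 1 / (2 * (nc + 1)) := by
          rw [← mul_div_assoc, div_le_div_iff₀ h9 (by positivity)]
          linarith
  change 4 * ∑ i ∈ range nc, e i ^ 2 - 1 < 0 ↔ _
  constructor
  · intro h i hi
    by_contra hne
    have h1 : (1 : ℝ) ≤ |((∑ k ∈ range nt, w i k * sg (y i k) - c i : ℤ) : ℝ)| := by
      exact_mod_cast Int.one_le_abs (sub_ne_zero.2 hne)
    have h2 := herr i hi
    have h3 : (1 : ℝ) / (2 * (nc + 1)) ≤ 1 / 2 := by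
      gcongr
      have : (0 : ℝ) ≤ nc := by positivity
      linarith
    have h4 := abs_sub_abs_le_abs_sub ((∑ k ∈ range nt, w i k * sg (y i k) - c i : ℤ) : ℝ) (e i)
    rw [abs_sub_comm _ (e i)] at h4
    have h5 : 1 / 2 ≤ |e i| := by linarith
    have h6 : e i ^ 2 ≤ ∑ i ∈ range nc, e i ^ 2 :=
      single_le_sum (f := fun i => e i ^ 2) (fun _ _ => sq_nonneg _) (mem_range.2 hi)
    have h7 := pow_le_pow_left₀ (by norm_num) h5 2
    rw [sq_abs] at h7
    linarith
  · intro h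
    have h1 : ∑ i ∈ range nc, e i ^ 2 ≤ ∑ _i ∈ range nc, (1 / (2 * (nc + 1)) : ℝ) ^ 2 := by
      refine sum_le_sum fun i hi => ?_
      have := herr i (mem_range.1 hi)
      rw [h i (mem_range.1 hi), sub_self, Int.cast_zero, sub_zero] at this
      rw [← sq_abs]
      exact pow_le_pow_left₀ (abs_nonneg _) this 2
    rw [sum_const, card_range, nsmul_eq_mul] at h1
    have h2 : (nc : ℝ) * (1 / (2 * (nc + 1))) ^ 2 < 1 / 4 := by
      rw [div_pow, one_pow, mul_one_div, div_lt_div_iff₀ (by positivity) (by norm_num)]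
      have : (0 : ℝ) ≤ nc := by positivity
      nlinarith
    linarith

theorem thom {U : ℝ[X]} (hU : U ≠ 0) {s t : ℝ} (hs : U.eval s = 0) (ht : U.eval t = 0)
    (h : ∀ k, sg ((hasseDeriv k U).eval s) = sg ((hasseDeriv k U).eval t)) : s = t := by
  rcases lt_trichotomy s t with hst | hst | hst
  · exact absurd (thom_lt hst hs ht h) hU
  · exact hst
  · exact absurd (thom_lt hst ht hs fun k => (h k).symm) hU

theorem exists_hash {M nt : ℕ} {U : Fin M → ℤ[X]} (hU : ∀ i, (U i).natDegree < nt)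
    {x : Fin M → ℝ} (hx : Roots U x) :
    ∃ q < hashB M nt, ∀ x', Roots U x' →
      (∀ i, hashv (q + 1) nt (U i) (x' i) = hashv (q + 1) nt (U i) (x i)) → x' = x := by
  classical
  let d : Fin M → ℝ → ℕ → ℤ := fun i t k =>
    sg (aeval t (hasseDeriv k (U i))) - sg (aeval (x i) (hasseDeriv k (U i)))
  have hd : ∀ i t k, |d i t k| ≤ 2 := fun i t k =>
    (abs_sub _ _).trans (add_le_add (abs_sg_le _) (abs_sg_le _))
  let D : Fin M → ℝ → ℤ := fun i t => ∑ k ∈ range nt, 3 ^ k * d i t k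
  let S : Fin M → Finset ℝ := fun i => ((U i).aroots ℝ).toFinset.erase (x i)
  have hV : ∀ i, (U i).map (algebraMap ℤ ℝ) ≠ 0 := fun i =>
    (Polynomial.map_ne_zero_iff (algebraMap ℤ ℝ).injective_int).2 (hx i).1
  have hD0 : ∀ i, ∀ t ∈ S i, D i t ≠ 0 := by
    intro i t ht h0
    obtain ⟨h1, h2⟩ := mem_erase.1 ht
    rw [Multiset.mem_toFinset, mem_aroots'] at h2
    refine h1 (thom (hV i) (by rw [eval_map_algebraMap]; exact h2.2)
      (by rw [eval_map_algebraMap]; exact (hx i).2) fun k => ?_)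
    rw [← aeval_hasseDeriv, ← aeval_hasseDeriv]
    by_cases hk : k < nt
    · exact sub_eq_zero.1 (digits_zero nt _ (hd i t) h0 k hk)
    · rw [hasseDeriv_eq_zero_of_lt_natDegree _ _ ((hU i).trans_le (not_lt.1 hk)), map_zero,
        map_zero]
  have hDle : ∀ i t, (D i t).natAbs ≤ 3 ^ nt := fun i t => by
    have := digits_le nt _ (hd i t)
    zify
    change |D i t| + 1 ≤ _ at this
    linarith
  have hS : ∀ i, (S i).card ≤ nt := fun i =>
    card_erase_le.trans ((Multiset.toFinset_card_le _).trans ((card_roots' _).trans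
      (natDegree_map_le.trans (hU i).le)))
  obtain ⟨q, hq, hq'⟩ := exists_not_dvd (K := M * nt * nt)
    (P := ∏ i, ∏ t ∈ S i, (D i t).natAbs)
    (prod_ne_zero_iff.2 fun i _ => prod_ne_zero_iff.2 fun t ht => Int.natAbs_ne_zero.2 (hD0 i t ht))
    (by
      calc _ ≤ ∏ _i : Fin M, 3 ^ (nt * nt) := by
            refine prod_le_prod' fun i _ => ?_
            refine (prod_le_pow_card _ _ _ fun t _ => hDle i t).trans ?_
            rw [← pow_mul]
            exact Nat.pow_le_pow_right (by norm_num) (Nat.mul_le_mul_left _ (hS i))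
        _ = _ := by
            rw [prod_const, card_univ, Fintype.card_fin, ← pow_mul]
            congr 1
            ring)
  refine ⟨q, hq, fun x' hx' h => funext fun i => ?_⟩
  by_contra hne
  apply hq'
  have hm : x' i ∈ S i := mem_erase.2 ⟨hne, by
    rw [Multiset.mem_toFinset, mem_aroots']
    exact ⟨hV i, (hx' i).2⟩⟩
  refine Dvd.dvd.trans ?_ ((dvd_prod_of_mem _ hm).trans
    (dvd_prod_of_mem (fun i => ∏ t ∈ S i, (D i t).natAbs) (mem_univ i)))
  rw [← Int.natCast_dvd]
  have h1 : ∑ k ∈ range nt, ((3 ^ k % (q + 1) : ℕ) : ℤ) * d i (x' i) k = 0 := by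
    have := sub_eq_zero.2 (h i)
    rw [hashv, hashv, ← sum_sub_distrib] at this
    rw [← this]
    exact sum_congr rfl fun k _ => mul_sub _ _ _
  rw [← sub_zero (D i (x' i)), ← h1, ← sum_sub_distrib]
  refine dvd_sum fun k _ => ?_
  rw [← sub_mul]
  refine Dvd.dvd.mul_right ?_ _
  have := (Nat.mod_modEq (3 ^ k) (q + 1)).dvd
  simpa using this

theorem exists_hash_code (q nt : ℕ) (U : ℤ[X]) (t : ℝ) :
    ∃ c : ℕ, c < 2 * (nt * (q + 1)) + 1 ∧
      hashv (q + 1) nt U t + ((nt * (q + 1) : ℕ) : ℤ) = (c : ℤ) := by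
  have h : |hashv (q + 1) nt U t| ≤ ((nt * (q + 1) : ℕ) : ℤ) := by
    rw [hashv]
    refine (abs_sum_le_sum_abs _ _).trans ((sum_le_card_nsmul _ _ ((q + 1 : ℕ) : ℤ)
      fun k _ => ?_).trans (by simp))
    rw [abs_mul, Nat.abs_cast]
    refine (mul_le_of_le_one_right (by positivity) (abs_sg_le _)).trans ?_
    exact_mod_cast (Nat.mod_lt _ (Nat.succ_pos q)).le
  rw [abs_le] at h
  refine ⟨(hashv (q + 1) nt U t + ((nt * (q + 1) : ℕ) : ℤ)).toNat, ?_, ?_⟩ <;> omega

theorem exists_simple_hasse {U : ℤ[X]} (hU : U ≠ 0) {x : ℝ} (hx : aeval x U = 0) :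
    ∃ k < U.natDegree, aeval x (hasseDeriv k U) = 0 ∧
      aeval x (derivative (hasseDeriv k U)) ≠ 0 := by
  classical
  have h1 : aeval x (hasseDeriv U.natDegree U) ≠ 0 := by
    rw [hasseDeriv_natDegree_eq_C]
    simpa using hU
  have hex : ∃ k, aeval x (hasseDeriv k U) ≠ 0 := ⟨_, h1⟩
  have h2 := Nat.find_spec hex
  have h3 := Nat.find_min' hex h1
  have h4 : Nat.find hex ≠ 0 := fun h => by
    rw [h, hasseDeriv_zero'] at h2
    exact h2 hx
  obtain ⟨k, hk⟩ := Nat.exists_eq_succ_of_ne_zero h4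
  refine ⟨k, by omega, not_not.1 (Nat.find_min hex (by omega)), ?_⟩
  rw [derivative_hasseDeriv, map_nsmul]
  rw [hk] at h2
  exact smul_ne_zero (Nat.succ_ne_zero k) h2

open Classical in
theorem trailing_neg_iff {ι : Type} [Fintype ι] {M : ℕ} (z : ι → Fin M → ℂ)
    (hz : ∀ ζ : Fin M → ℂ, #{j | z j = star ζ} = #{j | z j = ζ}) (f : MvPolynomial (Fin M) ℤ)
    {U : ℤ[X]} {c : ℝ} (hc : 0 < c)
    (h : U.map (Int.castRingHom ℂ) =
      C (c : ℂ) * ∏ j, (X + C (MvPolynomial.aeval (z j) f))) :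
    U.trailingCoeff < 0 ↔
      Odd #{j | ∃ x : Fin M → ℝ, z j = (fun i => (x i : ℂ)) ∧ MvPolynomial.aeval x f < 0} := by
  let v : (Fin M → ℂ) → ℂ := fun ζ => MvPolynomial.aeval ζ f
  let N : (Fin M → ℂ) → ℝ := fun ζ => if v ζ = 0 then 1 else ‖v ζ‖
  let u : (Fin M → ℂ) → ℂ := fun ζ => if star ζ = ζ ∨ v ζ = 0 then 1 else v ζ / ‖v ζ‖
  let P : (Fin M → ℂ) → Prop := fun ζ =>
    ∃ x : Fin M → ℝ, ζ = (fun i => (x i : ℂ)) ∧ MvPolynomial.aeval x f < 0
  have hN : ∀ ζ, 0 < N ζ := fun ζ => by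
    simp only [N]
    split_ifs with h
    · exact one_pos
    · exact norm_pos_iff.2 h
  have hdec : ∀ ζ, (if v ζ = 0 then 1 else v ζ) = N ζ * u ζ * (if P ζ then -1 else 1) := by
    intro ζ
    by_cases h0 : v ζ = 0
    · have : ¬ P ζ := by
        rintro ⟨x, rfl, hx⟩
        simp only [v, aeval_ofReal, Complex.ofReal_eq_zero] at h0
        exact hx.ne h0
      simp [N, u, h0, this]
    by_cases hs : star ζ = ζ
    · obtain ⟨x, rfl⟩ : ∃ x : Fin M → ℝ, ζ = fun i => (x i : ℂ) :=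
        ⟨fun i => (ζ i).re, funext fun i => (Complex.conj_eq_iff_re.1 (congrFun hs i)).symm⟩
      have hP : P (fun i => (x i : ℂ)) ↔ MvPolynomial.aeval x f < 0 := by
        constructor
        · rintro ⟨x', hx', hx⟩
          have : x = x' := funext fun i => Complex.ofReal_injective (congrFun hx' i)
          rwa [this]
        · exact fun hx => ⟨x, rfl, hx⟩
      simp only [N, u, h0, hs, hP, if_false, true_or, if_true, mul_one]
      simp only [v, aeval_ofReal, Complex.norm_real, Real.norm_eq_abs]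
      split_ifs with hx
      · simp [abs_of_neg hx]
      · simp [abs_of_nonneg (not_lt.1 hx)]
    · have : ¬ P ζ := by
        rintro ⟨x, rfl, -⟩
        exact hs (funext fun i => Complex.conj_ofReal _)
      have h1 : ((‖v ζ‖ : ℝ) : ℂ) ≠ 0 := by simpa using h0
      simp only [N, u, h0, hs, this, if_false, or_self, mul_one]
      field_simp
  have hu : ∏ j, u (z j) = 1 := by
    rw [prod_comp u z]
    refine prod_involution (fun ζ _ => star ζ) (fun ζ _ => ?_) (fun ζ _ hζ hs => hζ ?_)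
      (fun ζ hζ => ?_) fun ζ _ => star_star ζ
    · have e : #{j ∈ univ | z j = star ζ} = #{j ∈ univ | z j = ζ} := by convert hz ζ
      have hv : v (star ζ) = (starRingEnd ℂ) (v ζ) := aeval_star ζ f
      rw [e, ← mul_pow]
      convert one_pow _
      simp only [u, star_star, hv, map_eq_zero, eq_comm (a := ζ), RCLike.norm_conj]
      split_ifs with h1
      · exact one_mul _
      · push Not at h1
        have h2 : ((‖v ζ‖ : ℝ) : ℂ) ≠ 0 := by simpa using h1.2
        field_simp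
        rw [Complex.mul_conj, Complex.normSq_eq_norm_sq]
        push_cast
        rfl
    · simp only [u, hs, true_or, if_true, one_pow]
    · obtain ⟨j, -, rfl⟩ := mem_image.1 hζ
      have : 0 < #{j' | z j' = star (z j)} := by
        rw [hz]
        exact card_pos.2 ⟨j, by simp⟩
      obtain ⟨j', hj'⟩ := card_pos.1 this
      exact mem_image.2 ⟨j', mem_univ _, (mem_filter.1 hj').2⟩
  have h1 := congrArg trailingCoeff h
  have hc' : (c : ℂ) ≠ 0 := by exact_mod_cast hc.ne'
  rw [trailingCoeff_map_int, trailingCoeff_mul, SignAux.trailingCoeff_prod,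
    trailingCoeff_eq_coeff_zero (p := C (c : ℂ)) (by simpa using hc.ne'), coeff_C_zero] at h1
  simp only [trailingCoeff_X_add_C] at h1
  have h2 : ∏ j, (if MvPolynomial.aeval (z j) f = 0 then 1 else MvPolynomial.aeval (z j) f) =
      (((∏ j, N (z j)) * (-1) ^ #{j | P (z j)} : ℝ) : ℂ) := by
    rw [prod_congr rfl fun j _ => hdec (z j), prod_mul_distrib, prod_mul_distrib, hu, prod_ite]
    simp
  rw [h2] at h1
  have h3 : (U.trailingCoeff : ℝ) = c * ((∏ j, N (z j)) * (-1) ^ #{j | P (z j)}) := by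
    exact_mod_cast h1
  have h4 : 0 < ∏ j, N (z j) := prod_pos fun j _ => hN _
  rw [← Int.cast_lt_zero (R := ℝ), h3, mul_neg_iff_pos hc, mul_neg_iff_pos h4]
  change _ ↔ Odd #{j | P (z j)}
  rcases Nat.even_or_odd #{j | P (z j)} with he | he
  · simp [he.neg_one_pow, Nat.not_odd_iff_even.2 he]
  · simp [he.neg_one_pow, he]

end Crest.Agent.R316
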