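import Crest.Agent.R316.GoodOps
import Crest.Agent.R316.Sign

/-! The basic problem: real tuples of roots satisfying sign-linear conditions. -/

set_option autoImplicit false
open Crest.Agent.Lib.PolyTime
open scoped Polynomial

namespace Crest.Agent.R316

variable {α β : Type} [PEnc α] [PEnc β] {M : α → ℕ}

namespace BPAux

theorem sum_ite_lt {n N : ℕ} (h : n ≤ N) (f g : ℕ → ℤ) :
    ∑ k ∈ Finset.range N, (if k < n then f k else 0) * g k = ∑ k ∈ Finset.range n, f k * g k := by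
  rw [← Finset.sum_subset (Finset.range_mono h) fun k _ hk => by
    rw [if_neg (by simpa using hk), zero_mul]]
  exact Finset.sum_congr rfl fun k hk => by rw [if_pos (Finset.mem_range.1 hk)]

theorem sg_eq_neg_one {t : ℝ} : sg t = -1 ↔ t < 0 := by
  unfold sg
  rcases lt_trichotomy t 0 with h | rfl | h
  · simp [h]
  · simp
  · simp [h, h.not_gt]

theorem sg_eq_zero {t : ℝ} : sg t = 0 ↔ t = 0 := by
  unfold sg
  rcases lt_trichotomy t 0 with h | rfl | h
  · simp [h, h.ne]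
  · simp
  · simp [h, h.ne']

/-- The Hasse derivatives of the `V a i` as polynomials in several variables. -/
noncomputable def hd (V : ∀ a, Fin (M a) → ℤ[X]) (a : α) (i k : ℕ) : MvPolynomial (Fin (M a)) ℤ :=
  if hi : i < M a then
    Polynomial.aeval (MvPolynomial.X ⟨i, hi⟩) (Polynomial.hasseDeriv k (V a ⟨i, hi⟩)) else 0

theorem good_hd (hM : Poly M) {V : ∀ a, Fin (M a) → ℤ[X]}
    (hV : Good fun x : Σ a, Fin (M a) => V x.1 x.2) :
    Good fun x : α × ℕ × ℕ => hd V x.1 x.2.1 x.2.2 := by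
  refine Good.dite (p := fun x : α × ℕ × ℕ => x.2.1 < M x.1) (by fun_prop) ?_ Good.zero
  refine Good.polyAeval (Good.hasseDeriv ?_ (by fun_prop)) (Good.mvX (by fun_prop))
  exact hV.comp (φ := fun x : {x : α × ℕ × ℕ // x.2.1 < M x.1} =>
    (⟨x.1.1, ⟨x.1.2.1, x.2⟩⟩ : Σ a, Fin (M a))) (poly_mkFin (by fun_prop) (by fun_prop))

omit [PEnc α] in
theorem aeval_hd (V : ∀ a, Fin (M a) → ℤ[X]) (a : α) (z : Fin (M a) → ℝ) (i : Fin (M a))
    (k : ℕ) : MvPolynomial.aeval z (hd V a i k) =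
      Polynomial.aeval (z i) (Polynomial.hasseDeriv k (V a i)) := by
  rw [hd, dif_pos i.2, ← Polynomial.aeval_algHom_apply, MvPolynomial.aeval_X]

theorem good_fam {U : ∀ a, Fin (M a) → ℤ[X]} (hU : Good fun x : Σ a, Fin (M a) => U x.1 x.2)
    {f : β → α} (hf : Poly f) : Good fun x : Σ b, Fin (M (f b)) => U (f x.1) x.2 :=
  hU.comp (φ := fun x : Σ b, Fin (M (f b)) => (⟨f x.1, x.2⟩ : Σ a, Fin (M a)))
    (poly_mkFin (by fun_prop) (by fun_prop))

end BPAux

open BPAux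

theorem Defn.congr {R R' : ∀ a, (Fin (M a) → ℝ) → Prop} (h : Defn M R)
    (e : ∀ a z, R a z ↔ R' a z) : Defn M R' := by
  obtain ⟨nc, nt, h, w, c, h1, h2, h3, h4, h5, h6⟩ := h
  exact ⟨nc, nt, h, w, c, h1, h2, h3, h4, h5, fun a z => (e a z).symm.trans (h6 a z)⟩

theorem Defn.comp {R : ∀ a, (Fin (M a) → ℝ) → Prop} (h : Defn M R) {f : β → α} (hf : Poly f) :
    Defn (fun b => M (f b)) fun b z => R (f b) z := by
  obtain ⟨nc, nt, h, w, c, h1, h2, h3, h4, h5, h6⟩ := h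
  exact ⟨fun b => nc (f b), fun b => nt (f b), fun b => h (f b), fun b => w (f b),
    fun b => c (f b), h1.comp hf, h2.comp hf,
    h3.comp (φ := fun x : β × ℕ × ℕ => (f x.1, x.2)) (by fun_prop),
    h4.comp (φ := fun x : β × ℕ × ℕ => (f x.1, x.2)) (by fun_prop),
    h5.comp (φ := fun x : β × ℕ => (f x.1, x.2)) (by fun_prop), fun b z => h6 _ z⟩

theorem Defn.and {R R' : ∀ a, (Fin (M a) → ℝ) → Prop} (h : Defn M R) (h' : Defn M R') :
    Defn M fun a z => R a z ∧ R' a z := by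
  obtain ⟨nc, nt, h, w, c, h1, h2, h3, h4, h5, h6⟩ := h
  obtain ⟨nc', nt', h', w', c', h1', h2', h3', h4', h5', h6'⟩ := h'
  refine ⟨fun a => nc a + nc' a, fun a => nt a + nt' a,
    fun a i k => if i < nc a then h a i k else h' a (i - nc a) k,
    fun a i k => if i < nc a then (if k < nt a then w a i k else 0) else
      (if k < nt' a then w' a (i - nc a) k else 0),
    fun a i => if i < nc a then c a i else c' a (i - nc a), by fun_prop, by fun_prop,
    Good.ite (by fun_prop) h3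
      (h3'.comp (φ := fun x : α × ℕ × ℕ => (x.1, x.2.1 - nc x.1, x.2.2)) (by fun_prop)),
    Good.ite (by fun_prop) (Good.ite (by fun_prop) h4 Good.zero) (Good.ite (by fun_prop)
      (h4'.comp (φ := fun x : α × ℕ × ℕ => (x.1, x.2.1 - nc x.1, x.2.2)) (by fun_prop)) Good.zero),
    Good.ite (by fun_prop) h5
      (h5'.comp (φ := fun x : α × ℕ => (x.1, x.2 - nc x.1)) (by fun_prop)), fun a z => ?_⟩
  simp only
  rw [h6, h6']
  refine ⟨fun H i hi => ?_, fun H => ⟨fun i hi => ?_, fun i hi => ?_⟩⟩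
  · by_cases hi' : i < nc a
    · simp only [if_pos hi']
      rw [sum_ite_lt (Nat.le_add_right _ _)]
      exact H.1 i hi'
    · simp only [if_neg hi']
      rw [sum_ite_lt (Nat.le_add_left _ _)]
      exact H.2 _ (by omega)
  · have := H i (by omega)
    simp only [if_pos hi] at this
    rwa [sum_ite_lt (Nat.le_add_right _ _)] at this
  · have := H (nc a + i) (by omega)
    simp only [if_neg (show ¬nc a + i < nc a by omega), Nat.add_sub_cancel_left] at this
    rwa [sum_ite_lt (Nat.le_add_left _ _)] at this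

theorem Defn.rename {r : α → ℕ} (hr : Poly r) (hrb : PB r) {R : ∀ a, (Fin (r a) → ℝ) → Prop}
    (h : Defn r R) {ι : ∀ a, Fin (r a) → Fin (M a)}
    (hι : Poly fun x : Σ a, Fin (r a) => (ι x.1 x.2 : ℕ)) :
    Defn M fun a z => R a fun i => z (ι a i) := by
  obtain ⟨nc, nt, h, w, c, h1, h2, h3, h4, h5, h6⟩ := h
  refine ⟨nc, nt, fun a i k => MvPolynomial.aeval (fun j => MvPolynomial.X (ι a j)) (h a i k),
    w, c, h1, h2, ?_, h4, h5, fun a z => ?_⟩
  · refine Good.mvAeval (n := fun x : α × ℕ × ℕ => r x.1) (by fun_prop) (by fun_prop) h3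
      (Good.mvX ?_)
    exact hι.comp (g := fun y : Σ x : α × ℕ × ℕ, Fin (r x.1) => (⟨y.1.1, y.2⟩ : Σ a, Fin (r a)))
      (poly_mkFin (by fun_prop) (by fun_prop))
  · simp only [h6, MvPolynomial.comp_aeval_apply, MvPolynomial.aeval_X]

theorem Defn.neg {g : ∀ a, MvPolynomial (Fin (M a)) ℤ} (hg : Good g) :
    Defn M fun a z => MvPolynomial.aeval z (g a) < 0 := by
  refine ⟨fun _ => 1, fun _ => 1, fun a _ _ => g a, fun _ _ _ => 1, fun _ _ => -1, by fun_prop,
    by fun_prop, hg.comp (φ := fun x : α × ℕ × ℕ => x.1) (by fun_prop), Good.one, Good.one.neg,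
    fun a z => ?_⟩
  simp [sg_eq_neg_one]

theorem Defn.root (hM : Poly M) {V : ∀ a, Fin (M a) → ℤ[X]}
    (hV : Good fun x : Σ a, Fin (M a) => V x.1 x.2) :
    Defn M fun a z => ∀ i, Polynomial.aeval (z i) (V a i) = 0 := by
  refine ⟨M, fun _ => 1, hd V, fun _ _ _ => 1, fun _ _ => 0, hM, by fun_prop, good_hd hM hV,
    Good.one, Good.zero, fun a z => ?_⟩
  simp only [Finset.sum_range_one, one_mul, sg_eq_zero]
  refine ⟨fun H i hi => ?_, fun H i => ?_⟩
  · rw [aeval_hd V a z ⟨i, hi⟩, Polynomial.hasseDeriv_zero']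
    exact H _
  · have := H i i.2
    rwa [aeval_hd, Polynomial.hasseDeriv_zero'] at this

theorem Defn.hash (hM : Poly M) {V : ∀ a, Fin (M a) → ℤ[X]}
    (hV : Good fun x : Σ a, Fin (M a) => V x.1 x.2) {q nt : α → ℕ} (hq : Poly q) (hnt : Poly nt)
    {c : ∀ a, Fin (M a) → ℕ} (hc : Poly fun x : Σ a, Fin (M a) => c x.1 x.2) :
    Defn M fun a z => ∀ i,
      hashv (q a + 1) (nt a) (V a i) (z i) + ((nt a * (q a + 1) : ℕ) : ℤ) = (c a i : ℤ) := by
  refine ⟨M, nt, hd V, fun a _ k => ((3 ^ k % (q a + 1) : ℕ) : ℤ),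
    fun a i => if hi : i < M a then (c a ⟨i, hi⟩ : ℤ) - ((nt a * (q a + 1) : ℕ) : ℤ) else 0,
    hM, hnt, good_hd hM hV, Good.natCast (Poly.powMod (by fun_prop) (by fun_prop) (by fun_prop)
      fun _ => Nat.succ_pos _), ?_, fun a z => ?_⟩
  · refine Good.dite (p := fun x : α × ℕ => x.2 < M x.1) (by fun_prop)
      (Good.sub (Good.natCast ?_) (Good.natCast (by fun_prop))) Good.zero
    exact hc.comp (g := fun x : {x : α × ℕ // x.2 < M x.1} =>
      (⟨x.1.1, ⟨x.1.2, x.2⟩⟩ : Σ a, Fin (M a))) (poly_mkFin (by fun_prop) (by fun_prop))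
  · refine ⟨fun H i hi => ?_, fun H i => ?_⟩
    · simp only [dif_pos hi, aeval_hd V a z ⟨i, hi⟩]
      exact eq_sub_of_add_eq (H ⟨i, hi⟩)
    · have := H i i.2
      simp only [dif_pos i.2, aeval_hd V a z i] at this
      exact add_eq_of_eq_sub this

namespace BPAux

/-- A definable condition on tuples of roots is the negativity of one good polynomial. -/
theorem exists_negPoly {U : ∀ a, Fin (M a) → ℤ[X]} (hM : Poly M) (hb : PB M)
    (hU : Good fun x : Σ a, Fin (M a) => U x.1 x.2) {R : ∀ a, (Fin (M a) → ℝ) → Prop}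
    (hR : Defn M R) : ∃ N : ∀ a, MvPolynomial (Fin (M a)) ℤ, Good N ∧
      ∀ a x, Roots (U a) x → (MvPolynomial.aeval x (N a) < 0 ↔ R a x) := by
  obtain ⟨nc, nt, h, w, c, h1, h2, h3, h4, h5, h6⟩ := hR
  have hs : PB fun a => sz a + 4 * sz (nc a) + 4 * sz (nt a) + 2 :=
    ((PB.sz_id.add ((PB.const 4).mul h1.pb_sz)).add ((PB.const 4).mul h2.pb_sz)).add (PB.const 2)
  have hs' : ∀ a i k, i < nc a → k < nt a →
      sz (a, i, k) ≤ sz a + 4 * sz (nc a) + 4 * sz (nt a) + 2 := fun a i k hi hk => by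
    have := sz_le_of_le hi.le
    have := sz_le_of_le hk.le
    simp only [sz_pair]; omega
  obtain ⟨H, H1, H2⟩ := Good.sep (n := fun x : α × ℕ × ℕ => M x.1) (by fun_prop) (by fun_prop)
    (U := fun x => U x.1) (good_fam hU (by fun_prop)) h3
  obtain ⟨H', H3, H4⟩ := H1.unif hs
  obtain ⟨L, L1, L2⟩ := H3.exists_poly
  obtain ⟨W, W1, W2⟩ := h4.size.unif hs
  obtain ⟨m, m1, m2⟩ := (((DB.const 4).mul ((DB.of_eb (EB.of_poly h2)).mul W1)).mul
    (DB.of_eb (EB.of_poly (by fun_prop : Poly fun a => nc a + 1)))).exists_poly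
  have hN : Good fun a => condPoly (L a) (m a) (nc a) (nt a) (h a)
      (fun i k => (w a i k : MvPolynomial (Fin (M a)) ℤ)) fun i => (c a i : MvPolynomial _ ℤ) :=
    Good.condPoly L1 m1 h1 h2 h3 (Good.intCast h4) (Good.intCast h5)
  refine ⟨_, hN, fun a x hx => ?_⟩
  have e := map_condPoly (MvPolynomial.aeval x : MvPolynomial (Fin (M a)) ℤ →ₐ[ℤ] ℝ).toRingHom
    (L a) (m a) (nc a) (nt a) (h a) (fun i k => (w a i k : MvPolynomial (Fin (M a)) ℤ))
    fun i => (c a i : MvPolynomial _ ℤ)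
  simp only [map_intCast, AlgHom.toRingHom_eq_coe, RingHom.coe_coe] at e
  rw [h6, e]
  refine condPoly_neg_iff (W := nt a * W a) _ _ _ (fun i hi k hk => ?_) (fun i hi => ?_)
    ((m2 a).le.trans (Nat.pow_le_pow_left (by norm_num) _))
  · obtain ⟨a1, a2⟩ := H2 (a, i, k) x hx
    have a3 : (H (a, i, k) : ℝ) ≤ 2 ^ L a := by
      exact_mod_cast (H4 a _ (hs' a i k hi hk)).trans (L2 a).le
    exact ⟨a1.trans a3, fun h0 => (a2 h0).trans (mul_le_mul_of_nonneg_right a3 (abs_nonneg _))⟩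
  · simpa using Finset.sum_le_card_nsmul (Finset.range (nt a)) (fun k => (w a i k).natAbs) (W a)
      fun k hk => W2 a _ (hs' a i k hi (Finset.mem_range.1 hk))

open Classical in
theorem card_conj {n : ℕ} {U : Fin n → ℤ[X]} {D : Fin n → ℕ} {z : ∀ i, Fin (D i) → ℂ}
    (hz : ∀ i, Enum (D i) (U i) (z i)) (ζ : Fin n → ℂ) :
    (Finset.univ.filter fun j : ∀ i, Fin (D i) => (fun i => z i (j i)) = star ζ).card =
    (Finset.univ.filter fun j : ∀ i, Fin (D i) => (fun i => z i (j i)) = ζ).card := by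
  have := Finset.prod_congr (s₁ := Finset.univ) rfl fun i _ => (hz i).card_fiber_conj (ζ i)
  rw [← Fintype.card_piFinset, ← Fintype.card_piFinset] at this
  convert this using 1 <;> congr 1 <;> ext j <;> simp [funext_iff]

open Classical in
theorem odd_aux {n : ℕ} {U : Fin n → ℤ[X]} {D : Fin n → ℕ} {z : ∀ i, Fin (D i) → ℂ}
    (hz : ∀ i, Enum (D i) (U i) (z i)) {N : MvPolynomial (Fin n) ℤ} {R : (Fin n → ℝ) → Prop}
    (key : ∀ x, Roots U x → (MvPolynomial.aeval x N < 0 ↔ R x)) {W : ℤ[X]} {d : ℝ} (d0 : 0 < d)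
    (d1 : W.map (Int.castRingHom ℂ) = Polynomial.C (d : ℂ) * ∏ j : ∀ i, Fin (D i),
      (Polynomial.X + Polynomial.C (MvPolynomial.aeval (fun i => z i (j i)) N))) :
    W.trailingCoeff < 0 ↔ Odd (Finset.univ.filter fun j : ∀ i, Fin (D i) =>
        ∃ x : Fin n → ℝ, (fun i => z i (j i)) = (fun i => (x i : ℂ)) ∧ R x).card := by
  refine (trailing_neg_iff (fun (j : ∀ i, Fin (D i)) i => z i (j i)) (fun ζ => ?_) N d0 d1).trans ?_
  · convert card_conj hz ζ
  refine iff_of_eq (congrArg (fun s : Finset _ => Odd s.card) ?_)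
  ext j
  simp only [Finset.mem_filter, Finset.mem_univ, true_and]
  refine exists_congr fun x => and_congr_right fun hx => key x fun i => ⟨fun h0 => ?_, ?_⟩
  · exact (hz i).1 (by rw [h0, Polynomial.coeff_zero])
  · have := ((hz i).mem_range_iff (x i)).1 ⟨j i, congrFun hx i⟩
    rwa [← Complex.coe_algebraMap, Polynomial.aeval_algebraMap_apply, map_eq_zero] at this

end BPAux

open Classical in
/-- Parity of the number of real tuples (with multiplicity) satisfying a condition. -/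
theorem exists_oddTest (hM : Poly M) (hb : PB M) {U : ∀ a, Fin (M a) → ℤ[X]}
    (hU : Good fun x : Σ a, Fin (M a) => U x.1 x.2) {D : ∀ a, Fin (M a) → ℕ}
    (hD : Poly fun x : Σ a, Fin (M a) => D x.1 x.2) {R : ∀ a, (Fin (M a) → ℝ) → Prop}
    (hR : Defn M R) :
    ∃ T : α → Prop, CH T ∧ ∀ a (z : ∀ i, Fin (D a i) → ℂ), (∀ i, Enum (D a i) (U a i) (z i)) →
      (T a ↔ Odd (Finset.univ.filter fun j : ∀ i, Fin (D a i) =>
        ∃ x : Fin (M a) → ℝ, (fun i => z i (j i)) = (fun i => (x i : ℂ)) ∧ R a x).card) := by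
  obtain ⟨N, hN, key⟩ := exists_negPoly hM hb hU hR
  obtain ⟨χ, χ1, χ2⟩ := exists_chiT hM hb hU hD (nn := fun _ => 1) (by fun_prop)
    (H := fun a m => N a ^ m)
    ((hN.comp (φ := fun x : α × ℕ => x.1) (by fun_prop)).pow (by fun_prop))
  refine ⟨_, χ1.ch_trailing_neg, fun a z hz => ?_⟩
  obtain ⟨d, d0, d1⟩ := χ2 a z hz (fun j _ => MvPolynomial.aeval (fun i => z i (j i)) (N a))
    fun j m _ => by simp
  refine odd_aux hz (key a) d0 (d1.trans ?_)
  rw [Fintype.prod_prod_type]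
  simp only [Fin.prod_univ_one]

namespace BPAux

theorem exists_deg (hM : Poly M) {U : ∀ a, Fin (M a) → ℤ[X]}
    (hU : Good fun x : Σ a, Fin (M a) => U x.1 x.2) :
    ∃ nt : α → ℕ, Poly nt ∧ ∀ a i, (U a i).natDegree < nt a := by
  obtain ⟨B, B1, B2⟩ := hU.eb_natDegree.unif (α := α) (s := fun a => sz a + 4 * sz (M a) + 1)
    ((PB.sz_id.add ((PB.const 4).mul hM.pb_sz)).add (PB.const 1))
  obtain ⟨nt, n1, n2⟩ := B1.exists_poly
  refine ⟨nt, n1, fun a i => lt_of_le_of_lt (B2 a ⟨a, i⟩ ?_) (n2 a)⟩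
  have := sz_le_of_le i.2.le
  rw [sz_sigma, sz_fin]
  simp only
  omega

theorem getD_ofFn {n : ℕ} (k : Fin n → ℕ) (i : Fin n) : (List.ofFn k).getD i 0 = k i := by simp

theorem ofFn_lt {n B : ℕ} {k : Fin n → ℕ} (h : ∀ i, k i < B) : ∀ x ∈ List.ofFn k, x < B := by
  simpa using h

/-- A unique simple root is detected. -/
theorem bp_uniq (hM : Poly M) (hb : PB M) {V : ∀ a, Fin (M a) → ℤ[X]}
    (hV : Good fun x : Σ a, Fin (M a) => V x.1 x.2) {R : ∀ a, (Fin (M a) → ℝ) → Prop}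
    (hR : Defn M R) : ∃ T : α → Prop, CH T ∧ (∀ a, T a → ∃ z, Roots (V a) z ∧ R a z) ∧
      ∀ a z, Roots (V a) z → R a z →
        (∀ i, Polynomial.aeval (z i) (Polynomial.derivative (V a i)) ≠ 0) →
        (∀ z', Roots (V a) z' → R a z' → z' = z) → T a := by
  classical
  obtain ⟨nt, n1, n2⟩ := exists_deg hM hV
  have hf : Poly fun b : α × List ℕ => b.1 := by fun_prop
  have hD : Poly fun x : Σ b : α × List ℕ, Fin (M b.1) => x.1.2.getD x.2 0 := by fun_prop
  obtain ⟨T, T1, T2⟩ := exists_oddTest (M := fun b : α × List ℕ => M b.1) (hM.comp hf)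
    (hb.comp hf) (U := fun b => V b.1) (good_fam hV hf) (D := fun b i => b.2.getD i 0) hD
    (hR.comp hf)
  have hroot : ∀ a (D : Fin (M a) → ℕ) (z : ∀ i, Fin (D i) → ℂ), (∀ i, Enum (D i) (V a i) (z i)) →
      ∀ (j : ∀ i, Fin (D i)) (x : Fin (M a) → ℝ), (fun i => z i (j i)) = (fun i => (x i : ℂ)) →
      Roots (V a) x := fun a D z hz j x hx i => by
    refine ⟨fun h0 => (hz i).1 (by rw [h0, Polynomial.coeff_zero]), ?_⟩
    have := ((hz i).mem_range_iff (x i)).1 ⟨j i, congrFun hx i⟩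
    rwa [← Complex.coe_algebraMap, Polynomial.aeval_algebraMap_apply, map_eq_zero] at this
  refine ⟨_, CH.exists_list hM hb n1 ((CH.forall_fin (n := fun b : α × List ℕ => M b.1)
    (hM.comp hf) ((good_fam hV hf).ch_natDegree hD)).and T1), ?_, fun a x x1 x2 x3 x4 => ?_⟩
  · rintro a ⟨l, -, -, l1, l2⟩
    choose z hz using fun i => exists_enum (l1 i).1 (l1 i).2
    obtain ⟨j, hj⟩ := Finset.card_pos.1 ((T2 (a, l) z hz).1 l2).pos
    obtain ⟨x, e, hx⟩ := (Finset.mem_filter.1 hj).2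
    exact ⟨x, hroot a _ z hz j x e, hx⟩
  · have l1 : ∀ i, V a i ≠ 0 ∧
        (V a i).natDegree = (List.ofFn fun i => (V a i).natDegree).getD i 0 :=
      fun i => ⟨(x1 i).1, (getD_ofFn (fun i => (V a i).natDegree) i).symm⟩
    refine ⟨List.ofFn fun i => (V a i).natDegree, List.length_ofFn, ofFn_lt (n2 a), l1, ?_⟩
    choose z hz using fun i => exists_enum (l1 i).1 (l1 i).2
    rw [T2 (a, List.ofFn fun i => (V a i).natDegree) z hz]
    have h1 := Finset.prod_congr (s₁ := Finset.univ) rfl fun i _ =>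
      (hz i).card_fiber_eq_one (x1 i).2 (x3 i)
    rw [← Fintype.card_piFinset, Finset.prod_const_one] at h1
    convert odd_one
    rw [← h1]
    congr 1
    ext j
    simp only [Finset.mem_filter, Finset.mem_univ, true_and, Fintype.mem_piFinset]
    refine ⟨?_, fun H => ⟨x, funext H, x2⟩⟩
    rintro ⟨x', e, hx'⟩
    obtain rfl := x4 x' (hroot a _ z hz j x' e) hx'
    exact congrFun e

/-- Real tuples of roots have short names. -/
theorem exists_name (hM : Poly M) (hb : PB M) {U : ∀ a, Fin (M a) → ℤ[X]}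
    (hU : Good fun x : Σ a, Fin (M a) => U x.1 x.2) :
    ∃ Nm : ∀ b : (α × ℕ) × List ℕ, (Fin (M b.1.1) → ℝ) → Prop,
      Defn (fun b : (α × ℕ) × List ℕ => M b.1.1) Nm ∧
      ∀ P : (α × ℕ) × List ℕ → Prop, CH P → ∃ T : α → Prop, CH T ∧
        (∀ a, T a → ∃ q l, P ((a, q), l)) ∧ ∀ a x, Roots (U a) x → ∃ q l, Nm ((a, q), l) x ∧
          (∀ x', Roots (U a) x' → Nm ((a, q), l) x' → x' = x) ∧ (P ((a, q), l) → T a) := by
  obtain ⟨nt, n1, n2⟩ := exists_deg hM hU
  have hf : Poly fun b : (α × ℕ) × List ℕ => b.1.1 := by fun_prop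
  refine ⟨_, Defn.hash (M := fun b : (α × ℕ) × List ℕ => M b.1.1) (hM.comp hf)
    (V := fun b => U b.1.1) (good_fam hU hf) (q := fun b => b.1.2) (nt := fun b => nt b.1.1)
    (by fun_prop) (by fun_prop) (c := fun b i => b.2.getD i 0) (by fun_prop), fun P hP => ?_⟩
  refine ⟨_, CH.exists_lt (N := fun a => hashB (M a) (nt a)) (by unfold hashB; fun_prop)
    (CH.exists_list (n := fun b : α × ℕ => M b.1)
      (B := fun b : α × ℕ => 2 * (nt b.1 * (b.2 + 1)) + 1)
      (by fun_prop) (by fun_prop) (by fun_prop) hP), ?_, fun a x hx => ?_⟩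
  · rintro a ⟨q, -, l, -, -, h⟩
    exact ⟨q, l, h⟩
  · obtain ⟨q, q1, q2⟩ := exists_hash (n2 a) hx
    choose c c1 c2 using fun i => exists_hash_code q (nt a) (U a i) (x i)
    refine ⟨q, List.ofFn c, fun i => by simp only [getD_ofFn]; exact c2 i,
      fun x' hx' H => q2 x' hx' fun i => ?_,
      fun h => ⟨q, q1, List.ofFn c, List.length_ofFn, ofFn_lt c1, h⟩⟩
    have := H i
    simp only [getD_ofFn] at this
    exact add_right_cancel (this.trans (c2 i).symm)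

/-- A simple root is detected. -/
theorem bp_simple (hM : Poly M) (hb : PB M) {V : ∀ a, Fin (M a) → ℤ[X]}
    (hV : Good fun x : Σ a, Fin (M a) => V x.1 x.2) {R : ∀ a, (Fin (M a) → ℝ) → Prop}
    (hR : Defn M R) : ∃ T : α → Prop, CH T ∧ (∀ a, T a → ∃ z, Roots (V a) z ∧ R a z) ∧
      ∀ a z, Roots (V a) z → R a z →
        (∀ i, Polynomial.aeval (z i) (Polynomial.derivative (V a i)) ≠ 0) → T a := by
  obtain ⟨Nm, N1, N2⟩ := exists_name hM hb hV
  have hf : Poly fun b : (α × ℕ) × List ℕ => b.1.1 := by fun_prop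
  obtain ⟨P, P1, P2, P3⟩ := bp_uniq (M := fun b : (α × ℕ) × List ℕ => M b.1.1) (hM.comp hf)
    (hb.comp hf) (V := fun b => V b.1.1) (good_fam hV hf) ((hR.comp hf).and N1)
  obtain ⟨T, T1, T2, T3⟩ := N2 P P1
  refine ⟨T, T1, fun a h => ?_, fun a z z1 z2 z3 => ?_⟩
  · obtain ⟨q, l, h⟩ := T2 a h
    obtain ⟨z, z1, z2, -⟩ := P2 _ h
    exact ⟨z, z1, z2⟩
  · obtain ⟨q, l, h1, h2, h3⟩ := T3 a z z1
    exact h3 (P3 ((a, q), l) z z1 ⟨z2, h1⟩ z3 fun z' e1 e2 => h2 z' e1 e2.2)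

end BPAux

/-- The basic problem. -/
theorem bp (hM : Poly M) (hb : PB M) {U : ∀ a, Fin (M a) → ℤ[X]}
    (hU : Good fun x : Σ a, Fin (M a) => U x.1 x.2) {R : ∀ a, (Fin (M a) → ℝ) → Prop}
    (hR : Defn M R) : CH fun a => ∃ z, Roots (U a) z ∧ R a z := by
  obtain ⟨nt, n1, n2⟩ := exists_deg hM hU
  have hf : Poly fun b : α × List ℕ => b.1 := by fun_prop
  obtain ⟨T, T1, T2, T3⟩ := bp_simple (M := fun b : α × List ℕ => M b.1) (hM.comp hf)
    (hb.comp hf) (V := fun b i => Polynomial.hasseDeriv (b.2.getD i 0) (U b.1 i))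
    ((good_fam hU hf).hasseDeriv (by fun_prop)) ((hR.and (Defn.root hM hU)).comp hf)
  refine (CH.exists_list hM hb n1 T1).congr fun a => ⟨?_, ?_⟩
  · rintro ⟨l, -, -, h⟩
    obtain ⟨z, z1, z2, z3⟩ := T2 _ h
    exact ⟨z, fun i => ⟨fun h0 => (z1 i).1 (by simp only [h0, map_zero]), z3 i⟩, z2⟩
  · rintro ⟨z, z1, z2⟩
    choose k k1 k2 k3 using fun i => exists_simple_hasse (z1 i).1 (z1 i).2
    refine ⟨List.ofFn k, List.length_ofFn, ofFn_lt fun i => (k1 i).trans (n2 a i),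
      T3 (a, List.ofFn k) z (fun i => ?_) ⟨z2, fun i => (z1 i).2⟩ fun i => ?_⟩
    · simp only [getD_ofFn]
      exact ⟨fun h0 => k3 i (by rw [h0]; simp), k2 i⟩
    · simp only [getD_ofFn]
      exact k3 i

/-- Naming real tuples of roots by hash values allows a negation. -/
theorem bp_not (hM : Poly M) (hb : PB M) {U : ∀ a, Fin (M a) → ℤ[X]}
    (hU : Good fun x : Σ a, Fin (M a) => U x.1 x.2) {T : ∀ a, (Fin (M a) → ℝ) → Prop}
    (hT : ∀ (β : Type) [PEnc β] (f : β → α), Poly f →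
      ∀ R : ∀ b, (Fin (M (f b)) → ℝ) → Prop, Defn (fun b => M (f b)) R →
        CH fun b => ∃ z, Roots (U (f b)) z ∧ R b z ∧ T (f b) z) :
    CH fun a => ∃ z, Roots (U a) z ∧ ¬T a z := by
  obtain ⟨Nm, N1, N2⟩ := exists_name hM hb hU
  have hf : Poly fun b : (α × ℕ) × List ℕ => b.1.1 := by fun_prop
  obtain ⟨Q, Q1, Q2, Q3⟩ := N2 _ ((bp (M := fun b : (α × ℕ) × List ℕ => M b.1.1) (hM.comp hf)
    (hb.comp hf) (U := fun b => U b.1.1) (good_fam hU hf) N1).and (hT _ _ hf Nm N1).not)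
  refine Q1.congr fun a => ⟨fun h => ?_, ?_⟩
  · obtain ⟨q, l, ⟨z, z1, z2⟩, h⟩ := Q2 a h
    exact ⟨z, z1, fun z3 => h ⟨z, z1, z2, z3⟩⟩
  · rintro ⟨z, z1, z2⟩
    obtain ⟨q, l, h1, h2, h3⟩ := Q3 a z z1
    refine h3 ⟨⟨z, z1, h1⟩, ?_⟩
    rintro ⟨z', e1, e2, e3⟩
    exact z2 (h2 z' e1 e2 ▸ e3)

end Crest.Agent.R316
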