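import Crest.Agent.R316.Defs

/-! Polynomial, exponential and doubly exponential bounds. -/

set_option autoImplicit false
open Crest.Agent.Lib.PolyTime
open scoped Polynomial

namespace Crest.Agent.R316

variable {α β γ : Type} [PEnc α] [PEnc β] [PEnc γ]

/-! ### Small additions to the PolyTime library -/

theorem poly_appFun {n : β → ℕ} {g : α → Σ b, Fin (n b) → γ} (hg : Poly g)
    {i : ∀ a, Fin (n (g a).1)} (hi : Poly fun a => (i a : ℕ)) :
    Poly fun a => (g a).2 (i a) := by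
  exact Poly.app_fin (n := fun a => n (g a).1) (t := fun a => (g a).2)
    (hg.sigmaSnd_enc.of_enc fun _ => rfl) hi

theorem poly_mkFun {n : β → ℕ} {f : α → β} (hf : Poly f) (hn : Poly n) (hb : PB n)
    {k : ∀ a, Fin (n (f a)) → γ} (hk : Poly fun x : Σ a, Fin (n (f a)) => k x.1 x.2) :
    Poly fun a => (⟨f a, k a⟩ : Σ b, Fin (n b) → γ) := by
  exact Poly.sigmaMk (φ := fun b => Fin (n b) → γ) hf
    ((Poly.ofFn (hn.comp hf) (hb.comp hf) hk).enc'.of_enc fun _ => rfl)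

theorem poly_mkFin {n : β → ℕ} {f : α → β} (hf : Poly f) {i : ∀ a, Fin (n (f a))}
    (hi : Poly fun a => (i a : ℕ)) : Poly fun a => (⟨f a, i a⟩ : Σ b, Fin (n b)) := by
  exact Poly.sigmaMk (φ := fun b => Fin (n b)) hf (hi.enc'.of_enc fun _ => rfl)

theorem pb_unif {t : γ → ℕ} (ht : PB t) {s : α → ℕ} (hs : PB s) :
    ∃ t' : α → ℕ, PB t' ∧ ∀ a c, sz c ≤ s a → t c ≤ t' a := by
  obtain ⟨q, hq⟩ := ht
  exact ⟨fun a => q.eval (s a), hs.eval q, fun a c h => (hq c).trans (eval_mono q h)⟩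

/-- Size of a tuple with bounded entries. -/
theorem sz_fun_le {n B : ℕ} {k : Fin n → ℕ} (hk : ∀ i, k i ≤ B) :
    sz k ≤ n * (4 * sz B + 2) + 1 := by
  have h := sz_list_le (l := List.ofFn k) (B := 4 * sz B) fun x hx => by
    obtain ⟨i, rfl⟩ := List.mem_ofFn.1 hx
    exact sz_le_of_le (hk i)
  rw [List.length_ofFn] at h
  exact h.trans (Nat.add_le_add_right (Nat.mul_le_mul_left _ (by omega)) _)

/-! ### Exponential and doubly exponential bounds -/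

theorem EB.mono {f g : α → ℕ} (h : EB g) (le : ∀ a, f a ≤ g a) : EB f := by
  obtain ⟨s, hs, h⟩ := h
  exact ⟨s, hs, fun a => (le a).trans (h a)⟩
theorem EB.of_poly {f : α → ℕ} (h : Poly f) : EB f := by
  exact ⟨_, h.pb_sz, fun a => (lt_two_pow_sz _).le⟩
theorem EB.of_pb {f : α → ℕ} (h : PB f) : EB f := by
  exact ⟨_, h, fun a => Nat.lt_two_pow_self.le⟩
theorem EB.const (c : ℕ) : EB fun _ : α => c := by
  exact EB.of_pb (PB.const c)
theorem EB.add {f g : α → ℕ} (hf : EB f) (hg : EB g) : EB fun a => f a + g a := by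
  obtain ⟨s, hs, h⟩ := hf
  obtain ⟨t, ht, h'⟩ := hg
  refine ⟨fun a => s a + t a + 1, by fun_prop, fun a => ?_⟩
  have h1 : 2 ^ s a ≤ 2 ^ (s a + t a) := Nat.pow_le_pow_right (by norm_num) (by omega)
  have h2 : 2 ^ t a ≤ 2 ^ (s a + t a) := Nat.pow_le_pow_right (by norm_num) (by omega)
  have := h a
  have := h' a
  simp only [pow_succ]
  omega
theorem EB.mul {f g : α → ℕ} (hf : EB f) (hg : EB g) : EB fun a => f a * g a := by
  obtain ⟨s, hs, h⟩ := hf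
  obtain ⟨t, ht, h'⟩ := hg
  refine ⟨fun a => s a + t a, by fun_prop, fun a => ?_⟩
  rw [pow_add]
  exact Nat.mul_le_mul (h a) (h' a)
theorem EB.pow {f g : α → ℕ} (hf : EB f) (hg : PB g) : EB fun a => f a ^ g a := by
  obtain ⟨s, hs, h⟩ := hf
  refine ⟨fun a => s a * g a, by fun_prop, fun a => ?_⟩
  rw [pow_mul]
  exact Nat.pow_le_pow_left (h a) _
theorem EB.comp {f : β → ℕ} (hf : EB f) {φ : α → β} (hφ : Poly φ) : EB fun a => f (φ a) := by
  obtain ⟨s, hs, h⟩ := hf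
  exact ⟨fun a => s (φ a), hs.comp hφ, fun a => h _⟩
theorem EB.exists_poly {f : α → ℕ} (hf : EB f) : ∃ g : α → ℕ, Poly g ∧ ∀ a, f a < g a := by
  obtain ⟨s, hs, h⟩ := hf
  obtain ⟨K, hK, hb, hle⟩ := hs.exists_clock
  exact ⟨fun a => 2 ^ K a + 1, by fun_prop, fun a =>
    Nat.lt_succ_of_le ((h a).trans (Nat.pow_le_pow_right (by norm_num) (hle a)))⟩
theorem EB.pb_sz {f : α → ℕ} (hf : EB f) : PB fun a => sz (f a) := by
  obtain ⟨s, hs, h⟩ := hf
  exact PB.sz_of_lt_two_pow (k := fun a => s a + 1) (by fun_prop) fun a =>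
    (h a).trans_lt (Nat.pow_lt_pow_right (by norm_num) (Nat.lt_succ_self _))
theorem EB.unif {f : γ → ℕ} (hf : EB f) {s : α → ℕ} (hs : PB s) :
    ∃ f' : α → ℕ, EB f' ∧ ∀ a c, sz c ≤ s a → f c ≤ f' a := by
  obtain ⟨t, ht, h⟩ := hf
  obtain ⟨t', ht', h'⟩ := pb_unif ht hs
  exact ⟨fun a => 2 ^ t' a, ⟨t', ht', fun _ => le_rfl⟩, fun a c hc =>
    (h c).trans (Nat.pow_le_pow_right (by norm_num) (h' a c hc))⟩

theorem DB.mono {f g : α → ℕ} (h : DB g) (le : ∀ a, f a ≤ g a) : DB f := by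
  obtain ⟨s, hs, h⟩ := h
  exact ⟨s, hs, fun a => (le a).trans (h a)⟩
theorem DB.of_eb {f : α → ℕ} (h : EB f) : DB f := by
  obtain ⟨s, hs, h⟩ := h
  exact ⟨s, hs, fun a => (h a).trans (Nat.pow_le_pow_right (by norm_num) Nat.lt_two_pow_self.le)⟩
theorem DB.const (c : ℕ) : DB fun _ : α => c := by
  exact DB.of_eb (EB.const c)
theorem DB.add {f g : α → ℕ} (hf : DB f) (hg : DB g) : DB fun a => f a + g a := by
  obtain ⟨s, hs, h⟩ := hf
  obtain ⟨t, ht, h'⟩ := hg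
  refine ⟨fun a => s a + t a + 1, by fun_prop, fun a => ?_⟩
  have h0 : 1 ≤ 2 ^ (s a + t a) := Nat.one_le_two_pow
  have h1 : 2 ^ 2 ^ s a ≤ 2 ^ 2 ^ (s a + t a) :=
    Nat.pow_le_pow_right (by norm_num) (Nat.pow_le_pow_right (by norm_num) (by omega))
  have h2 : 2 ^ 2 ^ t a ≤ 2 ^ 2 ^ (s a + t a) :=
    Nat.pow_le_pow_right (by norm_num) (Nat.pow_le_pow_right (by norm_num) (by omega))
  have h3 : 2 ^ (2 ^ (s a + t a) + 1) ≤ 2 ^ 2 ^ (s a + t a + 1) :=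
    Nat.pow_le_pow_right (by norm_num) (by rw [pow_succ]; omega)
  have := h a
  have := h' a
  rw [pow_succ] at h3
  show f a + g a ≤ 2 ^ 2 ^ (s a + t a + 1)
  omega
theorem DB.mul {f g : α → ℕ} (hf : DB f) (hg : DB g) : DB fun a => f a * g a := by
  obtain ⟨s, hs, h⟩ := hf
  obtain ⟨t, ht, h'⟩ := hg
  refine ⟨fun a => s a + t a + 1, by fun_prop, fun a => ?_⟩
  have h1 : 2 ^ s a ≤ 2 ^ (s a + t a) := Nat.pow_le_pow_right (by norm_num) (by omega)
  have h2 : 2 ^ t a ≤ 2 ^ (s a + t a) := Nat.pow_le_pow_right (by norm_num) (by omega)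
  refine (Nat.mul_le_mul (h a) (h' a)).trans ?_
  rw [← pow_add]
  exact Nat.pow_le_pow_right (by norm_num) (by rw [pow_succ]; omega)
theorem DB.pow {f g : α → ℕ} (hf : DB f) (hg : EB g) : DB fun a => f a ^ g a := by
  obtain ⟨s, hs, h⟩ := hf
  obtain ⟨t, ht, h'⟩ := hg
  refine ⟨fun a => s a + t a, by fun_prop, fun a => ?_⟩
  refine (Nat.pow_le_pow_left (h a) _).trans ?_
  rw [← pow_mul, pow_add]
  exact Nat.pow_le_pow_right (by norm_num) (Nat.mul_le_mul_left _ (h' a))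
theorem DB.comp {f : β → ℕ} (hf : DB f) {φ : α → β} (hφ : Poly φ) : DB fun a => f (φ a) := by
  obtain ⟨s, hs, h⟩ := hf
  exact ⟨fun a => s (φ a), hs.comp hφ, fun a => h _⟩
theorem DB.exists_poly {f : α → ℕ} (hf : DB f) : ∃ g : α → ℕ, Poly g ∧ ∀ a, f a < 2 ^ g a := by
  obtain ⟨s, hs, h⟩ := hf
  obtain ⟨g, hg, h'⟩ := EB.exists_poly (f := fun a => 2 ^ s a) ⟨s, hs, fun _ => le_rfl⟩
  exact ⟨g, hg, fun a => (h a).trans_lt (Nat.pow_lt_pow_right (by norm_num) (h' a))⟩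
theorem DB.unif {f : γ → ℕ} (hf : DB f) {s : α → ℕ} (hs : PB s) :
    ∃ f' : α → ℕ, DB f' ∧ ∀ a c, sz c ≤ s a → f c ≤ f' a := by
  obtain ⟨t, ht, h⟩ := hf
  obtain ⟨t', ht', h'⟩ := pb_unif ht hs
  exact ⟨fun a => 2 ^ 2 ^ t' a, ⟨t', ht', fun _ => le_rfl⟩, fun a c hc => (h c).trans
    (Nat.pow_le_pow_right (by norm_num) (Nat.pow_le_pow_right (by norm_num) (h' a c hc)))⟩
theorem DB.eb_log {f g : α → ℕ} (hf : DB f) (h : ∀ a, g a = 0 ∨ 2 ^ g a ≤ f a) : EB g := by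
  obtain ⟨s, hs, h'⟩ := hf
  refine ⟨s, hs, fun a => ?_⟩
  rcases h a with h0 | h0
  · rw [h0]
    exact Nat.zero_le _
  · exact (Nat.pow_le_pow_iff_right (by norm_num)).1 (h0.trans (h' a))

end Crest.Agent.R316
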