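import Crest.Agent.R316.Bounds

/-! Closure properties of `CH` and `CHF`. -/

set_option autoImplicit false
open Crest.Agent.Lib.PolyTime
open scoped Polynomial

namespace Crest.Agent.R316

namespace CHAux

theorem cnt_congr {N : ℕ} {B B' : ℕ → Prop} (h : ∀ y < N, B y ↔ B' y) : cnt N B = cnt N B' := by
  classical
  unfold cnt
  congr 1
  ext y
  simp only [Finset.mem_filter, Finset.mem_range]
  exact and_congr_right fun hy => h y hy

theorem cnt_zero (B : ℕ → Prop) : cnt 0 B = 0 := by simp [cnt]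

open Classical in
theorem cnt_succ (N : ℕ) (B : ℕ → Prop) : cnt (N + 1) B = cnt N B + if B N then 1 else 0 := by
  unfold cnt
  rw [Finset.range_add_one, Finset.filter_insert]
  split_ifs with h
  · rw [Finset.card_insert_of_notMem (by simp)]
  · rfl

theorem cnt_pos {N : ℕ} {B : ℕ → Prop} : 0 < cnt N B ↔ ∃ y < N, B y := by
  unfold cnt
  rw [Finset.card_pos]
  simp [Finset.Nonempty]

theorem cnt_le (N : ℕ) (B : ℕ → Prop) : cnt N B ≤ N := by
  classical
  unfold cnt
  exact (Finset.card_filter_le _ _).trans (Finset.card_range N).le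

theorem cnt_not (N : ℕ) (B : ℕ → Prop) : cnt N B + cnt N (fun y => ¬ B y) = N := by
  induction N with
  | zero => simp [cnt_zero]
  | succ N ih =>
    rw [cnt_succ, cnt_succ]
    by_cases h : B N <;> simp [h] <;> omega

theorem cnt_add (M D : ℕ) (B : ℕ → Prop) :
    cnt (M + D) B = cnt M B + cnt D fun r => B (M + r) := by
  induction D with
  | zero => simp [cnt_zero]
  | succ D ih => rw [← add_assoc, cnt_succ, cnt_succ, ih, add_assoc]

theorem cnt_lt {D c : ℕ} (h : c ≤ D) : cnt D (fun r => r < c) = c := by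
  unfold cnt
  rw [← Finset.card_range c]
  congr 1
  ext y
  simp only [Finset.mem_filter, Finset.mem_range, Finset.card_range]
  omega

theorem cnt_sum (N D : ℕ) (f : ℕ → ℕ) (h : ∀ i < N, f i ≤ D) :
    cnt (N * D) (fun y => y % D < f (y / D)) = ∑ i ∈ Finset.range N, f i := by
  induction N with
  | zero => simp [cnt_zero]
  | succ N ih =>
    rw [Nat.succ_mul, cnt_add, ih fun i hi => h i (by omega), Finset.sum_range_succ,
      ← cnt_lt (h N (by omega))]
    congr 1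
    refine cnt_congr fun r hr => ?_
    rw [Nat.mul_add_mod_self_right, Nat.mod_eq_of_lt hr, add_comm, Nat.add_mul_div_right _ _
      (by omega), Nat.div_eq_of_lt hr, zero_add]

theorem digits_exists (B : ℕ) (l : List ℕ) (h : ∀ x ∈ l, x < B) :
    ∃ y < B ^ l.length, (List.range l.length).map (fun i => y / B ^ i % B) = l := by
  induction l with
  | nil => exact ⟨0, by simp, rfl⟩
  | cons x t ih =>
    obtain ⟨y, hy, e⟩ := ih fun z hz => h z (List.mem_cons_of_mem _ hz)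
    have hx : x < B := h x List.mem_cons_self
    refine ⟨x + B * y, ?_, ?_⟩
    · rw [List.length_cons, pow_succ']
      calc x + B * y < B * (y + 1) := by rw [mul_add]; omega
        _ ≤ _ := Nat.mul_le_mul_left _ hy
    · rw [List.length_cons, List.range_succ_eq_map, List.map_cons, List.map_map]
      congr 1
      · simp [Nat.mod_eq_of_lt hx]
      · conv_rhs => rw [← e]
        refine List.map_congr_left fun i _ => ?_
        simp only [Function.comp, Nat.succ_eq_add_one]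
        rw [pow_succ', ← Nat.div_div_eq_div_mul, Nat.add_mul_div_left _ _ (by omega),
          Nat.div_eq_of_lt hx, zero_add]

theorem digit_lt {B n y i : ℕ} (hy : y < B ^ n) (hi : i < n) : y / B ^ i % B < B := by
  refine Nat.mod_lt _ (Nat.pos_of_ne_zero ?_)
  rintro rfl
  rw [zero_pow (by omega)] at hy
  omega

theorem lvl_congr {j : ℕ} {α : Type} [PEnc α] {P Q : α → Prop} (h : Lvl j α P)
    (e : ∀ a, P a ↔ Q a) : Lvl j α Q := by
  rwa [← show P = Q from funext fun a => propext (e a)]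

theorem lvl_comp (j : ℕ) : ∀ {α β : Type} [PEnc α] [PEnc β] {P : β → Prop} {φ : α → β},
    Lvl j β P → Poly φ → Lvl j α fun a => P (φ a) := by
  induction j with
  | zero =>
    rintro α β _ _ P φ ⟨f, hf, e⟩ hφ
    exact ⟨fun a => f (φ a), hf.comp hφ, fun a => e _⟩
  | succ j ih =>
    rintro α β _ _ P φ ⟨N, k, B, hN, hk, hB, e⟩ hφ
    exact ⟨fun a => N (φ a), fun a => k (φ a), fun x => B (φ x.1, x.2), hN.comp hφ, hk.comp hφ,
      ih hB (φ := fun x : α × ℕ => (φ x.1, x.2)) (by fun_prop), fun a => e _⟩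

theorem lvl_succ {j : ℕ} {α : Type} [PEnc α] {P : α → Prop} (h : Lvl j α P) :
    Lvl (j + 1) α P :=
  ⟨fun _ => 1, fun _ => 0, fun x => P x.1, Lib.PolyTime.Poly.const _, Lib.PolyTime.Poly.const _,
    lvl_comp j h (φ := fun x : α × ℕ => x.1) (by fun_prop), fun a => by simp [cnt_pos]⟩

theorem lvl_mono {j j' : ℕ} (hj : j ≤ j') {α : Type} [PEnc α] {P : α → Prop} (h : Lvl j α P) :
    Lvl j' α P := by
  induction j', hj using Nat.le_induction with
  | base => exact h
  | succ j' _ ih => exact lvl_succ ih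

theorem lvl_true (j : ℕ) {α : Type} [PEnc α] : Lvl j α fun _ => True :=
  lvl_mono (Nat.zero_le j) ⟨fun _ => true, Lib.PolyTime.Poly.const _, fun _ => by simp⟩

theorem lvl_ite (j : ℕ) : ∀ {α : Type} [PEnc α] {P Q : α → Prop} {c : α → Bool},
    Poly c → Lvl j α P → Lvl j α Q → Lvl j α fun a => if c a then P a else Q a := by
  induction j with
  | zero =>
    rintro α _ P Q c hc ⟨f, hf, e⟩ ⟨g, hg, e'⟩
    exact ⟨fun a => cond (c a) (f a) (g a), hc.cond hf hg, fun a => by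
      cases h : c a <;> simp [h, e, e']⟩
  | succ j ih =>
    rintro α _ P Q c hc ⟨N, k, B, hN, hk, hB, e⟩ ⟨N', k', B', hN', hk', hB', e'⟩
    exact ⟨fun a => cond (c a) (N a) (N' a), fun a => cond (c a) (k a) (k' a),
      fun x => if c x.1 then B x else B' x, hc.cond hN hN', hc.cond hk hk',
      ih (c := fun x : α × ℕ => c x.1) (by fun_prop) hB hB', fun a => by
        cases h : c a <;> simp [h, e, e']⟩

theorem lvl_not (j : ℕ) : ∀ {α : Type} [PEnc α] {P : α → Prop},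
    Lvl j α P → Lvl j α fun a => ¬ P a := by
  induction j with
  | zero =>
    rintro α _ P ⟨f, hf, e⟩
    exact ⟨fun a => !f a, hf.not, fun a => by simp [e]⟩
  | succ j ih =>
    rintro α _ P ⟨N, k, B, hN, hk, hB, e⟩
    refine ⟨fun a => N a + 1, fun a => N a - k a,
      fun x => if decide (x.2 = N x.1) then True else ¬ B x, by fun_prop, by fun_prop,
      lvl_ite j (by fun_prop) (lvl_true j) (ih hB), fun a => ?_⟩
    have h1 := cnt_not (N a) fun y => B (a, y)
    have h2 : cnt (N a) (fun y => if decide (y = N a) then True else ¬ B (a, y)) =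
        cnt (N a) fun y => ¬ B (a, y) := cnt_congr fun y hy => by simp [hy.ne]
    simp only [e]
    rw [cnt_succ, h2]
    simp only [decide_true, if_true]
    omega

theorem lvl_subtype (j : ℕ) : ∀ {α : Type} [PEnc α] {p : α → Prop} [DecidablePred p]
    {P : {a // p a} → Prop}, (Poly fun a => decide (p a)) → Lvl j _ P →
    Lvl j α fun a => ∃ h : p a, P ⟨a, h⟩ := by
  induction j with
  | zero =>
    rintro α _ p _ P hp ⟨f, hf, e⟩
    refine ⟨fun a => if h : p a then f ⟨a, h⟩ else false,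
      Poly.dite (f := fun a h => f ⟨a, h⟩) (g := fun _ _ => false) hp hf (Lib.PolyTime.Poly.const _),
      fun a => ?_⟩
    by_cases h : p a <;> simp [h, e]
  | succ j ih =>
    rintro α _ p _ P hp ⟨N, k, B, hN, hk, hB, e⟩
    refine ⟨fun a => if h : p a then N ⟨a, h⟩ else 0, fun a => if h : p a then k ⟨a, h⟩ else 0,
      fun x => ∃ h : p x.1, B (⟨x.1, h⟩, x.2),
      Poly.dite (f := fun a h => N ⟨a, h⟩) (g := fun _ _ => 0) hp hN (Lib.PolyTime.Poly.const _),
      Poly.dite (f := fun a h => k ⟨a, h⟩) (g := fun _ _ => 0) hp hk (Lib.PolyTime.Poly.const _),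
      ih (p := fun x : α × ℕ => p x.1) (P := fun z => B (⟨z.1.1, z.2⟩, z.1.2))
        (hp.comp (g := fun x : α × ℕ => x.1) (by fun_prop))
        (lvl_comp j hB (φ := fun z : {x : α × ℕ // p x.1} =>
          ((⟨z.1.1, z.2⟩ : {a // p a}), z.1.2)) (Poly.cast fun _ => rfl)), fun a => ?_⟩
    by_cases h : p a <;> simp [h, e, cnt_zero]

end CHAux

open CHAux

variable {α β : Type} [PEnc α] [PEnc β]

/-! ### Predicates -/

theorem CH.congr {P Q : α → Prop} (h : CH P) (e : ∀ a, P a ↔ Q a) : CH Q :=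
  h.imp fun _ hj => lvl_congr hj e
theorem CH.of_bool {f : α → Bool} (h : Poly f) : CH fun a => f a = true :=
  ⟨0, f, h, fun _ => Iff.rfl⟩
theorem CH.of_decide {P : α → Prop} [DecidablePred P] (h : Poly fun a => decide (P a)) :
    CH P := (CH.of_bool h).congr fun _ => decide_eq_true_iff
theorem CH.comp {P : β → Prop} (h : CH P) {φ : α → β} (hφ : Poly φ) : CH fun a => P (φ a) :=
  Exists.imp (fun j hj => lvl_comp j hj hφ) h
theorem CH.not {P : α → Prop} (h : CH P) : CH fun a => ¬P a :=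
  Exists.imp (fun j hj => lvl_not j hj) h
theorem CH.and {P Q : α → Prop} (hP : CH P) (hQ : CH Q) : CH fun a => P a ∧ Q a := by
  obtain ⟨j, hP⟩ := hP
  obtain ⟨j', hQ⟩ := hQ
  refine ⟨max j j' + 1, fun _ => 2, fun _ => 1,
    fun x => if decide (x.2 = 0) then P x.1 else Q x.1, Lib.PolyTime.Poly.const _, Lib.PolyTime.Poly.const _,
    lvl_ite _ (by fun_prop)
      (lvl_comp _ (lvl_mono (le_max_left _ _) hP) (φ := fun x : α × ℕ => x.1) (by fun_prop))
      (lvl_comp _ (lvl_mono (le_max_right _ _) hQ) (φ := fun x : α × ℕ => x.1) (by fun_prop)),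
    fun a => ?_⟩
  rw [cnt_succ, cnt_succ, cnt_zero]
  by_cases h : P a <;> by_cases h' : Q a <;> simp [h, h']
theorem CH.or {P Q : α → Prop} (hP : CH P) (hQ : CH Q) : CH fun a => P a ∨ Q a :=
  (hP.not.and hQ.not).not.congr fun _ => by tauto
theorem CH.imp {P Q : α → Prop} (hP : CH P) (hQ : CH Q) : CH fun a => P a → Q a :=
  (hP.not.or hQ).congr fun _ => by tauto
theorem CH.lt_cnt {N k : α → ℕ} (hN : Poly N) (hk : Poly k) {B : α × ℕ → Prop} (hB : CH B) :
    CH fun a => k a < cnt (N a) fun y => B (a, y) := by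
  obtain ⟨j, hB⟩ := hB
  exact ⟨j + 1, N, k, B, hN, hk, hB, fun _ => Iff.rfl⟩
theorem CH.exists_lt {N : α → ℕ} (hN : Poly N) {B : α × ℕ → Prop} (hB : CH B) :
    CH fun a => ∃ y < N a, B (a, y) :=
  (CH.lt_cnt hN (Lib.PolyTime.Poly.const 0) hB).congr fun _ => cnt_pos
theorem CH.forall_lt {N : α → ℕ} (hN : Poly N) {B : α × ℕ → Prop} (hB : CH B) :
    CH fun a => ∀ y < N a, B (a, y) :=
  (CH.exists_lt hN hB.not).not.congr fun _ => by simp
theorem CH.of_subtype {p : α → Prop} [DecidablePred p] (hp : Poly fun a => decide (p a))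
    {P : {a // p a} → Prop} (h : CH P) : CH fun a => ∃ h : p a, P ⟨a, h⟩ :=
  Exists.imp (fun j hj => lvl_subtype j hp hj) h
theorem CH.exists_fin {n : α → ℕ} (hn : Poly n) {P : (Σ a, Fin (n a)) → Prop} (h : CH P) :
    CH fun a => ∃ i, P ⟨a, i⟩ := by
  have h1 := CH.of_subtype (p := fun x : α × ℕ => x.2 < n x.1) (by fun_prop)
    (h.comp (φ := fun z : {x : α × ℕ // x.2 < n x.1} => (⟨z.1.1, ⟨z.1.2, z.2⟩⟩ : Σ a, Fin (n a)))
      (Poly.cast fun _ => rfl))
  exact (CH.exists_lt hn h1).congr fun a =>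
    ⟨fun ⟨y, _, hy, h⟩ => ⟨⟨y, hy⟩, h⟩, fun ⟨i, h⟩ => ⟨i, i.2, i.2, h⟩⟩
theorem CH.forall_fin {n : α → ℕ} (hn : Poly n) {P : (Σ a, Fin (n a)) → Prop} (h : CH P) :
    CH fun a => ∀ i, P ⟨a, i⟩ :=
  (CH.exists_fin hn h.not).not.congr fun _ => by simp

theorem CHAux.poly_digits {n B : α → ℕ} (hn : Poly n) (hb : PB n) (hB : Poly B) :
    Poly fun x : α × ℕ => (List.range (n x.1)).map fun i => x.2 / B x.1 ^ i % B x.1 :=
  Poly.map_range (f := fun (x : α × ℕ) i => x.2 / B x.1 ^ i % B x.1) (by fun_prop) (by fun_prop)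
    (by fun_prop)

theorem CH.exists_fun {n B : α → ℕ} (hn : Poly n) (hb : PB n) (hB : Poly B)
    {P : (Σ a, Fin (n a) → ℕ) → Prop} (h : CH P) :
    CH fun a => ∃ k : Fin (n a) → ℕ, (∀ i, k i < B a) ∧ P ⟨a, k⟩ := by
  have h1 := h.comp (φ := fun x : α × ℕ =>
    (⟨x.1, fun i => x.2 / B x.1 ^ (i : ℕ) % B x.1⟩ : Σ a, Fin (n a) → ℕ))
    (Poly.sigmaMk (by fun_prop) ((poly_digits hn hb hB).of_enc fun x => by
      rw [← ofFn_eq_map_range]; rfl))
  refine (CH.exists_lt (hB.pow hn hb) h1).congr fun a => ⟨?_, ?_⟩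
  · rintro ⟨y, hy, h⟩
    exact ⟨_, fun i => digit_lt hy i.2, h⟩
  · rintro ⟨k, hk, h⟩
    obtain ⟨y, hy, e⟩ := digits_exists (B a) (List.ofFn k) (by simpa [List.mem_ofFn'] using hk)
    rw [List.length_ofFn] at hy e
    rw [← ofFn_eq_map_range] at e
    refine ⟨y, hy, ?_⟩
    have := List.ofFn_injective e
    simp only [this]
    exact h
theorem CH.exists_list {n B : α → ℕ} (hn : Poly n) (hb : PB n) (hB : Poly B)
    {P : α × List ℕ → Prop} (h : CH P) :
    CH fun a => ∃ l : List ℕ, l.length = n a ∧ (∀ x ∈ l, x < B a) ∧ P (a, l) := by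
  have h1 := h.comp ((Poly.fst Poly.id').pair (poly_digits hn hb hB))
  refine (CH.exists_lt (hB.pow hn hb) h1).congr fun a => ⟨?_, ?_⟩
  · rintro ⟨y, hy, h⟩
    refine ⟨_, by simp, fun x hx => ?_, h⟩
    obtain ⟨i, hi, rfl⟩ := List.mem_map.1 hx
    exact digit_lt hy (List.mem_range.1 hi)
  · rintro ⟨l, hl, hk, h⟩
    obtain ⟨y, hy, e⟩ := digits_exists (B a) l hk
    rw [hl] at hy e
    refine ⟨y, hy, ?_⟩
    simp only [e]
    exact h

/-! ### Functions -/

theorem CHF.congr {f g : α → ℕ} (h : CHF f) (e : ∀ a, f a = g a) : CHF g := funext e ▸ h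
theorem CHF.of_poly {f : α → ℕ} (h : Poly f) : CHF f :=
  ⟨⟨f, h, fun _ => le_rfl⟩, CH.of_decide (by fun_prop)⟩
theorem CHF.comp {f : β → ℕ} (h : CHF f) {φ : α → β} (hφ : Poly φ) : CHF fun a => f (φ a) := by
  obtain ⟨⟨B, hB, hle⟩, h⟩ := h
  exact ⟨⟨_, hB.comp hφ, fun a => hle _⟩,
    h.comp (φ := fun x : α × ℕ => (φ x.1, x.2)) (by fun_prop)⟩
theorem CH.subst {f : α → ℕ} (hf : CHF f) {P : α × ℕ → Prop} (h : CH P) :
    CH fun a => P (a, f a) := by
  obtain ⟨⟨B, hB, hle⟩, hf⟩ := hf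
  refine (CH.exists_lt (N := fun a => B a + 1) (by fun_prop) (hf.and h)).congr fun a => ⟨?_, ?_⟩
  · rintro ⟨y, -, e, h⟩
    rwa [show f a = y from e]
  · exact fun h => ⟨f a, Nat.lt_succ_of_le (hle a), rfl, h⟩

theorem CHAux.unif {F : α × ℕ → ℕ} (h : CHF F) {B : α → ℕ} (hB : Poly B) :
    ∃ g : α → ℕ, Poly g ∧ ∀ a y, y ≤ B a → F (a, y) < g a := by
  obtain ⟨⟨B', hB', hle⟩, -⟩ := h
  obtain ⟨f', hf', h1⟩ := (EB.of_poly hB').unif (s := fun a => sz a + 4 * sz (B a) + 1)
    (((PB.sz_id).add ((PB.const 4).mul hB.pb_sz)).add (PB.const 1))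
  obtain ⟨g, hg, h2⟩ := hf'.exists_poly
  refine ⟨g, hg, fun a y hy => (hle _).trans_lt ((h1 a _ ?_).trans_lt (h2 a))⟩
  have := sz_le_of_le hy
  rw [sz_pair]
  omega

theorem CHF.subst {f : α → ℕ} (hf : CHF f) {F : α × ℕ → ℕ} (h : CHF F) :
    CHF fun a => F (a, f a) := by
  obtain ⟨B, hB, hle⟩ := hf.1
  obtain ⟨g, hg, h1⟩ := unif h hB
  exact ⟨⟨g, hg, fun a => (h1 a _ (hle a)).le⟩,
    CH.subst (hf.comp (φ := fun x : α × ℕ => x.1) (by fun_prop))
      (h.2.comp (φ := fun z : (α × ℕ) × ℕ => ((z.1.1, z.2), z.1.2)) (by fun_prop))⟩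
theorem CHF.add {f g : α → ℕ} (hf : CHF f) (hg : CHF g) : CHF fun a => f a + g a :=
  hf.subst ((hg.comp (φ := fun x : α × ℕ => x.1) (by fun_prop)).subst
    (CHF.of_poly (f := fun z : (α × ℕ) × ℕ => z.1.2 + z.2) (by fun_prop)))
theorem CHF.mul {f g : α → ℕ} (hf : CHF f) (hg : CHF g) : CHF fun a => f a * g a :=
  hf.subst ((hg.comp (φ := fun x : α × ℕ => x.1) (by fun_prop)).subst
    (CHF.of_poly (f := fun z : (α × ℕ) × ℕ => z.1.2 * z.2) (by fun_prop)))
theorem CHF.ite {P : α → Prop} [DecidablePred P] (hP : CH P) {f g : α → ℕ} (hf : CHF f)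
    (hg : CHF g) : CHF fun a => if P a then f a else g a := by
  obtain ⟨⟨B, hB, hle⟩, hf⟩ := hf
  obtain ⟨⟨B', hB', hle'⟩, hg⟩ := hg
  have hP' := hP.comp (φ := fun x : α × ℕ => x.1) (by fun_prop)
  refine ⟨⟨fun a => B a + B' a, by fun_prop, fun a => ?_⟩,
    ((hP'.and hf).or (hP'.not.and hg)).congr fun x => ?_⟩
  · have := hle a
    have := hle' a
    dsimp only
    split_ifs <;> omega
  · by_cases h : P x.1 <;> simp [h]
theorem CHF.dite {p : α → Prop} [DecidablePred p] (hp : Poly fun a => decide (p a))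
    {f : {a // p a} → ℕ} (hf : CHF f) : CHF fun a => if h : p a then f ⟨a, h⟩ else 0 := by
  obtain ⟨⟨B, hB, hle⟩, hf⟩ := hf
  have hp' : Poly fun x : α × ℕ => decide (p x.1) :=
    hp.comp (g := fun x : α × ℕ => x.1) (by fun_prop)
  have h1 := CH.of_subtype (p := fun x : α × ℕ => p x.1) hp'
    (hf.comp (φ := fun z : {x : α × ℕ // p x.1} => ((⟨z.1.1, z.2⟩ : {a // p a}), z.1.2))
      (Poly.cast fun _ => rfl))
  have h2 : CH fun x : α × ℕ => 0 = x.2 := CH.of_decide (by fun_prop)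
  refine ⟨⟨fun a => if h : p a then B ⟨a, h⟩ else 0,
    Poly.dite (f := fun a h => B ⟨a, h⟩) (g := fun _ _ => 0) hp hB (Lib.PolyTime.Poly.const _), fun a => ?_⟩,
    (h1.or ((CH.of_decide hp').not.and h2)).congr fun x => ?_⟩
  · dsimp only
    split_ifs
    · exact hle _
    · exact le_rfl
  · by_cases h : p x.1 <;> simp [h]
theorem CHF.cnt {N : α → ℕ} (hN : Poly N) {B : α × ℕ → Prop} (hB : CH B) :
    CHF fun a => cnt (N a) fun y => B (a, y) := by
  have hB' := hB.comp (φ := fun z : (α × ℕ) × ℕ => (z.1.1, z.2)) (by fun_prop)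
  have h1 := CH.lt_cnt (N := fun x : α × ℕ => N x.1) (k := fun x => x.2 - 1) (by fun_prop)
    (by fun_prop) hB'
  have h2 := CH.lt_cnt (N := fun x : α × ℕ => N x.1) (k := fun x => x.2) (by fun_prop)
    (by fun_prop) hB'
  have h3 : CH fun x : α × ℕ => x.2 = 0 := CH.of_decide (by fun_prop)
  refine ⟨⟨N, hN, fun a => cnt_le _ _⟩, ((h3.or h1).and h2.not).congr fun x => ?_⟩
  dsimp only
  omega
theorem CHF.sum_range {N : α → ℕ} (hN : Poly N) {f : α → ℕ → ℕ}
    (hf : CHF fun x : α × ℕ => f x.1 x.2) : CHF fun a => ∑ y ∈ Finset.range (N a), f a y := by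
  obtain ⟨g, hg, h1⟩ := unif hf hN
  have h2 := CH.subst (hf.comp (φ := fun x : α × ℕ => (x.1, x.2 / g x.1)) (by fun_prop))
    (P := fun z => z.1.2 % g z.1.1 < z.2) (CH.of_decide (by fun_prop))
  exact (CHF.cnt (hN.mul hg) h2).congr fun a => cnt_sum _ _ _ fun i hi => (h1 a i hi.le).le

end Crest.Agent.R316
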