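import Mathlib
import Crest.Agent.Lib.PolyTime.More
import Crest.Prelude.Def_CountHier
import Crest.Prelude.Def_RealEA

/-!
Row 316 (existential-universal theory of the reals is in the counting hierarchy): all definitions.
-/

set_option autoImplicit false
open Crest.Agent.Lib.PolyTime
open scoped Polynomial

namespace Crest.Agent.R316

/-! ### Counting hierarchy on encoded types -/

/-- Functions `Fin n → β` are coded as lists. -/
instance instPEncFun {n : ℕ} {β : Type} [PEnc β] : PEnc (Fin n → β) :=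
  PEnc.ofInj List.ofFn List.ofFn_injective

open Classical in
/-- Number of `y < N` with `B y`. -/
noncomputable def cnt (N : ℕ) (B : ℕ → Prop) : ℕ := ((Finset.range N).filter B).card

/-- Levels of the counting hierarchy (threshold form) on encoded types. -/
def Lvl : ℕ → (α : Type) → [PEnc α] → (α → Prop) → Prop
  | 0, α, _, P => ∃ f : α → Bool, Poly f ∧ ∀ a, P a ↔ f a = true
  | j + 1, α, _, P => ∃ (N k : α → ℕ) (B : α × ℕ → Prop), Poly N ∧ Poly k ∧ Lvl j (α × ℕ) B ∧
      ∀ a, P a ↔ k a < cnt (N a) fun y => B (a, y)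

/-- Predicates in the counting hierarchy. -/
def CH {α : Type} [PEnc α] (P : α → Prop) : Prop := ∃ j, Lvl j α P

/-- Functions with polynomially many output bits whose graph is in the counting hierarchy. -/
def CHF {α : Type} [PEnc α] (f : α → ℕ) : Prop :=
  (∃ B : α → ℕ, Poly B ∧ ∀ a, f a ≤ B a) ∧ CH fun x : α × ℕ => f x.1 = x.2

/-- Exponentially bounded. -/
def EB {α : Type} [PEnc α] (f : α → ℕ) : Prop := ∃ s : α → ℕ, PB s ∧ ∀ a, f a ≤ 2 ^ s a

/-- Doubly exponentially bounded. -/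
def DB {α : Type} [PEnc α] (f : α → ℕ) : Prop := ∃ s : α → ℕ, PB s ∧ ∀ a, f a ≤ 2 ^ 2 ^ s a

/-! ### Towers of polynomial rings over `ℤ` -/

/-- A ring with a size function `nu` (weighted `ℓ¹` norm, every variable has weight `2`). -/
class Nu (K : Type) [CommRing K] where
  nu : K → ℕ
  nu_zero : nu 0 = 0
  nu_one : nu 1 ≤ 1
  nu_neg : ∀ x, nu (-x) = nu x
  nu_add : ∀ x y, nu (x + y) ≤ nu x + nu y
  nu_mul : ∀ x y, nu (x * y) ≤ nu x * nu y
  nu_pos : ∀ x, x ≠ 0 → 0 < nu x

/-- Evaluation maps modulo `p` at points coded by `P`. -/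
class Ev (P : outParam Type) (K : Type) [CommRing K] where
  ev : (p : ℕ) → P → K →+* ZMod p

export Nu (nu)
export Ev (ev)

instance instNuInt : Nu ℤ where
  nu := Int.natAbs
  nu_zero := rfl
  nu_one := le_rfl
  nu_neg := Int.natAbs_neg
  nu_add := Int.natAbs_add_le
  nu_mul x y := (Int.natAbs_mul x y).le
  nu_pos _ h := Int.natAbs_pos.2 h

instance instEvInt : Ev Unit ℤ where
  ev p _ := Int.castRingHom (ZMod p)

section AMA
set_option linter.unusedSectionVars false
variable {K M : Type} [CommRing K] [Nu K] [AddCommMonoid M]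

/-- Weighted `ℓ¹` norm on a monoid algebra. -/
noncomputable def nuAM (w : M → ℕ) (f : AddMonoidAlgebra K M) : ℕ :=
  f.coeff.sum fun m c => nu c * 2 ^ w m

theorem nu_sum_le {ι : Type} (s : Finset ι) (f : ι → K) :
    nu (∑ i ∈ s, f i) ≤ ∑ i ∈ s, nu (f i) := by
  classical
  induction s using Finset.induction_on with
  | empty => simp [Nu.nu_zero]
  | insert a s ha ih =>
    rw [Finset.sum_insert ha, Finset.sum_insert ha]
    exact (Nu.nu_add _ _).trans (by omega)

theorem nuAM_eq (w : M → ℕ) (f : AddMonoidAlgebra K M) {s : Finset M}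
    (hs : f.coeff.support ⊆ s) : nuAM w f = ∑ m ∈ s, nu (f.coeff m) * 2 ^ w m :=
  Finsupp.sum_of_support_subset f.coeff hs _ fun _ _ => by simp [Nu.nu_zero]

theorem nuAM_add (w : M → ℕ) (f g : AddMonoidAlgebra K M) :
    nuAM w (f + g) ≤ nuAM w f + nuAM w g := by
  classical
  rw [nuAM_eq w (f + g) (s := f.coeff.support ∪ g.coeff.support) Finsupp.support_add,
    nuAM_eq w f (s := f.coeff.support ∪ g.coeff.support) Finset.subset_union_left,
    nuAM_eq w g (s := f.coeff.support ∪ g.coeff.support) Finset.subset_union_right,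
    ← Finset.sum_add_distrib]
  refine Finset.sum_le_sum fun m _ => ?_
  rw [← add_mul]
  exact Nat.mul_le_mul_right _ (Nu.nu_add _ _)

theorem nuAM_zero (w : M → ℕ) : nuAM w (0 : AddMonoidAlgebra K M) = 0 := by
  simp [nuAM]

theorem nuAM_sum_le (w : M → ℕ) {ι : Type} (s : Finset ι) (f : ι → AddMonoidAlgebra K M) :
    nuAM w (∑ i ∈ s, f i) ≤ ∑ i ∈ s, nuAM w (f i) := by
  classical
  induction s using Finset.induction_on with
  | empty => simp [nuAM_zero]
  | insert a s ha ih =>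
    rw [Finset.sum_insert ha, Finset.sum_insert ha]
    exact (nuAM_add _ _ _).trans (by omega)

theorem nuAM_single (w : M → ℕ) (m : M) (c : K) :
    nuAM w (AddMonoidAlgebra.single m c) = nu c * 2 ^ w m :=
  Finsupp.sum_single_index (by simp [Nu.nu_zero])

theorem nuAM_neg (w : M → ℕ) (f : AddMonoidAlgebra K M) : nuAM w (-f) = nuAM w f := by
  rw [nuAM_eq w (-f) (s := f.coeff.support) (Finsupp.support_neg f.coeff).le,
    nuAM_eq w f subset_rfl]
  refine Finset.sum_congr rfl fun m _ => ?_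
  rw [show (-f).coeff m = -(f.coeff m) from rfl, Nu.nu_neg]

theorem nuAM_mul (w : M → ℕ) (hw : ∀ a b, w (a + b) ≤ w a + w b) (f g : AddMonoidAlgebra K M) :
    nuAM w (f * g) ≤ nuAM w f * nuAM w g := by
  rw [AddMonoidAlgebra.mul_def]
  refine (nuAM_sum_le w _ _).trans ?_
  rw [nuAM_eq w f subset_rfl, nuAM_eq w g subset_rfl, Finset.sum_mul_sum]
  refine Finset.sum_le_sum fun a _ => (nuAM_sum_le w _ _).trans ?_
  refine Finset.sum_le_sum fun b _ => ?_
  rw [nuAM_single]
  calc nu (f.coeff a * g.coeff b) * 2 ^ w (a + b)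
      ≤ (nu (f.coeff a) * nu (g.coeff b)) * 2 ^ (w a + w b) :=
        Nat.mul_le_mul (Nu.nu_mul _ _) (Nat.pow_le_pow_right (by norm_num) (hw a b))
    _ = _ := by rw [pow_add]; ring

theorem nuAM_pos (w : M → ℕ) (f : AddMonoidAlgebra K M) (hf : f ≠ 0) : 0 < nuAM w f := by
  obtain ⟨m, hm⟩ := Finsupp.support_nonempty_iff.2 (AddMonoidAlgebra.coeff_eq_zero.not.2 hf)
  rw [nuAM_eq w f subset_rfl]
  refine lt_of_lt_of_le ?_ (Finset.single_le_sum (f := fun m => nu (f.coeff m) * 2 ^ w m)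
    (fun _ _ => Nat.zero_le _) hm)
  exact Nat.mul_pos (Nu.nu_pos _ (Finsupp.mem_support_iff.1 hm)) (by positivity)

theorem nuAM_one (w : M → ℕ) (hw : w 0 = 0) : nuAM w (1 : AddMonoidAlgebra K M) ≤ 1 := by
  rw [AddMonoidAlgebra.one_def, nuAM_single, hw]
  simpa using Nu.nu_one

end AMA

noncomputable instance instNuPoly {K : Type} [CommRing K] [Nu K] : Nu K[X] where
  nu f := nuAM id f.toFinsupp
  nu_zero := nuAM_zero _
  nu_one := nuAM_one _ rfl
  nu_neg x := by rw [Polynomial.toFinsupp_neg, nuAM_neg]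
  nu_add x y := by rw [Polynomial.toFinsupp_add]; exact nuAM_add _ _ _
  nu_mul x y := by rw [Polynomial.toFinsupp_mul]; exact nuAM_mul _ (fun _ _ => le_rfl) _ _
  nu_pos x h := nuAM_pos _ _ (by simpa using h)

noncomputable instance instEvPoly {P K : Type} [CommRing K] [Ev P K] : Ev (ℕ × P) K[X] where
  ev p v := Polynomial.eval₂RingHom (ev p v.2) (v.1 : ZMod p)

noncomputable instance instNuMv {K : Type} [CommRing K] [Nu K] {n : ℕ} :
    Nu (MvPolynomial (Fin n) K) where
  nu f := nuAM (fun m : Fin n →₀ ℕ => m.degree) f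
  nu_zero := nuAM_zero _
  nu_one := nuAM_one _ (by simp)
  nu_neg x := nuAM_neg _ x
  nu_add x y := nuAM_add _ x y
  nu_mul x y := nuAM_mul _ (fun _ _ => by simp) x y
  nu_pos x h := nuAM_pos _ x h

noncomputable instance instEvMv {P K : Type} [CommRing K] [Ev P K] {n : ℕ} :
    Ev (List ℕ × P) (MvPolynomial (Fin n) K) where
  ev p v := MvPolynomial.eval₂Hom (ev p v.2) fun i => ((v.1.getD i 0 : ℕ) : ZMod p)

theorem nu_int (z : ℤ) : nu z = z.natAbs := rfl

theorem nu_poly {K : Type} [CommRing K] [Nu K] (f : K[X]) :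
    nu f = ∑ k ∈ f.support, nu (f.coeff k) * 2 ^ k := by
  cases f; rfl

theorem nu_mv {K : Type} [CommRing K] [Nu K] {n : ℕ} (f : MvPolynomial (Fin n) K) :
    nu f = ∑ m ∈ f.support, nu (f.coeff m) * 2 ^ m.degree := rfl

theorem ev_int (p : ℕ) (v : Unit) (z : ℤ) : ev p v z = (z : ZMod p) := rfl

theorem ev_poly {P K : Type} [CommRing K] [Ev P K] (p : ℕ) (v : ℕ × P) (f : K[X]) :
    ev p v f = f.eval₂ (ev p v.2) (v.1 : ZMod p) := rfl

theorem ev_mv {P K : Type} [CommRing K] [Ev P K] {n : ℕ} (p : ℕ) (v : List ℕ × P)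
    (f : MvPolynomial (Fin n) K) :
    ev p v f = f.eval₂ (ev p v.2) fun i : Fin n => ((v.1.getD i 0 : ℕ) : ZMod p) := rfl

/-- A family of ring elements of doubly exponential size whose values modulo all large primes
are computable in the counting hierarchy. -/
structure Good {α : Type} [PEnc α] {P : Type} [PEnc P] {K : α → Type} [∀ a, CommRing (K a)]
    [∀ a, Nu (K a)] [∀ a, Ev P (K a)] (f : ∀ a, K a) : Prop where
  size : DB fun a => nu (f a)
  eval : ∃ t : α → ℕ, PB t ∧ ∃ F : α × ℕ × P → ℕ, CHF F ∧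
    ∀ a p, p.Prime → 2 ^ t a ≤ p → ∀ v, ((F (a, p, v) : ℕ) : ZMod p) = ev p v (f a)

/-! ### Pham systems `y_i ^ E = G_i` -/

section Pham
open MvPolynomial
variable {K : Type} [CommRing K] {n : ℕ}

/-- Exponent vector. -/
noncomputable def ex (k : Fin n → ℕ) : Fin n →₀ ℕ := Finsupp.equivFunOnFinite.symm k

/-- All `k : Fin n → ℕ` with entries `< B`. -/
def box (n B : ℕ) : Finset (Fin n → ℕ) := Fintype.piFinset fun _ => Finset.range B

/-- Global residue, truncated at `B`. -/
noncomputable def tau (E B : ℕ) (G : Fin n → MvPolynomial (Fin n) K)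
    (h : MvPolynomial (Fin n) K) : K :=
  ∑ k ∈ box n B, coeff (ex fun i => E * (k i + 1) - 1) (h * ∏ i, G i ^ k i)

/-- Jacobian determinant of the system. -/
noncomputable def jac (E : ℕ) (G : Fin n → MvPolynomial (Fin n) K) : MvPolynomial (Fin n) K :=
  (Matrix.of fun i j => pderiv j (X i ^ E - G i)).det

/-- Trace form, truncated at `B`. -/
noncomputable def trB (E B : ℕ) (G : Fin n → MvPolynomial (Fin n) K)
    (h : MvPolynomial (Fin n) K) : K :=
  tau E B G (h * jac E G)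

/-- Trace form: the sum of `h` over the `E ^ n` roots of the system. -/
noncomputable def tr (E : ℕ) (G : Fin n → MvPolynomial (Fin n) K)
    (h : MvPolynomial (Fin n) K) : K :=
  trB E (h.totalDegree + 1) G h

/-- The degree condition. -/
def IsPham (E : ℕ) (G : Fin n → MvPolynomial (Fin n) K) : Prop := ∀ i, (G i).totalDegree < E

/-- `ζ` solves the system. -/
def IsSol (E : ℕ) (G : Fin n → MvPolynomial (Fin n) K) (ζ : Fin n → K) : Prop :=
  ∀ i, ζ i ^ E = eval ζ (G i)

/-- `ξ` lists the roots of the system with multiplicity. -/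
def Valid (E : ℕ) (G : Fin n → MvPolynomial (Fin n) ℂ) (ξ : Fin (E ^ n) → Fin n → ℂ) : Prop :=
  ∀ h, tr E G h = ∑ j, eval (ξ j) h

end Pham

/-! ### From power sums to coefficients and back -/

section Newton
open Polynomial Finset
variable {K : Type} [CommRing K]

/-- `n! · A · ∑_{i=1}^n (-1)^(i-1) p_i X^i / i` when `P i = A p_i`. -/
noncomputable def newtonS (n : ℕ) (P : ℕ → K) : K[X] :=
  ∑ i ∈ range n, C ((-1) ^ i * (∏ t ∈ range n, if t = i then 1 else ((t + 1 : ℕ) : K)) *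
    P (i + 1)) * X ^ (i + 1)

/-- `(n!)^(n+1) A^n e_j` when `P i = A p_i`. -/
noncomputable def newton (n : ℕ) (A : K) (P : ℕ → K) (j : ℕ) : K :=
  ∑ l ∈ range (n + 1), ((∏ t ∈ range n, if l ≤ t then ((t + 1 : ℕ) : K) else 1) *
    (((n.factorial : ℕ) : K) * A) ^ (n - l)) * (newtonS n P ^ l).coeff j

/-- `(n!)^(n+1) A^n ∏_j (X + z_j)` when `P i = A ∑_j z_j ^ i`. -/
noncomputable def chi (n : ℕ) (A : K) (P : ℕ → K) : K[X] :=
  ∑ i ∈ range (n + 1), C (newton n A P (n - i)) * X ^ i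

/-- `1 - ∏_j (1 - a z_j X)` for `U = a ∏_j (X - z_j)` of degree `D`. -/
noncomputable def revH (D : ℕ) (U : K[X]) : K[X] :=
  -∑ j ∈ range D, C (U.coeff (D - (j + 1)) * U.coeff D ^ j) * X ^ (j + 1)

/-- `D · rev - X · rev'` for `rev = 1 - revH`. -/
noncomputable def revN (D : ℕ) (U : K[X]) : K[X] :=
  C (D : K) + ∑ j ∈ range D,
    C (((D - (j + 1) : ℕ) : K) * (U.coeff (D - (j + 1)) * U.coeff D ^ j)) * X ^ (j + 1)

/-- `∑_j (a z_j) ^ m` for `U = a ∏_j (X - z_j)` of degree `D`. -/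
noncomputable def psum (D : ℕ) (U : K[X]) (m : ℕ) : K :=
  ∑ k ∈ range (m + 1), (revN D U * revH D U ^ k).coeff m

/-- `(∏_i a_i ^ e) ∑_z h(z)`, the sum over all tuples of roots of `U_1, …, U_M`. -/
noncomputable def tupTr {M : ℕ} (e : ℕ) (D : Fin M → ℕ) (U : Fin M → K[X])
    (h : MvPolynomial (Fin M) K) : K :=
  ∑ k ∈ box M (e + 1), MvPolynomial.coeff (ex k) h *
    ∏ i, ((U i).coeff (D i) ^ (e - k i) * psum (D i) (U i) (k i))

/-- `z` enumerates the complex roots of the integer polynomial `U` of degree `D`. -/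
def Enum (D : ℕ) (U : ℤ[X]) (z : Fin D → ℂ) : Prop :=
  U.coeff D ≠ 0 ∧ U.map (Int.castRingHom ℂ) = C ((U.coeff D : ℤ) : ℂ) * ∏ j, (X - C (z j))

/-- The coefficient of `λ ^ t` of `W ∈ K[λ][v]`, a polynomial in `v`. -/
noncomputable def layer (t : ℕ) (W : K[X][X]) : K[X] :=
  W.sum fun j c => monomial j (c.coeff t)

/-- Sum of the squares of the coefficients of index `≥ e`. -/
noncomputable def tailSq (e : ℕ) (f : K[X]) : K :=
  f.sum fun j c => if e ≤ j then c ^ 2 else 0

end Newton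

/-! ### Sign approximants and sign-linear conditions -/

section Sign
open Finset
variable {K : Type} [CommRing K]

/-- Newman's product, with nodes `2 ^ (k - L)`, `0 ≤ k ≤ 2 L`. -/
noncomputable def nwP (L m : ℕ) (y : K) : K :=
  (∏ k ∈ range (2 * L + 1), (2 ^ L * y + 2 ^ k)) ^ (2 * m)

/-- Numerator of the approximant of `sign y`. -/
noncomputable def nwNum (L m : ℕ) (y : K) : K := nwP L m y - nwP L m (-y)

/-- Denominator of the approximant of `sign y`. -/
noncomputable def nwDen (L m : ℕ) (y : K) : K := nwP L m y + nwP L m (-y)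

/-- Common denominator of one condition. -/
noncomputable def condDen (L m nt : ℕ) (y : ℕ → K) : K := ∏ k ∈ range nt, nwDen L m (y k)

/-- Numerator of `∑_k w_k s(y_k) - c`. -/
noncomputable def condNum (L m nt : ℕ) (y w : ℕ → K) (c : K) : K :=
  ∑ k ∈ range nt, w k * nwNum L m (y k) *
    (∏ k' ∈ range nt, if k' = k then 1 else nwDen L m (y k')) - c * condDen L m nt y

/-- Numerator of `4 ∑_i (∑_k w_{ik} s(y_{ik}) - c_i)² - 1`. -/
noncomputable def condPoly (L m nc nt : ℕ) (y w : ℕ → ℕ → K) (c : ℕ → K) : K :=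
  4 * ∑ i ∈ range nc, condNum L m nt (y i) (w i) (c i) ^ 2 *
    (∏ i' ∈ range nc, if i' = i then 1 else condDen L m nt (y i') ^ 2) -
    ∏ i ∈ range nc, condDen L m nt (y i) ^ 2

/-- Sign of a real number as an integer. -/
noncomputable def sg (t : ℝ) : ℤ := (SignType.sign t : ℤ)

/-- Hash of the Thom encoding. -/
noncomputable def hashv (q nt : ℕ) (U : ℤ[X]) (t : ℝ) : ℤ :=
  ∑ k ∈ range nt, ((3 ^ k % q : ℕ) : ℤ) * sg (Polynomial.aeval t (Polynomial.hasseDeriv k U))

/-- Range of the hashing modulus. -/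
def hashB (M nt : ℕ) : ℕ := 4 * (M * nt * nt) + 9

/-- `z` is a tuple of real roots of nonzero integer polynomials. -/
def Roots {M : ℕ} (U : Fin M → ℤ[X]) (z : Fin M → ℝ) : Prop :=
  ∀ i, U i ≠ 0 ∧ Polynomial.aeval (z i) (U i) = 0

/-- Predicates on real points given by a family of sign-linear conditions. -/
def Defn {α : Type} [PEnc α] (M : α → ℕ) (R : ∀ a, (Fin (M a) → ℝ) → Prop) : Prop :=
  ∃ (nc nt : α → ℕ) (h : ∀ a, ℕ → ℕ → MvPolynomial (Fin (M a)) ℤ) (w : α → ℕ → ℕ → ℤ)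
    (c : α → ℕ → ℤ), Poly nc ∧ Poly nt ∧ Good (fun x : α × ℕ × ℕ => h x.1 x.2.1 x.2.2) ∧
    Good (fun x : α × ℕ × ℕ => w x.1 x.2.1 x.2.2) ∧ Good (fun x : α × ℕ => c x.1 x.2) ∧
    ∀ a z, R a z ↔ ∀ i < nc a,
      ∑ k ∈ range (nt a), w a i k * sg (MvPolynomial.aeval z (h a i k)) = c a i

end Sign

/-! ### Penalty systems and cells -/

section Pen
open MvPolynomial Finset
variable {K : Type} [CommRing K] {n : ℕ}

/-- Critical point system `y_i ^ E = -λ ∂_i Q` of `penF`. -/
noncomputable def penG (l : K) (Q : MvPolynomial (Fin n) K) (i : Fin n) :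
    MvPolynomial (Fin n) K :=
  -(C l * pderiv i Q)

/-- Penalty function `∑ y_i ^ (E+1) + (E+1) λ Q`. -/
noncomputable def penF (E : ℕ) (l : K) (Q : MvPolynomial (Fin n) K) : MvPolynomial (Fin n) K :=
  ∑ i, X i ^ (E + 1) + C (((E + 1 : ℕ) : K) * l) * Q

/-- The linear form `∑ a ^ i y_i`. -/
noncomputable def uform (n : ℕ) (K : Type) [CommRing K] (a : ℕ) : MvPolynomial (Fin n) K :=
  ∑ i : Fin n, C ((a : K) ^ (i : ℕ)) * X i

/-- A multiple of `∏_j (X + g(ξ_j))`. -/
noncomputable def zeroPoly (E : ℕ) (G : Fin n → MvPolynomial (Fin n) K)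
    (g : MvPolynomial (Fin n) K) : K[X] :=
  chi (E ^ n) 1 fun m => tr E G (g ^ m)

/-- A multiple of `∏_{j,k} (X + u_a(ξ_j) - u_a(ξ_k))`. -/
noncomputable def pairPoly (E : ℕ) (G : Fin n → MvPolynomial (Fin n) K) (a : ℕ) : K[X] :=
  chi (E ^ n * E ^ n) 1 fun m => ∑ i ∈ range (m + 1),
    ((m.choose i : ℕ) : K) * (tr E G (uform n K a ^ i) * tr E G ((-uform n K a) ^ (m - i)))

/-- The inner penalty system, over `K[s]`, with `λ = s ^ κ`. -/
noncomputable def innG (κ : ℕ) (Q : MvPolynomial (Fin n) K) : Fin n → MvPolynomial (Fin n) K[X] :=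
  penG (Polynomial.X ^ κ) (map Polynomial.C Q)

/-- The inner test function `F - s`. -/
noncomputable def inng (E κ : ℕ) (Q : MvPolynomial (Fin n) K) : MvPolynomial (Fin n) K[X] :=
  penF E (Polynomial.X ^ κ) (map Polynomial.C Q) - C Polynomial.X

/-- Coefficients of the pair polynomial of the inner system. -/
noncomputable def cR (E κ : ℕ) (Q : MvPolynomial (Fin n) K) (a i : ℕ) : K[X] :=
  (pairPoly E (innG κ Q) a).coeff i

/-- Coefficients of the zero polynomial of the inner system. -/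
noncomputable def cZ (E κ : ℕ) (Q : MvPolynomial (Fin n) K) (i : ℕ) : K[X] :=
  (zeroPoly E (innG κ Q) (inng E κ Q)).coeff i

/-- Number of linear forms tried. -/
def gridB (E n : ℕ) : ℕ := E ^ n * E ^ n * n + 1

/-- Cell data `(o, a, e, o', e')`. -/
abbrev Cell : Type := ℕ × ℕ × ℕ × ℕ × ℕ

/-- The equation of a cell (a sum of squares). -/
noncomputable def cellEq (E κ : ℕ) (Q : MvPolynomial (Fin n) K) (d : Cell) : K :=
  ∑ a ∈ range (gridB E n), ∑ i ∈ range d.1, tailSq 0 (cR E κ Q a i) +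
    tailSq (d.2.2.1 + 1) (cR E κ Q d.2.1 d.1) +
    ∑ i ∈ range d.2.2.2.1, tailSq 0 (cZ E κ Q i) +
    tailSq (d.2.2.2.2 + 1) (cZ E κ Q d.2.2.2.1)

/-- The inequation of a cell. -/
noncomputable def cellNe (E κ : ℕ) (Q : MvPolynomial (Fin n) K) (d : Cell) : K :=
  (cR E κ Q d.2.1 d.1).coeff d.2.2.1 * (cZ E κ Q d.2.2.2.1).coeff d.2.2.2.2

/-- The real polynomial `Q` lies in the cell `d`. -/
def InCell (E κ : ℕ) (Q : MvPolynomial (Fin n) ℝ) (d : Cell) : Prop :=
  cellEq E κ Q d = 0 ∧ cellNe E κ Q d ≠ 0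

/-- A multiple of `∏_j (v - ξ_{j,i}(λ))` over the critical points of the penalty function. -/
noncomputable def candW (E : ℕ) (Q : MvPolynomial (Fin n) K) (i : Fin n) : K[X][X] :=
  zeroPoly E (penG Polynomial.X (map Polynomial.C Q)) (-X i)

/-- `Q(x, y)²` as a polynomial in `y`. -/
noncomputable def Qx {r : ℕ} (x : Fin r → K) (Q : MvPolynomial (Fin (r + n)) ℤ) :
    MvPolynomial (Fin n) K :=
  aeval (Fin.append (fun i => C (x i)) X) Q ^ 2

/-- Standing hypotheses on the parameters of the inner system. -/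
structure Params (E κ : ℕ) (Q : MvPolynomial (Fin n) K) : Prop where
  odd : Odd E
  deg : Q.totalDegree ≤ E
  big : E ^ n < κ

end Pen

end Crest.Agent.R316
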