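import Crest.Agent.R316.DelinAux

/-! Delineability: truth is locally constant on cells. -/

set_option autoImplicit false
open Crest.Agent.Lib.PolyTime
open scoped Polynomial

namespace Crest.Agent.R316

open MvPolynomial Finset

variable {K : Type} [CommRing K] {n E κ : ℕ}

open Classical in
theorem delin {Θ : Type} [TopologicalSpace Θ] (ψ : Θ → K →+* ℝ)
    (hψ : ∀ k, Continuous fun θ => ψ θ k) {G : Fin n → MvPolynomial (Fin n) K} (hG : IsPham E G)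
    (g : MvPolynomial (Fin n) K) (o o' : ℕ)
    (h : ∀ θ ξ, Valid E (fun i => map ((algebraMap ℝ ℂ).comp (ψ θ)) (G i)) ξ →
      #{jk : Fin (E ^ n) × Fin (E ^ n) | ξ jk.1 = ξ jk.2} = o ∧
      #{j | eval (ξ j) (map ((algebraMap ℝ ℂ).comp (ψ θ)) g) = 0} = o') :
    IsLocallyConstant fun θ =>
      ∃ y, IsSol E (fun i => map (ψ θ) (G i)) y ∧ eval y (map (ψ θ) g) < 0 :=
  DelinAux.delin' ψ hψ hG g o o' h

theorem exists_cell {Q : MvPolynomial (Fin n) ℝ} (hp : Params E κ Q) :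
    ∃ d : Cell, InCell E κ Q d ∧ d.1 ≤ E ^ n * E ^ n ∧ d.2.1 < gridB E n ∧ d.2.2.2.1 ≤ E ^ n :=
  DelinAux.exists_cell' hp

theorem cell_locallyConstant {Θ : Type} [TopologicalSpace Θ] (ψ : Θ → K →+* ℝ)
    (hψ : ∀ k, Continuous fun θ => ψ θ k) {Q : MvPolynomial (Fin n) K} (hp : Params E κ Q)
    (hQ0 : ∀ θ y, 0 ≤ eval y (map (ψ θ) Q)) {d : Cell} (hd : ∀ θ, InCell E κ (map (ψ θ) Q) d) :
    IsLocallyConstant fun θ => ∃ y, eval y (map (ψ θ) Q) = 0 := by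
  obtain ⟨B₁, hc₁, h0₁, hB₁⟩ := DelinAux.exists_cont_bound ψ hψ (cR E κ Q d.2.1 d.1) d.2.2.1
    (fun θ => by rw [map_cR hp]; exact (DelinAux.inCell_iff.1 (hd θ)).1.2.1)
    (fun θ => by rw [map_cR hp]; exact (DelinAux.inCell_iff.1 (hd θ)).2.1)
  obtain ⟨B₂, hc₂, h0₂, hB₂⟩ := DelinAux.exists_cont_bound ψ hψ (cZ E κ Q d.2.2.2.1) d.2.2.2.2
    (fun θ => by rw [map_cZ hp]; exact (DelinAux.inCell_iff.1 (hd θ)).1.2.2.2)
    (fun θ => by rw [map_cZ hp]; exact (DelinAux.inCell_iff.1 (hd θ)).2.2)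
  simp only [map_cR hp] at hB₁
  simp only [map_cZ hp] at hB₂
  have h1 : ∀ θ t, B₁ θ + B₂ θ ≤ t → (cR E κ (map (ψ θ) Q) d.2.1 d.1).eval t ≠ 0 :=
    fun θ t ht => hB₁ θ t (by linarith [h0₂ θ])
  have h2 : ∀ θ t, B₁ θ + B₂ θ ≤ t → (cZ E κ (map (ψ θ) Q) d.2.2.2.1).eval t ≠ 0 :=
    fun θ t ht => hB₂ θ t (by linarith [h0₁ θ])
  have key := DelinAux.delin_pen ψ hψ hp hQ0 hd (hc₁.add hc₂)
    (fun θ => add_nonneg (h0₁ θ) (h0₂ θ)) (fun θ => h1 θ _ le_rfl) (fun θ => h2 θ _ le_rfl)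
  convert key using 2 with θ
  exact (DelinAux.pen_const (hp.map _) (hQ0 θ) (hd θ) (add_nonneg (h0₁ θ) (h0₂ θ))
    (h1 θ) (h2 θ)).symm

theorem cell_threshold {Q : MvPolynomial (Fin n) ℝ} (hp : Params E κ Q)
    (hQ0 : ∀ y, 0 ≤ eval y Q) {H : ℝ}
    (hR : ∀ a < gridB E n, ∀ i ≤ E ^ n * E ^ n, ∀ e, |(cR E κ Q a i).coeff e| ≤ H ∧
      ((cR E κ Q a i).coeff e ≠ 0 → 1 ≤ H * |(cR E κ Q a i).coeff e|))
    (hZ : ∀ i ≤ E ^ n, ∀ e, |(cZ E κ Q i).coeff e| ≤ H ∧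
      ((cZ E κ Q i).coeff e ≠ 0 → 1 ≤ H * |(cZ E κ Q i).coeff e|))
    {s : ℝ} (hs : H * H + 1 ≤ s) :
    (∃ y, eval y (penF E (s ^ κ) Q) < s) ↔ ∃ y, eval y Q = 0 := by
  obtain ⟨d, hd, hd1, hd2, hd3⟩ := exists_cell hp
  obtain ⟨-, h1, h2⟩ := DelinAux.inCell_iff.1 hd
  refine DelinAux.pen_const hp hQ0 hd (by nlinarith [mul_self_nonneg H]) (fun t ht => ?_)
    fun t ht => ?_
  · exact DelinAux.eval_ne_zero_of_bound (fun h0 => h1 (by simp [h0])) (hR _ hd2 _ hd1)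
      (hs.trans ht)
  · exact DelinAux.eval_ne_zero_of_bound (fun h0 => h2 (by simp [h0])) (hZ _ hd3)
      (hs.trans ht)

end Crest.Agent.R316
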