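import Crest.Agent.R316.Penalty

/-! Auxiliary lemmas for delineability. -/

set_option autoImplicit false
open Crest.Agent.Lib.PolyTime
open scoped Polynomial

namespace Crest.Agent.R316.DelinAux

open MvPolynomial Finset Filter Topology

variable {K : Type} [CommRing K] {n E κ : ℕ}

/-! ### Real and complex points -/

theorem eval_ofReal (p : MvPolynomial (Fin n) ℝ) (y : Fin n → ℝ) :
    eval (fun i => (y i : ℂ)) (map (algebraMap ℝ ℂ) p) = ((eval y p : ℝ) : ℂ) := by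
  induction p using MvPolynomial.induction_on with
  | C a => simp
  | add p q hp hq => simp [hp, hq]
  | mul_X p i hp => simp [hp]

theorem eval_star (p : MvPolynomial (Fin n) ℝ) (z : Fin n → ℂ) :
    eval (star z) (map (algebraMap ℝ ℂ) p) = star (eval z (map (algebraMap ℝ ℂ) p)) := by
  induction p using MvPolynomial.induction_on with
  | C a => simp
  | add p q hp hq => simp only [map_add, hp, hq, star_add]
  | mul_X p i hp => simp only [map_mul, map_X, eval_X, hp, star_mul', Pi.star_apply]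

theorem isSol_ofReal {G : Fin n → MvPolynomial (Fin n) ℝ} (y : Fin n → ℝ) :
    IsSol E (fun i => map (algebraMap ℝ ℂ) (G i)) (fun i => (y i : ℂ)) ↔ IsSol E G y := by
  unfold IsSol
  refine forall_congr' fun i => ?_
  rw [eval_ofReal, ← Complex.ofReal_pow, Complex.ofReal_inj]

theorem isSol_star {G : Fin n → MvPolynomial (Fin n) ℝ} {z : Fin n → ℂ}
    (h : IsSol E (fun i => map (algebraMap ℝ ℂ) (G i)) z) :
    IsSol E (fun i => map (algebraMap ℝ ℂ) (G i)) (star z) := by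
  intro i
  rw [eval_star, ← h i, Pi.star_apply, star_pow]

theorem eq_ofReal_of_star {z : Fin n → ℂ} (h : star z = z) : z = fun i => ((z i).re : ℂ) := by
  funext i
  have := congrFun h i
  rw [Pi.star_apply] at this
  exact (Complex.conj_eq_iff_re.1 this).symm

theorem exists_iff {G : Fin n → MvPolynomial (Fin n) ℝ} (hG : IsPham E G)
    (g : MvPolynomial (Fin n) ℝ) {ξ : Fin (E ^ n) → Fin n → ℂ}
    (hξ : Valid E (fun i => map (algebraMap ℝ ℂ) (G i)) ξ) :
    (∃ y, IsSol E G y ∧ eval y g < 0) ↔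
      ∃ j, star (ξ j) = ξ j ∧ (eval (ξ j) (map (algebraMap ℝ ℂ) g)).re < 0 := by
  constructor
  · rintro ⟨y, hy, hg⟩
    obtain ⟨j, hj⟩ := (hξ.mem_range_iff (hG.map _) _).2 ((isSol_ofReal y).2 hy)
    refine ⟨j, ?_, ?_⟩
    · rw [hj]; funext i; simp
    · rw [hj, eval_ofReal]; simpa using hg
  · rintro ⟨j, hj, hg⟩
    have h1 := (hξ.mem_range_iff (hG.map _) _).1 ⟨j, rfl⟩
    rw [eq_ofReal_of_star hj] at h1 hg
    rw [eval_ofReal] at hg
    exact ⟨_, (isSol_ofReal _).1 h1, by simpa using hg⟩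

/-! ### Bounds on the roots -/

theorem norm_eval_le (p : MvPolynomial (Fin n) K) (f : K →+* ℂ) (z : Fin n → ℂ) {ρ : ℝ}
    (h1 : 1 ≤ ρ) (hz : ∀ i, ‖z i‖ ≤ ρ) {D : ℕ} (hD : p.totalDegree ≤ D) :
    ‖eval z (map f p)‖ ≤ (∑ m ∈ p.support, ‖f (coeff m p)‖) * ρ ^ D := by
  rw [eval_map, eval₂_eq', Finset.sum_mul]
  refine (norm_sum_le _ _).trans (Finset.sum_le_sum fun m hm => ?_)
  rw [norm_mul]
  refine mul_le_mul_of_nonneg_left ?_ (norm_nonneg _)
  rw [norm_prod]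
  calc ∏ i, ‖z i ^ m i‖ ≤ ∏ i, ρ ^ m i := by
        refine Finset.prod_le_prod (fun _ _ => norm_nonneg _) fun i _ => ?_
        rw [norm_pow]
        exact pow_le_pow_left₀ (norm_nonneg _) (hz i) _
    _ = ρ ^ (∑ i, m i) := Finset.prod_pow_eq_pow_sum _ _ _
    _ ≤ ρ ^ D := by
        refine pow_le_pow_right₀ h1 (le_trans ?_ hD)
        have := le_totalDegree hm
        rwa [Finsupp.sum_fintype _ _ (fun _ => rfl)] at this

theorem norm_sol_le {G : Fin n → MvPolynomial (Fin n) K} (hG : IsPham E G) (f : K →+* ℂ)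
    {z : Fin n → ℂ} (hz : IsSol E (fun i => map f (G i)) z) :
    ‖z‖ ≤ 1 + ∑ i, ∑ m ∈ (G i).support, ‖f (coeff m (G i))‖ := by
  have hS : 0 ≤ ∑ i, ∑ m ∈ (G i).support, ‖f (coeff m (G i))‖ :=
    Finset.sum_nonneg fun _ _ => Finset.sum_nonneg fun _ _ => norm_nonneg _
  by_contra hlt
  push Not at hlt
  have h1 : 1 ≤ ‖z‖ := by linarith
  rcases isEmpty_or_nonempty (Fin n) with hn | hn
  · have : z = 0 := Subsingleton.elim _ _
    rw [this, norm_zero] at h1
    linarith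
  obtain ⟨i, -, hi⟩ := Finset.exists_max_image Finset.univ (fun i => ‖z i‖) Finset.univ_nonempty
  have hzi : ‖z‖ = ‖z i‖ :=
    le_antisymm ((pi_norm_le_iff_of_nonneg (norm_nonneg _)).2 fun j => hi j (mem_univ _))
      (norm_le_pi_norm z i)
  obtain ⟨D, rfl⟩ : ∃ D, E = D + 1 := ⟨E - 1, by have := hG i; omega⟩
  have h2 := norm_eval_le (G i) f z h1 (norm_le_pi_norm z) (D := D) (by have := hG i; omega)
  rw [← hz i, norm_pow, ← hzi, pow_succ, mul_comm] at h2
  have h3 : ‖z‖ ≤ ∑ m ∈ (G i).support, ‖f (coeff m (G i))‖ :=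
    le_of_mul_le_mul_right h2 (by positivity)
  have h4 : ∑ m ∈ (G i).support, ‖f (coeff m (G i))‖ ≤
      ∑ i, ∑ m ∈ (G i).support, ‖f (coeff m (G i))‖ :=
    Finset.single_le_sum (f := fun i => ∑ m ∈ (G i).support, ‖f (coeff m (G i))‖)
      (fun _ _ => Finset.sum_nonneg fun _ _ => norm_nonneg _) (mem_univ i)
  linarith

/-! ### Continuity in the parameter -/

section Cont
variable {Θ : Type} [TopologicalSpace Θ]

theorem continuous_eval_map (φ : Θ → K →+* ℂ) (hφ : ∀ k, Continuous fun θ => φ θ k)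
    (p : MvPolynomial (Fin n) K) :
    Continuous fun x : Θ × (Fin n → ℂ) => eval x.2 (map (φ x.1) p) := by
  induction p using MvPolynomial.induction_on with
  | C a => simp only [map_C, eval_C]; exact (hφ a).comp continuous_fst
  | add p q hp hq => simp only [map_add]; exact hp.add hq
  | mul_X p i hp =>
    simp only [map_mul, map_X, eval_X]
    exact hp.mul ((continuous_apply i).comp continuous_snd)

/-- The family `φ` as one ring homomorphism to continuous functions. -/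
noncomputable def toCont (φ : Θ → K →+* ℂ) (hφ : ∀ k, Continuous fun θ => φ θ k) :
    K →+* C(Θ, ℂ) where
  toFun k := ⟨fun θ => φ θ k, hφ k⟩
  map_one' := by ext; simp
  map_mul' _ _ := by ext; simp
  map_zero' := by ext; simp
  map_add' _ _ := by ext; simp

/-- Evaluation of a continuous function at a point. -/
noncomputable def evAt (θ : Θ) : C(Θ, ℂ) →+* ℂ where
  toFun f := f θ
  map_one' := rfl
  map_mul' _ _ := rfl
  map_zero' := rfl
  map_add' _ _ := rfl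

theorem continuous_tr (φ : Θ → K →+* ℂ) (hφ : ∀ k, Continuous fun θ => φ θ k)
    {G : Fin n → MvPolynomial (Fin n) K} (hG : IsPham E G) (h : MvPolynomial (Fin n) ℂ) :
    Continuous fun θ => tr E (fun i => map (φ θ) (G i)) h := by
  have key : ∀ θ, tr E (fun i => map (φ θ) (G i)) h =
      (tr E (fun i => map (toCont φ hφ) (G i)) (map (algebraMap ℂ C(Θ, ℂ)) h)) θ := by
    intro θ
    have := map_tr (hG.map (toCont φ hφ)) (evAt θ) (map (algebraMap ℂ C(Θ, ℂ)) h)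
    have e1 : (evAt θ).comp (toCont φ hφ) = φ θ := by ext; rfl
    have e2 : (evAt θ).comp (algebraMap ℂ C(Θ, ℂ)) = RingHom.id ℂ := by
      ext1 z; simp [evAt]
    simp only [MvPolynomial.map_map, e1, e2, MvPolynomial.map_id] at this
    exact this.symm
  simp only [key]
  exact ContinuousMap.continuous _

theorem valid_limit (φ : Θ → K →+* ℂ) (hφ : ∀ k, Continuous fun θ => φ θ k)
    {G : Fin n → MvPolynomial (Fin n) K} (hG : IsPham E G) {ξ : Θ → Fin (E ^ n) → Fin n → ℂ}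
    (hξ : ∀ θ, Valid E (fun i => map (φ θ) (G i)) (ξ θ)) {θ₀ : Θ} {U : Filter Θ} [U.NeBot]
    (hU : U ≤ 𝓝 θ₀) {ζ : Fin (E ^ n) → Fin n → ℂ} (hζ : Tendsto ξ U (𝓝 ζ)) :
    Valid E (fun i => map (φ θ₀) (G i)) ζ := by
  intro h
  have h1 : Tendsto (fun θ => tr E (fun i => map (φ θ) (G i)) h) U
      (𝓝 (tr E (fun i => map (φ θ₀) (G i)) h)) :=
    ((continuous_tr φ hφ hG h).tendsto θ₀).mono_left hU
  have h2 : Tendsto (fun θ => ∑ j, eval (ξ θ j) h) U (𝓝 (∑ j, eval (ζ j) h)) := by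
    refine tendsto_finsetSum _ fun j _ => ?_
    exact ((MvPolynomial.continuous_eval h).tendsto _).comp
      (((continuous_apply j).tendsto ζ).comp hζ)
  refine tendsto_nhds_unique h1 (h2.congr fun θ => (hξ θ h).symm)

theorem exists_limit_list (φ : Θ → K →+* ℂ) (hφ : ∀ k, Continuous fun θ => φ θ k)
    {G : Fin n → MvPolynomial (Fin n) K} (hG : IsPham E G) {ξ : Θ → Fin (E ^ n) → Fin n → ℂ}
    (hξ : ∀ θ, Valid E (fun i => map (φ θ) (G i)) (ξ θ)) {θ₀ : Θ} (U : Ultrafilter Θ)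
    (hU : (U : Filter Θ) ≤ 𝓝 θ₀) : ∃ ζ, Tendsto ξ U (𝓝 ζ) := by
  set B : Θ → ℝ := fun θ => 1 + ∑ i, ∑ m ∈ (G i).support, ‖φ θ (coeff m (G i))‖ with hB
  have hBc : Continuous B :=
    continuous_const.add (continuous_finsetSum _ fun i _ =>
      continuous_finsetSum _ fun m _ => (hφ _).norm)
  have hB0 : ∀ θ, 0 ≤ B θ := fun θ => by
    have : 0 ≤ ∑ i, ∑ m ∈ (G i).support, ‖φ θ (coeff m (G i))‖ :=
      Finset.sum_nonneg fun _ _ => Finset.sum_nonneg fun _ _ => norm_nonneg _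
    simp only [hB]; linarith
  have hle : ∀ θ, ‖ξ θ‖ ≤ B θ := fun θ =>
    (pi_norm_le_iff_of_nonneg (hB0 θ)).2 fun j =>
      norm_sol_le hG (φ θ) (((hξ θ).mem_range_iff (hG.map _) _).1 ⟨j, rfl⟩)
  have hev : ∀ᶠ θ in (U : Filter Θ), B θ < B θ₀ + 1 :=
    hU ((hBc.tendsto θ₀).eventually (gt_mem_nhds (lt_add_one _)))
  obtain ⟨ζ, -, hζ⟩ := (isCompact_closedBall (0 : Fin (E ^ n) → Fin n → ℂ) (B θ₀ + 1)).ultrafilter_le_nhds'
    (U.map ξ) (by
      rw [Ultrafilter.mem_map]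
      filter_upwards [hev] with θ hθ
      simp only [Set.mem_preimage, mem_closedBall_zero_iff]
      exact (hle θ).trans hθ.le)
  exact ⟨ζ, hζ⟩

omit [TopologicalSpace Θ] in
theorem eventually_rel {ι α : Type} [Fintype ι] [TopologicalSpace α] [T2Space α] {U : Filter Θ}
    {a b : Θ → ι → α} {a₀ b₀ : ι → α} (ha : ∀ i, Tendsto (fun θ => a θ i) U (𝓝 (a₀ i)))
    (hb : ∀ i, Tendsto (fun θ => b θ i) U (𝓝 (b₀ i))) [∀ θ, DecidablePred fun i => a θ i = b θ i]
    [DecidablePred fun i => a₀ i = b₀ i]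
    (hc : ∀ θ, #{i | a θ i = b θ i} = #{i | a₀ i = b₀ i}) :
    ∀ᶠ θ in U, ∀ i, a θ i = b θ i ↔ a₀ i = b₀ i := by
  have h1 : ∀ᶠ θ in U, ∀ i, a θ i = b θ i → a₀ i = b₀ i := by
    rw [eventually_all]
    intro i
    by_cases h : a₀ i = b₀ i
    · exact Eventually.of_forall fun _ _ => h
    · filter_upwards [((ha i).prodMk_nhds (hb i)).eventually
        ((isClosed_diagonal (X := α)).isOpen_compl.mem_nhds (show (a₀ i, b₀ i) ∈ _ from h))]
        with θ hθ h' using absurd h' hθ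
  filter_upwards [h1] with θ hθ i
  have : Finset.univ.filter (fun i => a θ i = b θ i) = Finset.univ.filter fun i => a₀ i = b₀ i :=
    Finset.eq_of_subset_of_card_le (fun i hi => by
      simp only [mem_filter, mem_univ, true_and] at hi ⊢
      exact hθ i hi) (hc θ).ge
  simpa using Finset.ext_iff.1 this i

open Classical in
theorem delinC (φ : Θ → K →+* ℂ) (hφ : ∀ k, Continuous fun θ => φ θ k)
    (hst : ∀ θ z (p : MvPolynomial (Fin n) K),
      eval (star z) (map (φ θ) p) = star (eval z (map (φ θ) p)))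
    {G : Fin n → MvPolynomial (Fin n) K} (hG : IsPham E G)
    (g : MvPolynomial (Fin n) K) (o o' : ℕ)
    (h : ∀ θ ξ, Valid E (fun i => map (φ θ) (G i)) ξ →
      #{jk : Fin (E ^ n) × Fin (E ^ n) | ξ jk.1 = ξ jk.2} = o ∧
      #{j | eval (ξ j) (map (φ θ) g) = 0} = o') (P : Θ → Prop)
    (key : ∀ θ ξ, Valid E (fun i => map (φ θ) (G i)) ξ →
      (P θ ↔ ∃ j, star (ξ j) = ξ j ∧ (eval (ξ j) (map (φ θ) g)).re < 0)) :
    IsLocallyConstant P := by
  choose ξ hξ using fun θ => exists_valid (hG.map (φ θ))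
  rw [IsLocallyConstant.iff_eventually_eq]
  intro θ₀
  refine Filter.mem_iff_ultrafilter.2 fun U hU => ?_
  obtain ⟨ζ, hζ⟩ := exists_limit_list φ hφ hG hξ U hU
  have hζv := valid_limit φ hφ hG hξ hU hζ
  have hζj : ∀ j, Tendsto (fun θ => ξ θ j) U (𝓝 (ζ j)) := fun j =>
    ((continuous_apply j).tendsto ζ).comp hζ
  have hgj : ∀ j, Tendsto (fun θ => eval (ξ θ j) (map (φ θ) g)) U
      (𝓝 (eval (ζ j) (map (φ θ₀) g))) := fun j => by
    have := ((continuous_eval_map φ hφ g).tendsto (θ₀, ζ j)).comp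
      ((tendsto_id.mono_right hU).prodMk_nhds (hζj j))
    simpa only [Function.comp_def, id] using this
  have e1 : ∀ᶠ θ in (U : Filter Θ), ∀ jk : Fin (E ^ n) × Fin (E ^ n),
      ξ θ jk.1 = ξ θ jk.2 ↔ ζ jk.1 = ζ jk.2 :=
    eventually_rel (ι := Fin (E ^ n) × Fin (E ^ n))
      (a := fun θ jk => ξ θ jk.1) (b := fun θ jk => ξ θ jk.2)
      (a₀ := fun jk => ζ jk.1) (b₀ := fun jk => ζ jk.2)
      (fun jk => hζj jk.1) (fun jk => hζj jk.2)
      fun θ => (h θ _ (hξ θ)).1.trans (h θ₀ _ hζv).1.symm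
  have e2 : ∀ᶠ θ in (U : Filter Θ), ∀ j,
      eval (ξ θ j) (map (φ θ) g) = 0 ↔ eval (ζ j) (map (φ θ₀) g) = 0 :=
    eventually_rel (a := fun θ j => eval (ξ θ j) (map (φ θ) g)) (b := fun _ _ => 0)
      (a₀ := fun j => eval (ζ j) (map (φ θ₀) g)) (b₀ := fun _ => 0)
      hgj (fun _ => tendsto_const_nhds)
      fun θ => (h θ _ (hξ θ)).2.trans (h θ₀ _ hζv).2.symm
  suffices hs : ∀ᶠ θ in (U : Filter Θ),
      ((∃ j, star (ξ θ j) = ξ θ j ∧ (eval (ξ θ j) (map (φ θ) g)).re < 0) ↔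
        ∃ j, star (ζ j) = ζ j ∧ (eval (ζ j) (map (φ θ₀) g)).re < 0) by
    refine hs.mono fun θ hθ => ?_
    exact propext (((key θ _ (hξ θ)).trans hθ).trans (key θ₀ _ hζv).symm)
  by_cases h0 : ∃ j, star (ζ j) = ζ j ∧ (eval (ζ j) (map (φ θ₀) g)).re < 0
  · simp only [h0, iff_true]
    obtain ⟨j, hj, hg⟩ := h0
    have hk : ∀ᶠ θ in (U : Filter Θ), ∃ k, ξ θ k = star (ξ θ j) := by
      refine Eventually.of_forall fun θ => ?_
      refine ((hξ θ).mem_range_iff (hG.map _) _).2 fun i => ?_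
      have := ((hξ θ).mem_range_iff (hG.map _) _).1 ⟨j, rfl⟩ i
      rw [hst, ← this, Pi.star_apply, star_pow]
    obtain ⟨k, hk⟩ := Ultrafilter.eventually_exists_iff.1 hk
    have hjk : ζ k = ζ j := by
      rw [← hj]
      exact tendsto_nhds_unique_of_eventuallyEq (hζj k)
        ((continuous_star.tendsto _).comp (hζj j)) hk
    have hg' : ∀ᶠ θ in (U : Filter Θ), (eval (ξ θ j) (map (φ θ) g)).re < 0 :=
      ((Complex.continuous_re.tendsto _).comp (hgj j)).eventually (gt_mem_nhds hg)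
    filter_upwards [hk, hg', e1] with θ h1 h2 h3
    exact ⟨j, by rw [← h1]; exact (h3 (k, j)).2 hjk, h2⟩
  · simp only [h0, iff_false]
    by_contra hcon
    rw [← Ultrafilter.eventually_not] at hcon
    simp only [not_not] at hcon
    obtain ⟨j, hj⟩ := Ultrafilter.eventually_exists_iff.1 hcon
    have h1 : star (ζ j) = ζ j :=
      tendsto_nhds_unique_of_eventuallyEq ((continuous_star.tendsto _).comp (hζj j)) (hζj j)
        (hj.mono fun θ h => h.1)
    have h2 : (eval (ζ j) (map (φ θ₀) g)).re ≤ 0 :=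
      le_of_tendsto ((Complex.continuous_re.tendsto _).comp (hgj j)) (hj.mono fun θ h => h.2.le)
    have h3 : eval (ζ j) (map (φ θ₀) g) ≠ 0 := by
      obtain ⟨θ, ha, hb⟩ := (hj.and e2).exists
      intro h0
      have := ha.2
      rw [(hb j).2 h0] at this
      simp at this
    refine h0 ⟨j, h1, lt_of_le_of_ne h2 fun h4 => h3 ?_⟩
    have h5 := hst θ₀ (ζ j) g
    rw [h1] at h5
    rw [← Complex.conj_eq_iff_re.1 h5.symm, h4]
    simp

open Classical in
theorem delin' (ψ : Θ → K →+* ℝ)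
    (hψ : ∀ k, Continuous fun θ => ψ θ k) {G : Fin n → MvPolynomial (Fin n) K} (hG : IsPham E G)
    (g : MvPolynomial (Fin n) K) (o o' : ℕ)
    (h : ∀ θ ξ, Valid E (fun i => map ((algebraMap ℝ ℂ).comp (ψ θ)) (G i)) ξ →
      #{jk : Fin (E ^ n) × Fin (E ^ n) | ξ jk.1 = ξ jk.2} = o ∧
      #{j | eval (ξ j) (map ((algebraMap ℝ ℂ).comp (ψ θ)) g) = 0} = o') :
    IsLocallyConstant fun θ =>
      ∃ y, IsSol E (fun i => map (ψ θ) (G i)) y ∧ eval y (map (ψ θ) g) < 0 := by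
  refine delinC (fun θ => (algebraMap ℝ ℂ).comp (ψ θ))
    (fun k => Complex.continuous_ofReal.comp (hψ k)) (fun θ z p => ?_) hG g o o' h _
    fun θ ξ hξ => ?_
  · rw [← MvPolynomial.map_map, eval_star]
  · rw [← MvPolynomial.map_map]
    exact exists_iff (hG.map _) _ (by simpa only [MvPolynomial.map_map] using hξ)

end Cont

/-! ### Counting coincidences -/

theorem eval_uform (a : ℕ) (z : Fin n → ℂ) :
    eval z (uform n ℂ a) = ∑ i : Fin n, (a : ℂ) ^ (i : ℕ) * z i := by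
  simp [uform]

open Classical in
theorem card_bad_le {p q : Fin n → ℂ} (hpq : p ≠ q) (B : ℕ) :
    #{a ∈ range B | eval p (uform n ℂ a) - eval q (uform n ℂ a) = 0} ≤ n := by
  set f : ℂ[X] := ∑ i : Fin n, Polynomial.monomial (i : ℕ) (p i - q i) with hf
  have hcoef : ∀ i : Fin n, f.coeff i = p i - q i := by
    intro i
    rw [hf, Polynomial.finsetSum_coeff, Finset.sum_eq_single i]
    · simp
    · intro j _ hj
      rw [Polynomial.coeff_monomial, if_neg (fun h => hj (Fin.ext h))]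
    · simp
  have hf0 : f ≠ 0 := by
    intro h0
    apply hpq
    funext i
    have := hcoef i
    rw [h0, Polynomial.coeff_zero] at this
    exact (sub_eq_zero.1 this.symm)
  have hdeg : f.natDegree ≤ n := by
    refine Polynomial.natDegree_sum_le_of_forall_le _ _ fun i _ => ?_
    exact (Polynomial.natDegree_monomial_le _).trans i.2.le
  refine le_trans ?_ ((Polynomial.card_roots' f).trans hdeg)
  refine le_trans ?_ (Multiset.toFinset_card_le _)
  refine Finset.card_le_card_of_injOn (fun a : ℕ => (a : ℂ)) (fun a ha => ?_)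
    (fun a _ b _ h => Nat.cast_injective h)
  simp only [coe_filter, mem_range, Set.mem_ofPred_eq] at ha
  simp only [Multiset.mem_toFinset, mem_coe, Polynomial.mem_roots hf0, Polynomial.IsRoot.def]
  rw [← ha.2, eval_uform, eval_uform, ← Finset.sum_sub_distrib, hf, Polynomial.eval_finsetSum]
  refine Finset.sum_congr rfl fun i _ => ?_
  rw [Polynomial.eval_monomial]; ring

theorem exists_sep (ξ : Fin (E ^ n) → Fin n → ℂ) :
    ∃ a < gridB E n, ∀ j k, eval (ξ j) (uform n ℂ a) - eval (ξ k) (uform n ℂ a) = 0 →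
      ξ j = ξ k := by
  classical
  by_contra hcon
  push Not at hcon
  have hsub : range (gridB E n) ⊆
      (Finset.univ.filter fun jk : Fin (E ^ n) × Fin (E ^ n) => ξ jk.1 ≠ ξ jk.2).biUnion fun jk =>
        {a ∈ range (gridB E n) |
          eval (ξ jk.1) (uform n ℂ a) - eval (ξ jk.2) (uform n ℂ a) = 0} := by
    intro a ha
    obtain ⟨j, k, h1, h2⟩ := hcon a (mem_range.1 ha)
    exact mem_biUnion.2 ⟨(j, k), by simpa using h2, mem_filter.2 ⟨ha, h1⟩⟩
  have h1 := (card_le_card hsub).trans (card_biUnion_le_card_mul _ _ n fun jk hjk =>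
    card_bad_le (mem_filter.1 hjk).2 _)
  have h2 : #(Finset.univ.filter fun jk : Fin (E ^ n) × Fin (E ^ n) => ξ jk.1 ≠ ξ jk.2) ≤
      E ^ n * E ^ n := (card_filter_le _ _).trans (by simp)
  have h3 := h1.trans (Nat.mul_le_mul_right n h2)
  rw [card_range, gridB] at h3
  omega

theorem prod_ne_zero {ι : Type} [Fintype ι] (v : ι → ℂ) {c : ℂ} (hc : c ≠ 0) :
    Polynomial.C c * ∏ j, (Polynomial.X + Polynomial.C (v j)) ≠ 0 :=
  mul_ne_zero (Polynomial.C_ne_zero.2 hc)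
    (Finset.prod_ne_zero_iff.2 fun _ _ => Polynomial.X_add_C_ne_zero _)

theorem fact_pow_ne_zero (N M : ℕ) : ((N.factorial : ℕ) : ℂ) ^ M ≠ 0 :=
  pow_ne_zero _ (Nat.cast_ne_zero.2 (Nat.factorial_ne_zero _))

open Classical in
theorem count_pair {G : Fin n → MvPolynomial (Fin n) ℂ} {ξ : Fin (E ^ n) → Fin n → ℂ}
    (hξ : Valid E G ξ) {o a : ℕ} (h1 : ∀ a' < gridB E n, ∀ i < o, (pairPoly E G a').coeff i = 0)
    (h2 : (pairPoly E G a).coeff o ≠ 0) :
    #{jk : Fin (E ^ n) × Fin (E ^ n) | ξ jk.1 = ξ jk.2} = o := by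
  have hn : ∀ a, (pairPoly E G a).natTrailingDegree = #{jk : Fin (E ^ n) × Fin (E ^ n) |
      eval (ξ jk.1) (uform n ℂ a) - eval (ξ jk.2) (uform n ℂ a) = 0} := fun a => by
    rw [pairPoly_eq hξ, natTrailingDegree_prod _ (fact_pow_ne_zero _ _)]
  apply le_antisymm
  · refine le_trans ?_ (Polynomial.natTrailingDegree_le_of_ne_zero h2)
    rw [hn]
    refine card_le_card fun jk hjk => ?_
    simp only [mem_filter, mem_univ, true_and] at hjk ⊢
    rw [hjk, sub_self]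
  · obtain ⟨a', ha', hsep⟩ := exists_sep ξ
    have h0 : pairPoly E G a' ≠ 0 := by
      rw [pairPoly_eq hξ]; exact prod_ne_zero _ (fact_pow_ne_zero _ _)
    refine (Polynomial.le_natTrailingDegree h0 (h1 a' ha')).trans ?_
    rw [hn]
    refine card_le_card fun jk hjk => ?_
    simp only [mem_filter, mem_univ, true_and] at hjk ⊢
    exact hsep _ _ hjk

open Classical in
theorem count_zero {G : Fin n → MvPolynomial (Fin n) ℂ} {ξ : Fin (E ^ n) → Fin n → ℂ}
    (hξ : Valid E G ξ) {g : MvPolynomial (Fin n) ℂ} {o : ℕ}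
    (h1 : ∀ i < o, (zeroPoly E G g).coeff i = 0) (h2 : (zeroPoly E G g).coeff o ≠ 0) :
    #{j | eval (ξ j) g = 0} = o := by
  have hn : (zeroPoly E G g).natTrailingDegree = #{j | eval (ξ j) g = 0} := by
    rw [zeroPoly_eq hξ, natTrailingDegree_prod _ (fact_pow_ne_zero _ _)]
  have h0 : zeroPoly E G g ≠ 0 := by
    rw [zeroPoly_eq hξ]; exact prod_ne_zero _ (fact_pow_ne_zero _ _)
  rw [← hn]
  exact le_antisymm (Polynomial.natTrailingDegree_le_of_ne_zero h2)
    (Polynomial.le_natTrailingDegree h0 h1)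

/-! ### Cells -/

theorem inCell_iff {Q : MvPolynomial (Fin n) ℝ} {d : Cell} :
    InCell E κ Q d ↔
      ((∀ a < gridB E n, ∀ i < d.1, cR E κ Q a i = 0) ∧
        (∀ j, d.2.2.1 + 1 ≤ j → (cR E κ Q d.2.1 d.1).coeff j = 0) ∧
        (∀ i < d.2.2.2.1, cZ E κ Q i = 0) ∧
        (∀ j, d.2.2.2.2 + 1 ≤ j → (cZ E κ Q d.2.2.2.1).coeff j = 0)) ∧
      (cR E κ Q d.2.1 d.1).coeff d.2.2.1 ≠ 0 ∧ (cZ E κ Q d.2.2.2.1).coeff d.2.2.2.2 ≠ 0 := by
  have t0 : ∀ U : ℝ[X], tailSq 0 U = 0 ↔ U = 0 := fun U => by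
    rw [tailSq_eq_zero_iff]
    exact ⟨fun h => Polynomial.ext fun j => h j (Nat.zero_le _), fun h j _ => by simp [h]⟩
  have hA : 0 ≤ ∑ a ∈ range (gridB E n), ∑ i ∈ range d.1, tailSq 0 (cR E κ Q a i) :=
    sum_nonneg fun _ _ => sum_nonneg fun _ _ => tailSq_nonneg _ _
  have hB := tailSq_nonneg (d.2.2.1 + 1) (cR E κ Q d.2.1 d.1)
  have hC : 0 ≤ ∑ i ∈ range d.2.2.2.1, tailSq 0 (cZ E κ Q i) :=
    sum_nonneg fun _ _ => tailSq_nonneg _ _
  have hD := tailSq_nonneg (d.2.2.2.2 + 1) (cZ E κ Q d.2.2.2.1)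
  unfold InCell cellEq cellNe
  rw [mul_ne_zero_iff, add_eq_zero_iff_of_nonneg (add_nonneg (add_nonneg hA hB) hC) hD,
    add_eq_zero_iff_of_nonneg (add_nonneg hA hB) hC, add_eq_zero_iff_of_nonneg hA hB,
    sum_eq_zero_iff_of_nonneg fun _ _ => sum_nonneg fun _ _ => tailSq_nonneg _ _,
    sum_eq_zero_iff_of_nonneg fun _ _ => tailSq_nonneg _ _, tailSq_eq_zero_iff,
    tailSq_eq_zero_iff]
  simp only [sum_eq_zero_iff_of_nonneg fun _ _ => tailSq_nonneg _ _, mem_range, t0, and_assoc]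

theorem eval_ne_zero {p : ℝ[X]} (hp : p ≠ 0) {M t : ℝ} (hM0 : 0 ≤ M)
    (hM : ∀ i < p.natDegree, |p.coeff i| ≤ M * |p.leadingCoeff|) (ht : M + 1 ≤ t) :
    p.eval t ≠ 0 := by
  intro h
  have h1 := Polynomial.IsRoot.norm_lt_cauchyBound hp (show p.IsRoot t from h)
  have hl : 0 < ‖p.leadingCoeff‖₊ := nnnorm_pos.2 (Polynomial.leadingCoeff_ne_zero.2 hp)
  have h2 : p.cauchyBound ≤ M.toNNReal + 1 := by
    unfold Polynomial.cauchyBound
    gcongr
    rw [div_le_iff₀ hl]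
    refine Finset.sup_le fun i hi => ?_
    rw [← NNReal.coe_le_coe]
    simpa [Real.coe_toNNReal _ hM0] using hM i (mem_range.1 hi)
  have h3 := h1.trans_le h2
  rw [← NNReal.coe_lt_coe] at h3
  simp only [coe_nnnorm, Real.norm_eq_abs, NNReal.coe_add, Real.coe_toNNReal _ hM0,
    NNReal.coe_one] at h3
  linarith [le_abs_self t]

theorem map_innG (f : K[X] →+* ℝ) (Q : MvPolynomial (Fin n) K) (i : Fin n) :
    map f (innG κ Q i) = penG (f Polynomial.X ^ κ) (map (f.comp Polynomial.C) Q) i := by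
  rw [innG, map_penG, map_pow, MvPolynomial.map_map]

theorem map_inng (f : K[X] →+* ℝ) (Q : MvPolynomial (Fin n) K) :
    map f (inng E κ Q) = penF E (f Polynomial.X ^ κ) (map (f.comp Polynomial.C) Q) -
      C (f Polynomial.X) := by
  rw [inng, map_sub, map_penF, map_pow, MvPolynomial.map_map, map_C]

open Classical in
theorem count_cell {Q : MvPolynomial (Fin n) ℝ} (hp : Params E κ Q) {d : Cell}
    (hd : InCell E κ Q d) {s : ℝ} (h1 : (cR E κ Q d.2.1 d.1).eval s ≠ 0)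
    (h2 : (cZ E κ Q d.2.2.2.1).eval s ≠ 0) {ξ : Fin (E ^ n) → Fin n → ℂ}
    (hξ : Valid E (fun i => map (algebraMap ℝ ℂ) (penG (s ^ κ) Q i)) ξ) :
    #{jk : Fin (E ^ n) × Fin (E ^ n) | ξ jk.1 = ξ jk.2} = d.1 ∧
      #{j | eval (ξ j) (map (algebraMap ℝ ℂ) (penF E (s ^ κ) Q - C s)) = 0} = d.2.2.2.1 := by
  obtain ⟨⟨hA, -, hC, -⟩, -⟩ := inCell_iff.1 hd
  have hG : IsPham E (penG (s ^ κ) Q) := isPham_penG hp.odd.pos hp.deg _
  have eR : ∀ a i, (pairPoly E (fun i => map (algebraMap ℝ ℂ) (penG (s ^ κ) Q i)) a).coeff i =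
      (((cR E κ Q a i).eval s : ℝ) : ℂ) := fun a i => by
    rw [← map_pairPoly hG, Polynomial.coeff_map, eval_cR hp]; rfl
  have eZ : ∀ i, (zeroPoly E (fun i => map (algebraMap ℝ ℂ) (penG (s ^ κ) Q i))
      (map (algebraMap ℝ ℂ) (penF E (s ^ κ) Q - C s))).coeff i =
      (((cZ E κ Q i).eval s : ℝ) : ℂ) := fun i => by
    rw [← map_zeroPoly hG, Polynomial.coeff_map, eval_cZ hp]; rfl
  refine ⟨count_pair hξ (a := d.2.1) (fun a ha i hi => ?_) ?_, count_zero hξ (fun i hi => ?_) ?_⟩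
  · rw [eR, hA a ha i hi]; simp
  · rw [eR]; exact_mod_cast h1
  · rw [eZ, hC i hi]; simp
  · rw [eZ]; exact_mod_cast h2

/-- Delineability for the inner penalty system, with the parameter `s` depending on `θ`. -/
theorem delin_pen {Θ : Type} [TopologicalSpace Θ] (ψ : Θ → K →+* ℝ)
    (hψ : ∀ k, Continuous fun θ => ψ θ k) {Q : MvPolynomial (Fin n) K} (hp : Params E κ Q)
    (hQ0 : ∀ θ y, 0 ≤ eval y (map (ψ θ) Q)) {d : Cell} (hd : ∀ θ, InCell E κ (map (ψ θ) Q) d)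
    {s : Θ → ℝ} (hs : Continuous s) (hs0 : ∀ θ, 0 ≤ s θ)
    (h1 : ∀ θ, (cR E κ (map (ψ θ) Q) d.2.1 d.1).eval (s θ) ≠ 0)
    (h2 : ∀ θ, (cZ E κ (map (ψ θ) Q) d.2.2.2.1).eval (s θ) ≠ 0) :
    IsLocallyConstant fun θ => ∃ y, eval y (penF E (s θ ^ κ) (map (ψ θ) Q)) < s θ := by
  have hc : ∀ θ, (Polynomial.eval₂RingHom (ψ θ) (s θ)).comp Polynomial.C = ψ θ := fun θ => by
    ext k; simp
  have hX : ∀ θ, Polynomial.eval₂RingHom (ψ θ) (s θ) Polynomial.X = s θ := fun θ => by simp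
  have key := delin' (fun θ => Polynomial.eval₂RingHom (ψ θ) (s θ)) (fun k => by
      induction k using Polynomial.induction_on with
      | C a => simpa using hψ a
      | add p q hp hq => simp only [map_add]; exact hp.add hq
      | monomial m a h =>
        simp only [pow_succ, ← mul_assoc, map_mul _ _ Polynomial.X, hX]
        exact h.mul hs)
    hp.isPham_innG (inng E κ Q) d.1 d.2.2.2.1 fun θ ξ hξ => by
      simp only [← MvPolynomial.map_map, map_innG, map_inng, hc, hX] at hξ ⊢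
      exact count_cell (hp.map _) (hd θ) (h1 θ) (h2 θ) hξ
  simp only [map_innG, map_inng, hc, hX] at key
  convert key using 2 with θ
  rw [exists_crit (hQ0 θ) hp.odd (pow_nonneg (hs0 θ) _)]
  simp only [map_sub, eval_C, sub_neg]

theorem pen_const {Q : MvPolynomial (Fin n) ℝ} (hp : Params E κ Q) (hQ0 : ∀ y, 0 ≤ eval y Q)
    {d : Cell} (hd : InCell E κ Q d) {s : ℝ} (hs0 : 0 ≤ s)
    (h1 : ∀ t, s ≤ t → (cR E κ Q d.2.1 d.1).eval t ≠ 0)
    (h2 : ∀ t, s ≤ t → (cZ E κ Q d.2.2.2.1).eval t ≠ 0) :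
    (∃ y, eval y (penF E (s ^ κ) Q) < s) ↔ ∃ y, eval y Q = 0 := by
  have key := delin_pen (Θ := Set.Ici s) (fun _ => RingHom.id ℝ) (fun _ => continuous_const) hp
    (d := d) (s := fun t => t.1) (fun _ y => by rw [MvPolynomial.map_id]; exact hQ0 y)
    (fun _ => by rw [MvPolynomial.map_id]; exact hd) continuous_subtype_val
    (fun t => hs0.trans t.2) (fun t => by rw [MvPolynomial.map_id]; exact h1 t.1 t.2)
    (fun t => by rw [MvPolynomial.map_id]; exact h2 t.1 t.2)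
  simp only [MvPolynomial.map_id] at key
  obtain ⟨t, ht, hst⟩ := ((eventually_pen hp hQ0).and (eventually_ge_atTop s)).exists
  have : PreconnectedSpace (Set.Ici s) := Subtype.preconnectedSpace isPreconnected_Ici
  rw [← ht]
  exact (key.apply_eq_of_preconnectedSpace ⟨s, Set.mem_Ici.2 le_rfl⟩ ⟨t, hst⟩).to_iff

theorem exists_cont_bound {Θ : Type} [TopologicalSpace Θ] (ψ : Θ → K →+* ℝ)
    (hψ : ∀ k, Continuous fun θ => ψ θ k) (p : K[X]) (e : ℕ)
    (h1 : ∀ θ j, e + 1 ≤ j → (p.map (ψ θ)).coeff j = 0) (h2 : ∀ θ, (p.map (ψ θ)).coeff e ≠ 0) :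
    ∃ B : Θ → ℝ, Continuous B ∧ (∀ θ, 0 ≤ B θ) ∧
      ∀ θ t, B θ ≤ t → (p.map (ψ θ)).eval t ≠ 0 := by
  have h2' : ∀ θ, 0 < |ψ θ (p.coeff e)| := fun θ => by
    have := h2 θ
    rw [Polynomial.coeff_map] at this
    exact abs_pos.2 this
  have hM : ∀ θ, 0 ≤ (∑ i ∈ range e, |ψ θ (p.coeff i)|) / |ψ θ (p.coeff e)| := fun θ =>
    div_nonneg (sum_nonneg fun _ _ => abs_nonneg _) (abs_nonneg _)
  refine ⟨fun θ => (∑ i ∈ range e, |ψ θ (p.coeff i)|) / |ψ θ (p.coeff e)| + 1, ?_,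
    fun θ => add_nonneg (hM θ) zero_le_one, fun θ t ht => ?_⟩
  · exact ((continuous_finsetSum _ fun i _ => (hψ _).abs).div (hψ _).abs
      fun θ => (h2' θ).ne').add continuous_const
  · have hdeg : (p.map (ψ θ)).natDegree = e :=
      Polynomial.natDegree_eq_of_le_of_coeff_ne_zero
        (Polynomial.natDegree_le_iff_coeff_eq_zero.2 (h1 θ)) (h2 θ)
    refine eval_ne_zero (fun h0 => h2 θ (by simp [h0])) (hM θ) (fun i hi => ?_) ht
    rw [Polynomial.leadingCoeff, hdeg, Polynomial.coeff_map, Polynomial.coeff_map,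
      div_mul_cancel₀ _ (h2' θ).ne']
    exact single_le_sum (f := fun i => |ψ θ (p.coeff i)|) (fun _ _ => abs_nonneg _)
      (mem_range.2 (hdeg ▸ hi))

theorem pairPoly_innG_ne_zero {Q : MvPolynomial (Fin n) ℝ} (hp : Params E κ Q) (a : ℕ) :
    pairPoly E (innG κ Q) a ≠ 0 := by
  intro h0
  have h := map_pairPoly hp.isPham_innG ((algebraMap ℝ ℂ).comp (Polynomial.evalRingHom 0)) a
  obtain ⟨ξ, hξ⟩ := exists_valid
    (hp.isPham_innG.map ((algebraMap ℝ ℂ).comp (Polynomial.evalRingHom 0)))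
  rw [h0, Polynomial.map_zero, pairPoly_eq hξ] at h
  exact prod_ne_zero _ (fact_pow_ne_zero _ _) h.symm

theorem zeroPoly_innG_ne_zero {Q : MvPolynomial (Fin n) ℝ} (hp : Params E κ Q) :
    zeroPoly E (innG κ Q) (inng E κ Q) ≠ 0 := by
  intro h0
  have h := map_zeroPoly hp.isPham_innG ((algebraMap ℝ ℂ).comp (Polynomial.evalRingHom 0))
    (inng E κ Q)
  obtain ⟨ξ, hξ⟩ := exists_valid
    (hp.isPham_innG.map ((algebraMap ℝ ℂ).comp (Polynomial.evalRingHom 0)))
  rw [h0, Polynomial.map_zero, zeroPoly_eq hξ] at h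
  exact prod_ne_zero _ (fact_pow_ne_zero _ _) h.symm

theorem exists_cell' {Q : MvPolynomial (Fin n) ℝ} (hp : Params E κ Q) :
    ∃ d : Cell, InCell E κ Q d ∧ d.1 ≤ E ^ n * E ^ n ∧ d.2.1 < gridB E n ∧ d.2.2.2.1 ≤ E ^ n := by
  obtain ⟨a, ha, hmin⟩ := exists_min_image (range (gridB E n))
    (fun a => (pairPoly E (innG κ Q) a).natTrailingDegree) ⟨0, by simp [gridB]⟩
  have hR : cR E κ Q a (pairPoly E (innG κ Q) a).natTrailingDegree ≠ 0 :=
    Polynomial.trailingCoeff_eq_zero.not.2 (pairPoly_innG_ne_zero hp a)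
  have hZ : cZ E κ Q (zeroPoly E (innG κ Q) (inng E κ Q)).natTrailingDegree ≠ 0 :=
    Polynomial.trailingCoeff_eq_zero.not.2 (zeroPoly_innG_ne_zero hp)
  refine ⟨((pairPoly E (innG κ Q) a).natTrailingDegree, a,
    (cR E κ Q a (pairPoly E (innG κ Q) a).natTrailingDegree).natDegree,
    (zeroPoly E (innG κ Q) (inng E κ Q)).natTrailingDegree,
    (cZ E κ Q (zeroPoly E (innG κ Q) (inng E κ Q)).natTrailingDegree).natDegree),
    inCell_iff.2 ⟨⟨fun a' ha' i hi => ?_, fun j hj => ?_, fun i hi => ?_, fun j hj => ?_⟩,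
      Polynomial.leadingCoeff_ne_zero.2 hR, Polynomial.leadingCoeff_ne_zero.2 hZ⟩, ?_,
    mem_range.1 ha, ?_⟩
  · exact Polynomial.coeff_eq_zero_of_lt_natTrailingDegree
      (lt_of_lt_of_le hi (hmin a' (mem_range.2 ha')))
  · exact Polynomial.coeff_eq_zero_of_natDegree_lt hj
  · exact Polynomial.coeff_eq_zero_of_lt_natTrailingDegree hi
  · exact Polynomial.coeff_eq_zero_of_natDegree_lt hj
  · exact (Polynomial.natTrailingDegree_le_natDegree _).trans (natDegree_chi_le _ _ _)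
  · exact (Polynomial.natTrailingDegree_le_natDegree _).trans (natDegree_chi_le _ _ _)

theorem eval_ne_zero_of_bound {p : ℝ[X]} (hp : p ≠ 0) {H t : ℝ}
    (h : ∀ e, |p.coeff e| ≤ H ∧ (p.coeff e ≠ 0 → 1 ≤ H * |p.coeff e|)) (ht : H * H + 1 ≤ t) :
    p.eval t ≠ 0 := by
  have hH : 0 ≤ H := (abs_nonneg _).trans (h 0).1
  refine eval_ne_zero hp (mul_nonneg hH hH) (fun i _ => (h i).1.trans ?_) ht
  have := (h p.natDegree).2 (Polynomial.leadingCoeff_ne_zero.2 hp)
  rw [mul_assoc]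
  exact le_mul_of_one_le_right hH this

end Crest.Agent.R316.DelinAux
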