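import Crest.Agent.R316.FormAux
import Crest.Agent.Lib.PolyTime.Enc

/-! Row 316: parsing a sentence into tokens. -/

set_option autoImplicit false
open Crest.Agent.Lib.PolyTime

namespace Crest.Agent.R316.FormAux

open Crest.RealEA Crest.Enc

/-- Token of a gate. -/
def gtok : AGate → Gt
  | .const z => (0, if z < 0 then 1 else 0, z.natAbs)
  | .varX i => (1, i, 0)
  | .varY i => (2, i, 0)
  | .add a b => (3, a, b)
  | .sub a b => (4, a, b)
  | .mul a b => (5, a, b)

/-- Tokens of a formula. -/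
def tok : Form → List Tok
  | .eqZero c => [(6, c.map gtok)]
  | .pos c => [(7, c.map gtok)]
  | .and φ ψ => (8, []) :: (tok φ ++ tok ψ)
  | .or φ ψ => (9, []) :: (tok φ ++ tok ψ)
  | .not φ => (10, []) :: tok φ

/-- Bits of a gate token. -/
def gBits (g : Gt) : List Bool :=
  natCode g.1 ++ (natCode g.2.1 ++ if g.1 = 1 ∨ g.1 = 2 then [] else natCode g.2.2)

/-- Bits of a formula token. -/
def tBits (t : Tok) : List Bool :=
  natCode t.1 ++ if t.1 = 6 ∨ t.1 = 7 then natCode t.2.length ++ (t.2.map gBits).flatten else []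

/-- Bits of a tokenised sentence. -/
def sBits (x : ℕ × ℕ × List Tok) : List Bool :=
  natCode x.1 ++ (natCode x.2.1 ++ (x.2.2.map tBits).flatten)

theorem natBits_eq : natBits = natCode := rfl

theorem gate_bits (g : AGate) : g.toNats.flatMap natCode = gBits (gtok g) := by
  cases g <;> simp [AGate.toNats, gtok, gBits]

theorem circ_bits (c : List AGate) : (circuitToNats c).flatMap natCode =
    natCode (c.map gtok).length ++ ((c.map gtok).map gBits).flatten := by
  rw [circuitToNats, List.flatMap_cons, List.length_map, List.flatMap_assoc, List.map_map]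
  simp only [gate_bits]
  rfl

theorem form_bits (φ : Form) : φ.toNats.flatMap natCode = ((tok φ).map tBits).flatten := by
  induction φ with
  | eqZero c => rw [Form.toNats, List.flatMap_cons, circ_bits]; simp [tok, tBits]
  | pos c => rw [Form.toNats, List.flatMap_cons, circ_bits]; simp [tok, tBits]
  | and φ ψ h1 h2 => simp [Form.toNats, tok, tBits, h1, h2]
  | or φ ψ h1 h2 => simp [Form.toNats, tok, tBits, h1, h2]
  | not φ h => simp [Form.toNats, tok, tBits, h]

theorem encode_eq (S : Sentence) : S.encode = sBits (S.r, S.s, tok S.body) := by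
  rw [Sentence.encode, Sentence.toNats, natBits_eq, List.flatMap_cons, List.flatMap_cons, form_bits]
  rfl

/-- Parser for gates. -/
def pGate : Parser Gt := fun w =>
  if (pNat w).1 = 1 ∨ (pNat w).1 = 2 then
    (((pNat w).1, (pNat (pNat w).2).1, 0), (pNat (pNat w).2).2)
  else (((pNat w).1, (pNat (pNat w).2).1, (pNat (pNat (pNat w).2).2).1),
    (pNat (pNat (pNat w).2).2).2)

/-- Parser for tokens. -/
def pTok : Parser (Option Tok) := fun w =>
  if w = [] then (none, [])
  else if (pNat w).1 = 6 ∨ (pNat w).1 = 7 then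
    (some ((pNat w).1, (pList pGate (pNat w).2).1), (pList pGate (pNat w).2).2)
  else (some ((pNat w).1, []), (pNat w).2)

/-- Parser for sentences. -/
def parse (w : List Bool) : ℕ × ℕ × List Tok :=
  ((pNat w).1, (pNat (pNat w).2).1, (pRepAux pTok w.length (pNat (pNat w).2).2).1.filterMap id)

theorem poly_pGate : Poly pGate := by
  unfold pGate
  fun_prop

theorem poly_pTok : Poly pTok := by
  have h : Poly fun w : List Bool => pList pGate (pNat w).2 :=
    Poly.pList (p := fun _ => pGate) (poly_pGate.comp (by fun_prop)) (by fun_prop)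
  unfold pTok
  fun_prop

theorem poly_parse : Poly parse := by
  have h : Poly fun w : List Bool => pRepAux pTok w.length (pNat (pNat w).2).2 :=
    Poly.pRepAux (p := fun _ => pTok) (poly_pTok.comp (by fun_prop)) (by fun_prop) (by fun_prop)
      (by fun_prop)
  unfold parse
  simp only [id_def]
  fun_prop

theorem poly_sBits : Poly sBits := by
  unfold sBits tBits gBits
  fun_prop

theorem pGate_code (g : Gt) (hg : g.1 = 1 ∨ g.1 = 2 → g.2.2 = 0) (w : List Bool) :
    pGate (gBits g ++ w) = (g, w) := by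
  obtain ⟨t, a, b⟩ := g
  simp only [pGate, gBits, List.append_assoc, pNat_code]
  split_ifs with h
  · obtain rfl : b = 0 := hg h
    simp
  · simp

theorem gBits_ne_nil (g : Gt) : gBits g ≠ [] := by simp [gBits, natCode_ne_nil]

theorem tBits_ne_nil (t : Tok) : tBits t ≠ [] := by simp [tBits, natCode_ne_nil]

/-- Canonical tokens. -/
def Can (t : Tok) : Prop :=
  (¬(t.1 = 6 ∨ t.1 = 7) → t.2 = []) ∧ ∀ g ∈ t.2, g.1 = 1 ∨ g.1 = 2 → g.2.2 = 0

theorem pTok_code (t : Tok) (ht : Can t) (w : List Bool) : pTok (tBits t ++ w) = (some t, w) := by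
  have h0 : tBits t ++ w ≠ [] := by simp [tBits_ne_nil]
  rw [pTok, if_neg h0]
  obtain ⟨a, c⟩ := t
  simp only [tBits, List.append_assoc, pNat_code]
  split_ifs with h
  · have := pList_code (p := pGate) (c := gBits) (v := id) (l := c)
      (fun g hg w => pGate_code g (ht.2 g hg) w) (fun g _ => gBits_ne_nil g) w
    simp [this]
  · obtain rfl : c = [] := ht.1 h
    simp

theorem pRepAux_nil (k : ℕ) : (pRepAux pTok k []).1.filterMap id = [] := by
  induction k with
  | zero => rfl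
  | succ k ih => simpa [pRepAux, pTok, sfx] using ih

theorem pRepAux_toks (T : List Tok) (hT : ∀ t ∈ T, Can t) (k : ℕ) (hk : T.length ≤ k) :
    (pRepAux pTok k (T.map tBits).flatten).1.filterMap id = T := by
  induction T generalizing k with
  | nil => exact pRepAux_nil k
  | cons t T ih =>
    obtain ⟨k, rfl⟩ : ∃ j, k = j + 1 := ⟨k - 1, by simp at hk; omega⟩
    simp only [List.map_cons, List.flatten_cons, pRepAux, pTok_code t (hT t (by simp)), sfx_append,
      List.filterMap_cons, ih (fun y hy => hT y (by simp [hy])) k (by simpa using hk)]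
    rfl

theorem parse_sBits (x : ℕ × ℕ × List Tok) (hx : ∀ t ∈ x.2.2, Can t) : parse (sBits x) = x := by
  obtain ⟨r, s, T⟩ := x
  have h := length_le_flatten (c := tBits) (l := T) fun t _ => tBits_ne_nil t
  simp only [parse, sBits, pNat_code]
  rw [pRepAux_toks T hx _ (by simp only [List.length_append]; omega)]

/-- Validity of a gate token at position `t`. -/
def gOK (r s : ℕ) (g : Gt) (t : ℕ) : Prop :=
  (g.1 = 0 ∧ (g.2.1 = 0 ∨ g.2.1 = 1 ∧ g.2.2 ≠ 0)) ∨ (g.1 = 1 ∧ g.2.1 < r ∧ g.2.2 = 0) ∨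
    (g.1 = 2 ∧ g.2.1 < s ∧ g.2.2 = 0) ∨
    ((g.1 = 3 ∨ g.1 = 4 ∨ g.1 = 5) ∧ g.2.1 < t ∧ g.2.2 < t)

instance (r s : ℕ) (g : Gt) (t : ℕ) : Decidable (gOK r s g t) := by
  unfold gOK; infer_instance

/-- Validity of a formula token. -/
def tOK (r s : ℕ) (t : Tok) : Prop :=
  ((t.1 = 6 ∨ t.1 = 7) ∧ t.2 ≠ [] ∧ (t.2.zipIdx.all fun x => decide (gOK r s x.1 x.2)) = true) ∨
    ((t.1 = 8 ∨ t.1 = 9 ∨ t.1 = 10) ∧ t.2 = [])

instance (r s : ℕ) (t : Tok) : Decidable (tOK r s t) := by
  unfold tOK; infer_instance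

/-- Stack discipline: `0` is failure, `n + 1` is height `n`. -/
def hstep (t : Tok) (h : ℕ) : ℕ := if arity t.1 < h then h - arity t.1 + 1 else 0

/-- Validity of a tokenised sentence. -/
def valid (x : ℕ × ℕ × List Tok) : Bool :=
  (x.2.2.all fun t => decide (tOK x.1 x.2.1 t)) && decide (x.2.2.foldr hstep 1 = 2)

theorem poly_valid : Poly valid := by
  have h1 : Poly fun x : (ℕ × ℕ) × Gt × ℕ => decide (gOK x.1.1 x.1.2 x.2.1 x.2.2) :=
    Poly.decide_congr (p := fun x : (ℕ × ℕ) × Gt × ℕ =>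
      (x.2.1.1 = 0 ∧ (x.2.1.2.1 = 0 ∨ x.2.1.2.1 = 1 ∧ x.2.1.2.2 ≠ 0)) ∨
      (x.2.1.1 = 1 ∧ x.2.1.2.1 < x.1.1 ∧ x.2.1.2.2 = 0) ∨
      (x.2.1.1 = 2 ∧ x.2.1.2.1 < x.1.2 ∧ x.2.1.2.2 = 0) ∨
      ((x.2.1.1 = 3 ∨ x.2.1.1 = 4 ∨ x.2.1.1 = 5) ∧ x.2.1.2.1 < x.2.2 ∧ x.2.1.2.2 < x.2.2))
      (by fun_prop) fun _ => Iff.rfl
  have h2 : Poly fun x : (ℕ × ℕ × List Tok) × Tok =>
      x.2.2.zipIdx.all fun y => decide (gOK x.1.1 x.1.2.1 y.1 y.2) :=
    Poly.all (by fun_prop) (h1.comp
      (g := fun p : ((ℕ × ℕ × List Tok) × Tok) × Gt × ℕ => ((p.1.1.1, p.1.1.2.1), p.2))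
      (by fun_prop))
  have h3 : Poly fun x : (ℕ × ℕ × List Tok) × Tok => decide (tOK x.1.1 x.1.2.1 x.2) :=
    Poly.decide_congr (p := fun x : (ℕ × ℕ × List Tok) × Tok =>
      ((x.2.1 = 6 ∨ x.2.1 = 7) ∧ x.2.2 ≠ [] ∧
        (x.2.2.zipIdx.all fun y => decide (gOK x.1.1 x.1.2.1 y.1 y.2)) = true) ∨
      ((x.2.1 = 8 ∨ x.2.1 = 9 ∨ x.2.1 = 10) ∧ x.2.2 = []))
      (by fun_prop) fun _ => Iff.rfl
  have h4 : Poly fun x : ℕ × ℕ × List Tok => x.2.2.foldr hstep 1 := by
    refine Poly.foldr_ht (h := fun _ => hstep) (by fun_prop) (by fun_prop) ?_ (fun _ _ => 1)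
      (by fun_prop) fun a x s => ?_
    · simp only [hstep, arity]
      fun_prop
    · simp only [ht_nat, hstep]
      split_ifs <;> omega
  unfold valid
  exact Poly.and (Poly.all (by fun_prop) h3) (by fun_prop)

theorem gOK_iff (r s t : ℕ) (g : AGate) : gOK r s (gtok g) t ↔ g.WF r s t := by
  cases g with
  | const z => simp only [gOK, gtok, AGate.WF]; split_ifs <;> simp; omega
  | _ => simp [gOK, gtok, AGate.WF]

theorem exists_gate {r s t : ℕ} {g : Gt} (h : gOK r s g t) : ∃ a : AGate, gtok a = g := by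
  obtain ⟨k, a, b⟩ := g
  rcases h with ⟨h1, h2 | ⟨h2, h3⟩⟩ | ⟨h1, -, h2⟩ | ⟨h1, -, h2⟩ | ⟨h1 | h1 | h1, -⟩ <;>
    simp only at h1 <;> subst h1
  · simp only at h2; subst h2
    exact ⟨.const b, by simp [gtok]⟩
  · simp only at h2 h3; subst h2
    exact ⟨.const (-b), by simp [gtok]; omega⟩
  · simp only at h2; subst h2
    exact ⟨.varX a, rfl⟩
  · simp only at h2; subst h2
    exact ⟨.varY a, rfl⟩
  · exact ⟨.add a b, rfl⟩
  · exact ⟨.sub a b, rfl⟩
  · exact ⟨.mul a b, rfl⟩

theorem cOK_iff (r s : ℕ) (c : List AGate) :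
    (c.map gtok ≠ [] ∧ ((c.map gtok).zipIdx.all fun x => decide (gOK r s x.1 x.2)) = true) ↔
      CircuitWF r s c := by
  simp only [CircuitWF, ne_eq, List.map_eq_nil_iff, List.all_eq_true, decide_eq_true_eq,
    ← gOK_iff]
  refine and_congr_right fun _ => ⟨fun h t => ?_, fun h x hx => ?_⟩
  · exact h (gtok (c.get t), t) (List.mem_zipIdx_iff_getElem?.2 (by simp))
  · have h1 := List.mem_zipIdx_iff_getElem?.1 hx
    obtain ⟨h2, h3⟩ := List.getElem?_eq_some_iff.1 h1
    have := h ⟨x.2, by simpa using h2⟩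
    simp only [List.getElem_map] at h3
    rw [← h3]
    exact this

theorem exists_circ {r s : ℕ} {c : List Gt}
    (h : (c.zipIdx.all fun x => decide (gOK r s x.1 x.2)) = true) :
    ∃ a : List AGate, a.map gtok = c := by
  have h1 : ∀ g ∈ c, ∃ a : AGate, gtok a = g := by
    intro g hg
    obtain ⟨i, hi⟩ := List.getElem?_of_mem hg
    simp only [List.all_eq_true, decide_eq_true_eq] at h
    exact exists_gate (h (g, i) (List.mem_zipIdx_iff_getElem?.2 hi))
  clear h
  induction c with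
  | nil => exact ⟨[], rfl⟩
  | cons g c ih =>
    obtain ⟨a, ha⟩ := ih fun g hg => h1 g (List.mem_cons_of_mem _ hg)
    obtain ⟨b, hb⟩ := h1 g List.mem_cons_self
    exact ⟨b :: a, by simp [ha, hb]⟩

theorem tOK_iff (r s : ℕ) (φ : Form) : (∀ t ∈ tok φ, tOK r s t) ↔ φ.WF r s := by
  induction φ with
  | eqZero c => simp only [tok, Form.WF, ← cOK_iff, tOK, List.forall_mem_singleton]; simp
  | pos c => simp only [tok, Form.WF, ← cOK_iff, tOK, List.forall_mem_singleton]; simp
  | and φ ψ h1 h2 =>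
    simp only [tok, Form.WF, ← h1, ← h2, List.forall_mem_cons, List.forall_mem_append]
    simp [tOK]
  | or φ ψ h1 h2 =>
    simp only [tok, Form.WF, ← h1, ← h2, List.forall_mem_cons, List.forall_mem_append]
    simp [tOK]
  | not φ h =>
    simp only [tok, Form.WF, ← h, List.forall_mem_cons]
    simp [tOK]

theorem foldr_hstep (φ : Form) (n : ℕ) : (tok φ).foldr hstep (n + 1) = n + 2 := by
  induction φ generalizing n with
  | eqZero c => simp [tok, hstep, arity]
  | pos c => simp [tok, hstep, arity]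
  | and φ ψ h1 h2 => simp [tok, hstep, arity, h1, h2]
  | or φ ψ h1 h2 => simp [tok, hstep, arity, h1, h2]
  | not φ h => simp [tok, hstep, arity, h]

theorem exists_forms {r s : ℕ} (T : List Tok) (hT : ∀ t ∈ T, tOK r s t) :
    ∀ n, T.foldr hstep 1 = n + 1 → ∃ Φ : List Form, Φ.length = n ∧ Φ.flatMap tok = T := by
  induction T with
  | nil => intro n hn; exact ⟨[], by simp only [List.foldr_nil, List.length_nil] at hn ⊢; omega, rfl⟩
  | cons t T ih =>
    intro n hn
    rw [List.foldr_cons, hstep] at hn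
    by_cases h : arity t.1 < T.foldr hstep 1
    swap
    · rw [if_neg h] at hn; omega
    rw [if_pos h] at hn
    obtain ⟨Φ, h1, h2⟩ := ih (fun t ht => hT t (List.mem_cons_of_mem _ ht))
      (T.foldr hstep 1 - 1) (by omega)
    obtain ⟨k, c⟩ := t
    rcases hT _ List.mem_cons_self with ⟨h3 | h3, -, h4⟩ | ⟨h3 | h3 | h3, h4⟩ <;>
      simp only at h3 h4 <;> subst h3 <;> simp only [arity] at h hn <;> norm_num at h hn
    · obtain ⟨a, rfl⟩ := exists_circ h4
      exact ⟨.eqZero a :: Φ, by simp; omega, by simp [tok, h2]⟩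
    · obtain ⟨a, rfl⟩ := exists_circ h4
      exact ⟨.pos a :: Φ, by simp; omega, by simp [tok, h2]⟩
    · match Φ, h1, h2 with
      | φ :: ψ :: Φ, h1, h2 =>
        exact ⟨.and φ ψ :: Φ, by simp at h1 ⊢; omega, by simp [tok, ← h2, h4]⟩
      | [_], h1, _ => simp at h1; omega
      | [], h1, _ => simp at h1; omega
    · match Φ, h1, h2 with
      | φ :: ψ :: Φ, h1, h2 =>
        exact ⟨.or φ ψ :: Φ, by simp at h1 ⊢; omega, by simp [tok, ← h2, h4]⟩
      | [_], h1, _ => simp at h1; omega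
      | [], h1, _ => simp at h1; omega
    · match Φ, h1, h2 with
      | φ :: Φ, h1, h2 =>
        exact ⟨.not φ :: Φ, by simp at h1 ⊢; omega, by simp [tok, ← h2, h4]⟩
      | [], h1, _ => simp at h1; omega

theorem valid_iff (r s : ℕ) (T : List Tok) :
    valid (r, s, T) = true ↔ ∃ φ : Form, φ.WF r s ∧ tok φ = T := by
  simp only [valid, Bool.and_eq_true, List.all_eq_true, decide_eq_true_eq]
  constructor
  · rintro ⟨h1, h2⟩
    obtain ⟨Φ, h3, h4⟩ := exists_forms T h1 1 h2
    obtain ⟨φ, rfl⟩ := List.length_eq_one_iff.1 h3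
    simp only [List.flatMap_cons, List.flatMap_nil, List.append_nil] at h4
    exact ⟨φ, (tOK_iff r s φ).1 (h4 ▸ h1), h4⟩
  · rintro ⟨φ, h1, rfl⟩
    exact ⟨(tOK_iff r s φ).2 h1, foldr_hstep φ 0⟩

theorem gOK_of_mem {r s : ℕ} {t : Tok} (h : tOK r s t) {g : Gt} (hg : g ∈ t.2) :
    ∃ i, gOK r s g i := by
  rcases h with ⟨-, -, h⟩ | ⟨-, h⟩
  · obtain ⟨i, hi⟩ := List.getElem?_of_mem hg
    simp only [List.all_eq_true, decide_eq_true_eq] at h
    exact ⟨i, h (g, i) (List.mem_zipIdx_iff_getElem?.2 hi)⟩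
  · simp [h] at hg

theorem can_of_tOK {r s : ℕ} {t : Tok} (h : tOK r s t) : Can t := by
  refine ⟨fun h1 => ?_, fun g hg h1 => ?_⟩
  · rcases h with ⟨h, -⟩ | ⟨-, h⟩
    · exact absurd h h1
    · exact h
  · obtain ⟨i, hi⟩ := gOK_of_mem h hg
    unfold gOK at hi
    omega

/-- The syntactic check. -/
def okw (w : List Bool) : Bool := decide (sBits (parse w) = w) && valid (parse w)

theorem poly_okw : Poly okw := by
  have h1 := poly_parse
  have h2 := poly_sBits.comp poly_parse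
  unfold okw
  exact Poly.and (by fun_prop) (poly_valid.comp poly_parse)

theorem parse_encode {S : Sentence} (h : S.WF) : parse S.encode = (S.r, S.s, tok S.body) := by
  rw [encode_eq]
  exact parse_sBits _ fun t ht => can_of_tOK ((tOK_iff _ _ _).2 h t ht)

theorem okw_iff (w : List Bool) : okw w = true ↔ ∃ S : Sentence, S.WF ∧ S.encode = w := by
  simp only [okw, Bool.and_eq_true, decide_eq_true_eq]
  constructor
  · rintro ⟨h1, h2⟩
    obtain ⟨φ, h3, h4⟩ := (valid_iff (parse w).1 (parse w).2.1 (parse w).2.2).1 h2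
    refine ⟨⟨(parse w).1, (parse w).2.1, φ⟩, h3, ?_⟩
    rw [encode_eq]
    simp only [h4]
    exact h1
  · rintro ⟨S, h1, rfl⟩
    rw [parse_encode h1, ← encode_eq]
    exact ⟨rfl, (valid_iff _ _ _).2 ⟨S.body, h1, rfl⟩⟩

end Crest.Agent.R316.FormAux
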