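import Crest.Agent.R316.GoodCoeff
import Crest.Agent.R316.FormAux2

/-! Parsing and the reduction of a sentence to one polynomial equation. -/

set_option autoImplicit false
open Crest.Agent.Lib.PolyTime
open scoped Polynomial

namespace Crest.Agent.R316

namespace FormAux

open Crest.RealEA

theorem gval_gtok (X Y : ℕ → ℝ) (prev : List ℝ) (g : AGate) :
    gval X Y prev (gtok g) = g.value X Y prev := by
  cases g with
  | const z =>
    simp only [gval, gtok, AGate.value, if_true]
    split_ifs with h1 h2 h2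
    · simp at h2
    · rw [← Int.cast_natCast, ← Int.cast_neg]; congr 1; omega
    · rw [← Int.cast_natCast]; congr 1; omega
    · simp at h2
  | _ => simp [gval, gtok, AGate.value]

theorem cval_gtok (X Y : ℕ → ℝ) (c : List AGate) :
    cval id X Y (c.map gtok) = circuitValue X Y c := by
  simp only [cval, circuitValue, circuitValues, List.foldl_map, cstep, id, gval_gtok]

/-- The pair attached to a formula. -/
noncomputable def fpair (X Y : ℕ → ℝ) (U : Tok → ℝ) : Form → ℝ × ℝ
  | .eqZero c => (circuitValue X Y c, circuitValue X Y c * U (6, c.map gtok) - 1)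
  | .pos c => (circuitValue X Y c * (U (7, c.map gtok) * U (7, c.map gtok)) - 1,
      circuitValue X Y c + U (7, c.map gtok) * U (7, c.map gtok))
  | .and φ ψ => ((fpair X Y U φ).1 * (fpair X Y U φ).1 + (fpair X Y U ψ).1 * (fpair X Y U ψ).1,
      (fpair X Y U φ).2 * (fpair X Y U ψ).2)
  | .or φ ψ => ((fpair X Y U φ).1 * (fpair X Y U ψ).1,
      (fpair X Y U φ).2 * (fpair X Y U φ).2 + (fpair X Y U ψ).2 * (fpair X Y U ψ).2)
  | .not φ => ((fpair X Y U φ).2, (fpair X Y U φ).1)

theorem foldr_tok (X Y : ℕ → ℝ) (U : Tok → ℝ) (φ : Form) (st : List (ℝ × ℝ)) :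
    (tok φ).foldr (fstep id X Y U) st = fpair X Y U φ :: st := by
  induction φ generalizing st with
  | eqZero c => simp [tok, fstep, tpair, arity, fpair, cval_gtok]
  | pos c => simp [tok, fstep, tpair, arity, fpair, cval_gtok]
  | and φ ψ h1 h2 => simp [tok, fstep, tpair, arity, fpair, h1, h2]
  | or φ ψ h1 h2 => simp [tok, fstep, tpair, arity, fpair, h1, h2]
  | not φ h => simp [tok, fstep, tpair, arity, fpair, h]

theorem feval_tok (X Y : ℕ → ℝ) (U : Tok → ℝ) (φ : Form) :
    feval id X Y U (tok φ) = (fpair X Y U φ).2 := by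
  rw [feval, foldr_tok]
  rfl

theorem fpair_sound (X Y : ℕ → ℝ) (U : Tok → ℝ) (φ : Form) :
    ((fpair X Y U φ).1 = 0 → φ.Holds X Y) ∧ ((fpair X Y U φ).2 = 0 → ¬φ.Holds X Y) := by
  induction φ with
  | eqZero c =>
    refine ⟨fun h => h, fun h h' => ?_⟩
    simp only [fpair, Form.Holds] at h h'
    simp [h'] at h
  | pos c =>
    simp only [fpair, Form.Holds]
    refine ⟨fun h => ?_, fun h h' => ?_⟩
    · by_contra h1
      nlinarith [mul_self_nonneg (U (7, c.map gtok))]
    · nlinarith [mul_self_nonneg (U (7, c.map gtok))]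
  | and φ ψ h1 h2 =>
    simp only [fpair, Form.Holds]
    refine ⟨fun h => ?_, fun h h' => ?_⟩
    · rw [mul_self_add_mul_self_eq_zero] at h
      exact ⟨h1.1 h.1, h2.1 h.2⟩
    · exact (mul_eq_zero.1 h).elim (fun h => h1.2 h h'.1) fun h => h2.2 h h'.2
  | or φ ψ h1 h2 =>
    simp only [fpair, Form.Holds]
    refine ⟨fun h => ?_, fun h h' => ?_⟩
    · exact (mul_eq_zero.1 h).imp h1.1 h2.1
    · rw [mul_self_add_mul_self_eq_zero] at h
      exact h'.elim (h1.2 h.1) (h2.2 h.2)
  | not φ h => exact ⟨h.2, fun h1 h2 => h2 (h.1 h1)⟩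

/-- The witness for the auxiliary variable of an atom with value `p`. -/
noncomputable def uval (tag : ℕ) (p : ℝ) : ℝ :=
  if tag = 6 then p⁻¹ else if 0 < p then (√p)⁻¹ else √(-p)

theorem fpair_complete (X Y : ℕ → ℝ) (U : Tok → ℝ) (φ : Form)
    (hU : ∀ t ∈ tok φ, U t = uval t.1 (cval id X Y t.2)) :
    (φ.Holds X Y → (fpair X Y U φ).1 = 0) ∧ (¬φ.Holds X Y → (fpair X Y U φ).2 = 0) := by
  induction φ with
  | eqZero c =>
    have := hU _ (List.mem_singleton_self _)
    simp only [fpair, Form.Holds, this, cval_gtok, uval, if_true]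
    exact ⟨fun h => h, fun h => by rw [mul_inv_cancel₀ h, sub_self]⟩
  | pos c =>
    have := hU _ (List.mem_singleton_self _)
    simp only [fpair, Form.Holds, this, cval_gtok, uval]
    refine ⟨fun h => ?_, fun h => ?_⟩
    · rw [if_neg (by norm_num), if_pos h, ← mul_inv, Real.mul_self_sqrt h.le,
        mul_inv_cancel₀ h.ne', sub_self]
    · rw [if_neg (by norm_num), if_neg h, Real.mul_self_sqrt (by linarith), add_neg_cancel]
  | and φ ψ h1 h2 =>
    have h1 := h1 fun t ht => hU t (by simp [tok, ht])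
    have h2 := h2 fun t ht => hU t (by simp [tok, ht])
    simp only [fpair, Form.Holds]
    refine ⟨fun h => by simp [h1.1 h.1, h2.1 h.2], fun h => ?_⟩
    rw [not_and_or] at h
    exact mul_eq_zero.2 (h.imp h1.2 h2.2)
  | or φ ψ h1 h2 =>
    have h1 := h1 fun t ht => hU t (by simp [tok, ht])
    have h2 := h2 fun t ht => hU t (by simp [tok, ht])
    simp only [fpair, Form.Holds]
    refine ⟨fun h => mul_eq_zero.2 (h.imp h1.1 h2.1), fun h => ?_⟩
    rw [not_or] at h
    simp [h1.2 h.1, h2.2 h.2]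
  | not φ h =>
    have h := h fun t ht => hU t (by simp [tok, ht])
    exact ⟨h.2, fun h1 => h.1 (not_not.1 h1)⟩

theorem holds_congr {X Y X' Y' : ℕ → ℝ} (φ : Form)
    (h : ∀ t ∈ tok φ, cval id X Y t.2 = cval id X' Y' t.2) : φ.Holds X Y ↔ φ.Holds X' Y' := by
  induction φ with
  | eqZero c =>
    have := h _ (List.mem_singleton_self _)
    simp only [cval_gtok] at this
    simp only [Form.Holds, this]
  | pos c =>
    have := h _ (List.mem_singleton_self _)
    simp only [cval_gtok] at this
    simp only [Form.Holds, this]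
  | and φ ψ h1 h2 =>
    exact and_congr (h1 fun t ht => h t (by simp [tok, ht])) (h2 fun t ht => h t (by simp [tok, ht]))
  | or φ ψ h1 h2 =>
    exact or_congr (h1 fun t ht => h t (by simp [tok, ht])) (h2 fun t ht => h t (by simp [tok, ht]))
  | not φ h1 => exact not_congr (h1 fun t ht => h t (by simp [tok, ht]))

/-- All first arguments of gates. -/
def idxs (T : List Tok) : List ℕ := T.flatMap fun t => t.2.map fun g => g.2.1

theorem mem_idxs {T : List Tok} {t : Tok} (ht : t ∈ T) {g : Gt} (hg : g ∈ t.2) :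
    g.2.1 ∈ idxs T := List.mem_flatMap.2 ⟨t, ht, List.mem_map.2 ⟨g, hg, rfl⟩⟩

/-- The evaluation with compressed variables `z`. -/
def cev {K : Type} [CommRing K] (red : K → K) (z : ℕ → K) (T : List Tok) : K :=
  feval red (fun i => z ((idxs T).idxOf i)) (fun i => z ((idxs T).length + (idxs T).idxOf i))
    (fun t => z ((idxs T).length + ((idxs T).length + T.idxOf t))) T

theorem extend_append_left {r N : ℕ} (x : Fin r → ℝ) (y : Fin N → ℝ) {k : ℕ} (hk : k < r) :
    extend (Fin.append x y) k = x ⟨k, hk⟩ := by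
  rw [extend, dif_pos (by omega)]
  exact Fin.append_left x y ⟨k, hk⟩

theorem extend_append_right {r N : ℕ} (x : Fin r → ℝ) (y : Fin N → ℝ) {k : ℕ} (hk : k < N) :
    extend (Fin.append x y) (r + k) = y ⟨k, hk⟩ := by
  rw [extend, dif_pos (by omega)]
  exact Fin.append_right x y ⟨k, hk⟩

theorem isTrue_iff {S : Sentence} (hS : S.WF) : S.IsTrue ↔
    ∃ x : Fin (idxs (tok S.body)).length → ℝ,
      ¬∃ y : Fin ((idxs (tok S.body)).length + (tok S.body).length) → ℝ,
        cev id (extend (Fin.append x y)) (tok S.body) = 0 := by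
  obtain ⟨r, s, φ⟩ := S
  set T := tok φ with hT
  set L := idxs T with hL
  have hok : ∀ t ∈ T, ∀ g ∈ t.2, (g.1 = 1 → g.2.1 < r) ∧ (g.1 = 2 → g.2.1 < s) := by
    intro t ht g hg
    obtain ⟨i, hi⟩ := gOK_of_mem ((tOK_iff r s φ).2 hS t ht) hg
    unfold gOK at hi
    omega
  have hidx : ∀ t ∈ T, ∀ g ∈ t.2, L.idxOf g.2.1 < L.length := fun t ht g hg =>
    List.idxOf_lt_length_of_mem (mem_idxs ht hg)
  have hf : ∀ X Y U, feval id X Y U T = (fpair X Y U φ).2 := fun X Y U => feval_tok X Y U φ
  simp only [Sentence.IsTrue, cev, ← hL, hf]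
  constructor
  · rintro ⟨x, hx⟩
    refine ⟨fun k => extend x (L.get k), ?_⟩
    rintro ⟨y, hy⟩
    refine (fpair_sound _ _ _ φ).2 hy ((holds_congr φ fun t ht => cval_congr id fun g hg => ?_).1
      (hx fun i => extend (Fin.append (fun k => extend x (L.get k)) y) (L.length + L.idxOf i.1)))
    refine ⟨fun _ => ?_, fun h => ?_⟩
    · rw [extend_append_left _ _ (hidx t ht g hg)]
      simp
    · rw [extend, dif_pos ((hok t ht g hg).2 h)]
  · rintro ⟨x, hx⟩
    refine ⟨fun i => if h : L.idxOf i.1 < L.length then x ⟨_, h⟩ else 0, fun y => ?_⟩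
    set X : ℕ → ℝ := extend fun i : Fin r => if h : L.idxOf i.1 < L.length then x ⟨_, h⟩ else 0
      with hX
    by_contra hn
    let y' : Fin (L.length + T.length) → ℝ := Fin.append (fun k => extend y (L.get k))
      fun k => uval (T.get k).1 (cval id X (extend y) (T.get k).2)
    have hc : ∀ t ∈ T, cval id X (extend y) t.2 =
        cval id (fun i => extend (Fin.append x y') (L.idxOf i))
          (fun i => extend (Fin.append x y') (L.length + L.idxOf i)) t.2 := by
      intro t ht
      refine cval_congr id fun g hg => ⟨fun h => ?_, fun _ => ?_⟩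
      · rw [extend_append_left _ _ (hidx t ht g hg), hX, extend, dif_pos ((hok t ht g hg).1 h),
          dif_pos (hidx t ht g hg)]
      · rw [extend_append_right _ _ (by have := hidx t ht g hg; omega)]
        have := Fin.append_left (fun k => extend y (L.get k))
          (fun k => uval (T.get k).1 (cval id X (extend y) (T.get k).2)) ⟨_, hidx t ht g hg⟩
        refine Eq.trans ?_ this.symm
        simp
    refine hx ⟨y', (fpair_complete _ _ _ φ fun t ht => ?_).2 fun h => hn ((holds_congr φ hc).2 h)⟩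
    have h1 : T.idxOf t < T.length := List.idxOf_lt_length_of_mem ht
    rw [extend_append_right _ _ (by omega), ← hc t ht]
    have := Fin.append_right (fun k => extend y (L.get k))
      (fun k => uval (T.get k).1 (cval id X (extend y) (T.get k).2)) ⟨_, h1⟩
    refine Eq.trans this ?_
    simp

/-- Variables, extended by zero. -/
noncomputable def var (n k : ℕ) : MvPolynomial (Fin n) ℤ :=
  if h : k < n then MvPolynomial.X ⟨k, h⟩ else 0

theorem sm_var (n k : ℕ) : Sm 0 (var n k) := by
  unfold var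
  split_ifs with h
  · have : nu (MvPolynomial.X ⟨k, h⟩ : MvPolynomial (Fin n) ℤ) =
        nu (1 : ℤ) * 2 ^ (Finsupp.single (⟨k, h⟩ : Fin n) 1).degree :=
      nuAM_single (fun m : Fin n →₀ ℕ => m.degree) _ _
    rw [Sm, this]
    simp [nu_int]
  · exact Sm.zero _

theorem cev_map {K L : Type} [CommRing K] [CommRing L] (f : K →+* L) (red : K → K)
    (hr : ∀ a, f (red a) = f a) (z : ℕ → K) (T : List Tok) :
    f (cev red z T) = cev id (fun k => f (z k)) T := feval_map f red hr _ _ _ _

theorem good_cev {α : Type} [PEnc α] {n : α → ℕ} {T : α → List Tok} (hn : Poly n) (hT : Poly T) :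
    Good fun a => cev id (var (n a)) (T a) := by
  have hL : ∀ {β : Type} [PEnc β] {T : β → List Tok}, Poly T → Poly fun a => idxs (T a) := by
    intro β _ T hT
    unfold idxs
    fun_prop
  refine ⟨⟨fun a => 5 * sz (T a), by fun_prop, fun a =>
    sm_feval (fun _ => sm_var _ _) (fun _ => sm_var _ _) (fun _ => sm_var _ _) _⟩,
    fun _ => 0, by fun_prop, fun x => (cev (fun z => z % ((x.2.1 - 1 + 1 : ℕ) : ℤ))
      (fun k => if k < n x.1 then ((x.2.2.1.getD k 0 : ℕ) : ℤ) else 0) (T x.1) %
        ((x.2.1 - 1 + 1 : ℕ) : ℤ)).toNat, CHF.of_poly ?_, fun a p hp _ v => ?_⟩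
  · refine Poly.toNat (Poly.intMod (poly_feval (m := fun x : α × ℕ × List ℕ × Unit => x.2.1 - 1)
      (by fun_prop) ?_ ?_ ?_ (by fun_prop)) (by fun_prop))
    · have := hL (T := fun x : (α × ℕ × List ℕ × Unit) × ℕ => T x.1.1) (by fun_prop)
      fun_prop
    · have := hL (T := fun x : (α × ℕ × List ℕ × Unit) × ℕ => T x.1.1) (by fun_prop)
      fun_prop
    · have := hL (T := fun x : (α × ℕ × List ℕ × Unit) × Tok => T x.1.1) (by fun_prop)
      fun_prop
  · have hp1 : p - 1 + 1 = p := Nat.sub_add_cancel hp.one_le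
    simp only [hp1]
    rw [← Int.cast_natCast, Int.toNat_of_nonneg (Int.emod_nonneg _ (by exact_mod_cast hp.ne_zero)),
      ZMod.intCast_mod, cev_map (ev p v) id (fun _ => rfl)]
    refine (cev_map (Int.castRingHom (ZMod p)) _ (fun z => ZMod.intCast_mod z p) _ _).trans ?_
    congr 1
    funext k
    unfold var
    split_ifs with h
    · simp [ev_mv]
    · simp

end FormAux

open FormAux in
theorem exists_Q : ∃ (ok : List Bool → Bool) (r N : List Bool → ℕ)
    (Q : ∀ w, MvPolynomial (Fin (r w + N w)) ℤ), Poly ok ∧ Poly r ∧ PB r ∧ Poly N ∧ PB N ∧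
    Good Q ∧ ∀ w, w ∈ Crest.RealEA.EATR ↔ ok w = true ∧ ∃ x : Fin (r w) → ℝ,
      ¬∃ y : Fin (N w) → ℝ, MvPolynomial.aeval (Fin.append x y) (Q w) = 0 := by
  have hT : Poly fun w => (parse w).2.2 := poly_parse.snd.snd
  have hL : Poly fun w => idxs (parse w).2.2 := by
    unfold idxs
    fun_prop
  refine ⟨okw, fun w => (idxs (parse w).2.2).length,
    fun w => (idxs (parse w).2.2).length + (parse w).2.2.length,
    fun w => cev id (var _) (parse w).2.2, poly_okw, by fun_prop, by fun_prop, by fun_prop,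
    by fun_prop, good_cev (by fun_prop) hT, fun w => ?_⟩
  have key : ∀ (r N : ℕ) (x : Fin r → ℝ) (y : Fin N → ℝ) (T : List Tok),
      MvPolynomial.aeval (Fin.append x y) (cev id (var (r + N)) T) =
        cev id (Crest.RealEA.extend (Fin.append x y)) T := by
    intro r N x y T
    refine (cev_map (MvPolynomial.aeval (R := ℤ) (Fin.append x y)).toRingHom id (fun _ => rfl)
      _ _).trans ?_
    congr 1
    funext k
    unfold var Crest.RealEA.extend
    split_ifs <;> simp
  simp only [key]
  constructor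
  · rintro ⟨S, h1, h2, rfl⟩
    refine ⟨(okw_iff _).2 ⟨S, h1, rfl⟩, ?_⟩
    have h3 := (isTrue_iff h1).1 h2
    have e : (parse S.encode).2.2 = tok S.body := by rw [parse_encode h1]
    rw [← e] at h3
    exact h3
  · rintro ⟨h1, h2⟩
    obtain ⟨S, h3, rfl⟩ := (okw_iff _).1 h1
    have e : (parse S.encode).2.2 = tok S.body := by rw [parse_encode h3]
    refine ⟨S, h3, (isTrue_iff h3).2 ?_, rfl⟩
    rw [← e]
    exact h2

end Crest.Agent.R316
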