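import Crest.Agent.R316.GoodCoeff

/-! Row 316: token form of a sentence and its evaluation in a commutative ring. -/

set_option autoImplicit false
open Crest.Agent.Lib.PolyTime

namespace Crest.Agent.R316.FormAux

open Crest.RealEA

/-- Gate tokens. -/
abbrev Gt : Type := ℕ × ℕ × ℕ

/-- Formula tokens. -/
abbrev Tok : Type := ℕ × List Gt

section eval
variable {K L : Type} [CommRing K] [CommRing L]

/-- Value of a gate token. -/
def gval (X Y : ℕ → K) (prev : List K) (g : Gt) : K :=
  if g.1 = 0 then (if g.2.1 = 0 then (g.2.2 : K) else -(g.2.2 : K))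
  else if g.1 = 1 then X g.2.1
  else if g.1 = 2 then Y g.2.1
  else if g.1 = 3 then prev.getD g.2.1 0 + prev.getD g.2.2 0
  else if g.1 = 4 then prev.getD g.2.1 0 - prev.getD g.2.2 0
  else prev.getD g.2.1 0 * prev.getD g.2.2 0

/-- One step of the circuit evaluation. -/
def cstep (red : K → K) (X Y : ℕ → K) (prev : List K) (g : Gt) : List K :=
  prev ++ [red (gval X Y prev g)]

/-- Value of a circuit. -/
def cval (red : K → K) (X Y : ℕ → K) (c : List Gt) : K :=
  (c.foldl (cstep red X Y) []).getLastD 0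

/-- The pair pushed by a token. -/
def tpair (tag : ℕ) (p u : K) (A B : K × K) : K × K :=
  if tag = 6 then (p, p * u - 1)
  else if tag = 7 then (p * (u * u) - 1, p + u * u)
  else if tag = 8 then (A.1 * A.1 + B.1 * B.1, A.2 * B.2)
  else if tag = 9 then (A.1 * B.1, A.2 * A.2 + B.2 * B.2)
  else (A.2, A.1)

/-- Number of stack entries consumed by a token. -/
def arity (tag : ℕ) : ℕ := if tag = 6 ∨ tag = 7 then 0 else if tag = 8 ∨ tag = 9 then 2 else 1

/-- One step of the formula evaluation. -/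
def fstep (red : K → K) (X Y : ℕ → K) (U : Tok → K) (t : Tok) (st : List (K × K)) :
    List (K × K) :=
  (red (tpair t.1 (cval red X Y t.2) (U t) (st.getD 0 (0, 0)) (st.getD 1 (0, 0))).1,
    red (tpair t.1 (cval red X Y t.2) (U t) (st.getD 0 (0, 0)) (st.getD 1 (0, 0))).2) ::
    st.drop (arity t.1)

/-- The negative part of the formula. -/
def feval (red : K → K) (X Y : ℕ → K) (U : Tok → K) (T : List Tok) : K :=
  ((T.foldr (fstep red X Y U) []).getD 0 (0, 0)).2

theorem getD_map_zero (f : K →+* L) (l : List K) (i : ℕ) :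
    (l.map f).getD i 0 = f (l.getD i 0) := by
  rw [← map_zero f, List.getD_map]

theorem gval_map (f : K →+* L) (X Y : ℕ → K) (prev : List K) (g : Gt) :
    f (gval X Y prev g) = gval (fun i => f (X i)) (fun i => f (Y i)) (prev.map f) g := by
  simp only [gval, getD_map_zero]
  split_ifs <;> simp

theorem cval_map (f : K →+* L) (red : K → K) (hr : ∀ a, f (red a) = f a) (X Y : ℕ → K)
    (c : List Gt) : f (cval red X Y c) = cval id (fun i => f (X i)) (fun i => f (Y i)) c := by
  have key : ∀ prev : List K, (c.foldl (cstep red X Y) prev).map f =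
      c.foldl (cstep id (fun i => f (X i)) (fun i => f (Y i))) (prev.map f) := by
    induction c with
    | nil => intro prev; rfl
    | cons g c ih =>
      intro prev
      rw [List.foldl_cons, List.foldl_cons, ih]
      simp [cstep, hr, gval_map]
  have h := key []
  rw [List.map_nil] at h
  rw [cval, cval, ← h, ← map_zero f, List.getLastD_map]

theorem tpair_map (f : K →+* L) (tag : ℕ) (p u : K) (A B : K × K) :
    Prod.map f f (tpair tag p u A B) =
      tpair tag (f p) (f u) (Prod.map f f A) (Prod.map f f B) := by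
  simp only [tpair]
  split_ifs <;> simp

theorem feval_map (f : K →+* L) (red : K → K) (hr : ∀ a, f (red a) = f a) (X Y : ℕ → K)
    (U : Tok → K) (T : List Tok) :
    f (feval red X Y U T) =
      feval id (fun i => f (X i)) (fun i => f (Y i)) (fun t => f (U t)) T := by
  have h0 : ∀ (l : List (K × K)) (i : ℕ),
      (l.map (Prod.map f f)).getD i (0, 0) = Prod.map f f (l.getD i (0, 0)) := by
    intro l i
    rw [← List.getD_map (f := Prod.map f f)]
    simp
  have key : (T.foldr (fstep red X Y U) []).map (Prod.map f f) =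
      T.foldr (fstep id (fun i => f (X i)) (fun i => f (Y i)) (fun t => f (U t))) [] := by
    induction T with
    | nil => rfl
    | cons t T ih =>
      rw [List.foldr_cons, List.foldr_cons, ← ih]
      simp only [fstep, List.map_cons, List.map_drop, h0, ← cval_map f red hr, ← tpair_map, id,
        Prod.map_apply, hr, Prod.map_fst, Prod.map_snd]
  rw [feval, feval, ← key, h0]
  rfl

theorem cval_congr (red : K → K) {X Y X' Y' : ℕ → K} {c : List Gt}
    (h : ∀ g ∈ c, (g.1 = 1 → X g.2.1 = X' g.2.1) ∧ (g.1 = 2 → Y g.2.1 = Y' g.2.1)) :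
    cval red X Y c = cval red X' Y' c := by
  have key : ∀ prev : List K, c.foldl (cstep red X Y) prev = c.foldl (cstep red X' Y') prev := by
    induction c with
    | nil => intro prev; rfl
    | cons g c ih =>
      intro prev
      rw [List.foldl_cons, List.foldl_cons, ih fun g' hg' => h g' (List.mem_cons_of_mem _ hg')]
      have := h g List.mem_cons_self
      have e : gval X Y prev g = gval X' Y' prev g := by
        simp only [gval]
        split_ifs <;> first | rfl | exact this.1 ‹_› | exact this.2 ‹_›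
      rw [cstep, cstep, e]
  rw [cval, cval, key]

end eval

/-! ### Size -/

section size
variable {K : Type} [CommRing K] [Nu K]

/-- Doubly exponential size bound. -/
def Sm (d : ℕ) (q : K) : Prop := nu q ≤ 2 ^ 2 ^ d

theorem Sm.mono {d e : ℕ} {q : K} (h : Sm d q) (le : d ≤ e) : Sm e q :=
  h.trans (Nat.pow_le_pow_right two_pos (Nat.pow_le_pow_right two_pos le))

theorem two_le (d : ℕ) : 2 ≤ 2 ^ 2 ^ d :=
  Nat.le_self_pow (by positivity) 2

theorem sq_eq (d : ℕ) : 2 ^ 2 ^ (d + 1) = 2 ^ 2 ^ d * 2 ^ 2 ^ d := by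
  rw [← pow_add, pow_succ, mul_two]

theorem Sm.zero (d : ℕ) : Sm d (0 : K) := by simp [Sm, Nu.nu_zero]

theorem Sm.one (d : ℕ) : Sm d (1 : K) := Nu.nu_one.trans (Nat.one_le_two_pow)

theorem Sm.mul {d : ℕ} {a b : K} (ha : Sm d a) (hb : Sm d b) : Sm (d + 1) (a * b) := by
  rw [Sm, sq_eq]
  exact (Nu.nu_mul a b).trans (Nat.mul_le_mul ha hb)

theorem Sm.add {d : ℕ} {a b : K} (ha : Sm d a) (hb : Sm d b) : Sm (d + 1) (a + b) := by
  rw [Sm, sq_eq]
  refine (Nu.nu_add a b).trans ((Nat.add_le_add ha hb).trans ?_)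
  rw [← two_mul]
  exact Nat.mul_le_mul_right _ (two_le d)

theorem Sm.neg {d : ℕ} {a : K} (ha : Sm d a) : Sm d (-a) := by
  rwa [Sm, Nu.nu_neg]

theorem Sm.sub {d : ℕ} {a b : K} (ha : Sm d a) (hb : Sm d b) : Sm (d + 1) (a - b) := by
  rw [sub_eq_add_neg]
  exact ha.add hb.neg

theorem Sm.natCast {d n : ℕ} (h : sz n ≤ d) : Sm d (n : K) :=
  (nu_natCast_le n).trans ((lt_two_pow_sz n).le.trans (Nat.pow_le_pow_right two_pos
    (h.trans Nat.lt_two_pow_self.le)))

theorem sm_getD {d : ℕ} {l : List K} (h : ∀ q ∈ l, Sm d q) (i : ℕ) : Sm d (l.getD i 0) := by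
  rw [List.getD_eq_getElem?_getD]
  rcases hi : l[i]? with _ | q
  · exact Sm.zero d
  · exact h q (List.mem_of_getElem? hi)

theorem sm_cval {X Y : ℕ → K} (hX : ∀ i, Sm 0 (X i)) (hY : ∀ i, Sm 0 (Y i)) (c : List Gt) :
    Sm (2 * sz c) (cval id X Y c) := by
  have key : ∀ (d : ℕ) (prev : List K), sz c ≤ d → (∀ q ∈ prev, Sm d q) →
      ∀ q ∈ c.foldl (cstep id X Y) prev, Sm (d + c.length) q := by
    induction c with
    | nil => intro d prev _ h; exact h
    | cons g c ih =>
      intro d prev hd h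
      rw [sz_cons] at hd
      rw [List.foldl_cons, List.length_cons, add_comm c.length, ← add_assoc]
      refine ih (d + 1) _ (by omega) fun q hq => ?_
      rcases List.mem_append.1 hq with hq | hq
      · exact (h q hq).mono (by omega)
      · rw [List.mem_singleton.1 hq]
        have h1 : sz g.2.2 ≤ d + 1 := by
          have := sz_snd_le g
          have := sz_snd_le g.2
          omega
        simp only [id, gval]
        split_ifs
        · exact Sm.natCast h1
        · exact (Sm.natCast h1).neg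
        · exact (hX _).mono (by omega)
        · exact (hY _).mono (by omega)
        · exact (sm_getD h _).add (sm_getD h _)
        · exact (sm_getD h _).sub (sm_getD h _)
        · exact (sm_getD h _).mul (sm_getD h _)
  have h := key (sz c) [] le_rfl (by simp)
  have h1 := length_le_sz c
  rw [cval, List.getLastD_eq_getLast?]
  rcases hq : (c.foldl (cstep id X Y) []).getLast? with _ | q
  · exact Sm.zero _
  · exact (h q (List.mem_of_getLast? hq)).mono (by omega)

theorem sm_tpair {d : ℕ} (tag : ℕ) {p u : K} {A B : K × K} (hp : Sm d p) (hu : Sm d u)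
    (hA : Sm d A.1 ∧ Sm d A.2) (hB : Sm d B.1 ∧ Sm d B.2) :
    Sm (d + 3) (tpair tag p u A B).1 ∧ Sm (d + 3) (tpair tag p u A B).2 := by
  simp only [tpair]
  split_ifs
  · exact ⟨hp.mono (by omega), ((hp.mul hu).sub (Sm.one _)).mono (by omega)⟩
  · exact ⟨((hp.mono (Nat.le_succ d)).mul (hu.mul hu)).sub (Sm.one _),
      ((hp.mono (Nat.le_succ d)).add (hu.mul hu)).mono (by omega)⟩
  · exact ⟨((hA.1.mul hA.1).add (hB.1.mul hB.1)).mono (by omega), (hA.2.mul hB.2).mono (by omega)⟩
  · exact ⟨(hA.1.mul hB.1).mono (by omega), ((hA.2.mul hA.2).add (hB.2.mul hB.2)).mono (by omega)⟩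
  · exact ⟨hA.2.mono (by omega), hA.1.mono (by omega)⟩

theorem sm_getD₂ {d : ℕ} {l : List (K × K)} (h : ∀ q ∈ l, Sm d q.1 ∧ Sm d q.2) (i : ℕ) :
    Sm d (l.getD i (0, 0)).1 ∧ Sm d (l.getD i (0, 0)).2 := by
  rw [List.getD_eq_getElem?_getD]
  rcases hi : l[i]? with _ | q
  · exact ⟨Sm.zero d, Sm.zero d⟩
  · exact h q (List.mem_of_getElem? hi)

theorem sm_feval {X Y : ℕ → K} {U : Tok → K} (hX : ∀ i, Sm 0 (X i)) (hY : ∀ i, Sm 0 (Y i))
    (hU : ∀ t, Sm 0 (U t)) (T : List Tok) : Sm (5 * sz T) (feval id X Y U T) := by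
  have key : ∀ q ∈ T.foldr (fstep id X Y U) [], Sm (5 * sz T) q.1 ∧ Sm (5 * sz T) q.2 := by
    induction T with
    | nil => simp
    | cons t T ih =>
      intro q hq
      rw [List.foldr_cons, fstep, List.mem_cons] at hq
      have h1 := sz_snd_le t
      have h2 := sz_pos t
      have ih' : ∀ q ∈ T.foldr (fstep id X Y U) [],
          Sm (5 * sz T + 2 * sz t) q.1 ∧ Sm (5 * sz T + 2 * sz t) q.2 := fun q hq =>
        ⟨(ih q hq).1.mono (by omega), (ih q hq).2.mono (by omega)⟩
      rw [sz_cons]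
      rcases hq with rfl | hq
      · have := sm_tpair t.1 ((sm_cval hX hY t.2).mono (by omega)) ((hU t).mono (Nat.zero_le _))
          (sm_getD₂ ih' 0) (sm_getD₂ ih' 1)
        exact ⟨this.1.mono (by omega), this.2.mono (by omega)⟩
      · have := ih q (List.mem_of_mem_drop hq)
        exact ⟨this.1.mono (by omega), this.2.mono (by omega)⟩
  exact (sm_getD₂ key 0).2

end size

/-! ### Polynomial time -/

section poly
variable {α : Type} [PEnc α]

theorem sz_mod_le (z : ℤ) (m : ℕ) : sz (z % ((m + 1 : ℕ) : ℤ)) ≤ 4 * sz m + 5 := by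
  refine sz_int_le_of_lt ?_
  have h1 := Int.emod_nonneg z (b := ((m + 1 : ℕ) : ℤ)) (by positivity)
  have h2 := Int.emod_lt_of_pos z (b := ((m + 1 : ℕ) : ℤ)) (by positivity)
  have h3 := lt_two_pow_sz m
  omega

theorem poly_cval {m : α → ℕ} {X Y : α → ℕ → ℤ} {c : α → List Gt} (hm : Poly m)
    (hX : Poly fun x : α × ℕ => X x.1 x.2) (hY : Poly fun x : α × ℕ => Y x.1 x.2) (hc : Poly c) :
    Poly fun a => cval (fun z => z % ((m a + 1 : ℕ) : ℤ)) (X a) (Y a) (c a) := by
  refine Poly.getLastD (Poly.foldl_add hc (by fun_prop) ?_ (fun a _ => 4 * sz (m a) + 6)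
    (by fun_prop) fun a s x => ?_) (by fun_prop)
  · have h1 : Poly fun p : α × List ℤ × Gt => X p.1 p.2.2.2.1 :=
      hX.comp (g := fun p : α × List ℤ × Gt => (p.1, p.2.2.2.1)) (by fun_prop)
    have h2 : Poly fun p : α × List ℤ × Gt => Y p.1 p.2.2.2.1 :=
      hY.comp (g := fun p : α × List ℤ × Gt => (p.1, p.2.2.2.1)) (by fun_prop)
    simp only [cstep, gval]
    fun_prop
  · have h1 := sz_append s [gval (X a) (Y a) s x % ((m a + 1 : ℕ) : ℤ)]
    have h2 := sz_mod_le (gval (X a) (Y a) s x) (m a)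
    rw [sz_cons, sz_nil] at h1
    simp only [cstep]
    omega

theorem poly_feval {m : α → ℕ} {X Y : α → ℕ → ℤ} {U : α → Tok → ℤ} {T : α → List Tok}
    (hm : Poly m) (hX : Poly fun x : α × ℕ => X x.1 x.2) (hY : Poly fun x : α × ℕ => Y x.1 x.2)
    (hU : Poly fun x : α × Tok => U x.1 x.2) (hT : Poly T) :
    Poly fun a => feval (fun z => z % ((m a + 1 : ℕ) : ℤ)) (X a) (Y a) (U a) (T a) := by
  refine Poly.snd (Poly.listGetD (Poly.foldr_add hT (by fun_prop) ?_ (fun a _ => 8 * sz (m a) + 12)
    (by fun_prop) fun a x s => ?_) (by fun_prop) (by fun_prop))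
  · have h1 : Poly fun p : α × Tok × List (ℤ × ℤ) => U p.1 p.2.1 :=
      hU.comp (g := fun p : α × Tok × List (ℤ × ℤ) => (p.1, p.2.1)) (by fun_prop)
    have h2 : Poly fun p : α × Tok × List (ℤ × ℤ) =>
        cval (fun z => z % ((m p.1 + 1 : ℕ) : ℤ)) (X p.1) (Y p.1) p.2.1.2 :=
      poly_cval (by fun_prop)
        (hX.comp (g := fun x : (α × Tok × List (ℤ × ℤ)) × ℕ => (x.1.1, x.2)) (by fun_prop))
        (hY.comp (g := fun x : (α × Tok × List (ℤ × ℤ)) × ℕ => (x.1.1, x.2)) (by fun_prop))
        (by fun_prop)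
    have h3 : Poly fun p : α × Tok × List (ℤ × ℤ) =>
        tpair p.2.1.1 (cval (fun z => z % ((m p.1 + 1 : ℕ) : ℤ)) (X p.1) (Y p.1) p.2.1.2)
          (U p.1 p.2.1) (p.2.2.getD 0 (0, 0)) (p.2.2.getD 1 (0, 0)) := by
      simp only [tpair]
      fun_prop
    simp only [fstep, arity]
    fun_prop
  · simp only [fstep, sz_cons, sz_pair]
    have h1 := sz_le_of_sublist (List.drop_sublist (arity x.1) s)
    have h2 := fun z => sz_mod_le z (m a)
    grind

end poly

end Crest.Agent.R316.FormAux
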