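import Crest.Agent.R316.ModArith

/-! Ring operations, exponential sums and products of good families. -/

set_option autoImplicit false
open Crest.Agent.Lib.PolyTime
open scoped Polynomial

namespace Crest.Agent.R316

section nu
variable {K : Type} [CommRing K] [Nu K]

theorem nu_sub_le (x y : K) : nu (x - y) ≤ nu x + nu y := by
  rw [sub_eq_add_neg, ← Nu.nu_neg y]
  exact Nu.nu_add _ _

theorem nu_prod_le {ι : Type} (s : Finset ι) (f : ι → K) :
    nu (∏ i ∈ s, f i) ≤ ∏ i ∈ s, nu (f i) := by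
  classical
  induction s using Finset.induction_on with
  | empty => simpa using Nu.nu_one
  | insert a s ha ih =>
    rw [Finset.prod_insert ha, Finset.prod_insert ha]
    exact (Nu.nu_mul _ _).trans (Nat.mul_le_mul_left _ ih)

theorem nu_pow_le (x : K) (k : ℕ) : nu (x ^ k) ≤ nu x ^ k := by
  simpa using nu_prod_le (Finset.range k) fun _ => x

theorem nu_natCast_le (k : ℕ) : nu (k : K) ≤ k := by
  induction k with
  | zero => rw [Nat.cast_zero, Nu.nu_zero]
  | succ k ih =>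
    rw [Nat.cast_succ]
    exact (Nu.nu_add _ _).trans (Nat.add_le_add ih Nu.nu_one)

theorem nu_intCast_le (z : ℤ) : nu (z : K) ≤ z.natAbs := by
  obtain ⟨k, rfl | rfl⟩ := z.eq_nat_or_neg
  · rw [Int.cast_natCast, Int.natAbs_natCast]
    exact nu_natCast_le k
  · rw [Int.cast_neg, Nu.nu_neg, Int.cast_natCast, Int.natAbs_neg, Int.natAbs_natCast]
    exact nu_natCast_le k

end nu

variable {α β : Type} [PEnc α] [PEnc β] {P : Type} [PEnc P] {K : α → Type}
  [∀ a, CommRing (K a)] [∀ a, Nu (K a)] [∀ a, Ev P (K a)]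

namespace GoodAux

theorem le_left {s t p : ℕ} (h : 2 ^ (s + t) ≤ p) : 2 ^ s ≤ p :=
  (Nat.pow_le_pow_right (by norm_num) (Nat.le_add_right s t)).trans h

theorem le_right {s t p : ℕ} (h : 2 ^ (s + t) ≤ p) : 2 ^ t ≤ p :=
  (Nat.pow_le_pow_right (by norm_num) (Nat.le_add_left t s)).trans h

theorem pb_range {n : α → ℕ} (hn : Poly n) : PB fun a => sz a + 4 * sz (n a) + 1 :=
  (PB.sz_id.add ((PB.const 4).mul hn.pb_sz)).add (PB.const 1)

theorem sz_range {a : α} {n i : ℕ} (hi : i ∈ Finset.range n) :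
    sz (a, i) ≤ sz a + 4 * sz n + 1 := by
  have := sz_le_of_le (Finset.mem_range.1 hi).le
  rw [sz_pair]
  omega

theorem good_dite {p : α → Prop} [DecidablePred p] (hp : Poly fun a => decide (p a))
    {f : ∀ a, p a → K a} {g : ∀ a, ¬p a → K a}
    (hf : Good (K := fun a : {a // p a} => K a.1) fun a => f a.1 a.2)
    (hg : Good (K := fun a : {a // ¬p a} => K a.1) fun a => g a.1 a.2) :
    Good fun a => if h : p a then f a h else g a h := by
  obtain ⟨hs, t, ht, F, hF, hev⟩ := hf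
  obtain ⟨hs', t', ht', F', hF', hev'⟩ := hg
  obtain ⟨s₁, hs₁, hle₁⟩ := hs.unif (PB.sz_id (α := α))
  obtain ⟨s₂, hs₂, hle₂⟩ := hs'.unif (PB.sz_id (α := α))
  obtain ⟨t₁, ht₁, htle₁⟩ := pb_unif ht (PB.sz_id (α := α))
  obtain ⟨t₂, ht₂, htle₂⟩ := pb_unif ht' (PB.sz_id (α := α))
  have hp' : Poly fun x : α × ℕ × P => decide (p x.1) := hp.comp (Poly.fst Poly.id')
  have c₁ := CHF.dite (p := fun x : α × ℕ × P => p x.1) hp'
    (hF.comp (φ := fun x : {x : α × ℕ × P // p x.1} => (⟨x.1.1, x.2⟩, x.1.2))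
      (Poly.cast fun _ => rfl))
  have c₂ := CHF.dite (p := fun x : α × ℕ × P => ¬p x.1) (Poly.decide_not hp')
    (hF'.comp (φ := fun x : {x : α × ℕ × P // ¬p x.1} => (⟨x.1.1, x.2⟩, x.1.2))
      (Poly.cast fun _ => rfl))
  refine ⟨(hs₁.add hs₂).mono fun a => ?_, fun a => t₁ a + t₂ a, ht₁.add ht₂, _, c₁.add c₂,
    fun a q hq hle v => ?_⟩
  · split_ifs with h
    · exact (hle₁ a ⟨a, h⟩ le_rfl).trans (Nat.le_add_right _ _)
    · exact (hle₂ a ⟨a, h⟩ le_rfl).trans (Nat.le_add_left _ _)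
  · by_cases h : p a
    · rw [dif_pos h, dif_neg (not_not.2 h), dif_pos h, add_zero]
      exact hev ⟨a, h⟩ q hq ((Nat.pow_le_pow_right (by norm_num)
        (htle₁ a ⟨a, h⟩ le_rfl)).trans (le_left hle)) v
    · rw [dif_neg h, dif_pos h, dif_neg h, zero_add]
      exact hev' ⟨a, h⟩ q hq ((Nat.pow_le_pow_right (by norm_num)
        (htle₂ a ⟨a, h⟩ le_rfl)).trans (le_right hle)) v

theorem sum_box_eq {M : Type} [AddCommMonoid M] (n B : ℕ) (f : (Fin n → ℕ) → M) :
    ∑ k ∈ box n B, f k = ∑ y ∈ Finset.range (B ^ n), f fun i => y / B ^ (i : ℕ) % B := by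
  rw [Finset.sum_range, ← Equiv.sum_comp finFunctionFinEquiv]
  symm
  refine Finset.sum_of_injOn (fun (k : Fin n → Fin B) i => (k i : ℕ)) ?_ ?_ ?_ ?_
  · intro k _ l _ h
    funext i
    exact Fin.ext (congrFun h i)
  · intro k _
    simp [box]
  · intro k hk hne
    refine absurd ⟨fun i => ⟨k i, ?_⟩, Finset.mem_coe.2 (Finset.mem_univ _), rfl⟩ hne
    simpa using Fintype.mem_piFinset.1 hk i
  · intro k _
    congr 1
    funext i
    exact congrArg (fun g : Fin n → Fin B => (g i : ℕ)) (finFunctionFinEquiv.symm_apply_apply k)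

/-- The sign of a tuple of numbers (zero if two entries agree). -/
def eps {n : ℕ} (k : Fin n → ℕ) : ℤ :=
  ∏ i : Fin n, ∏ j : Fin n, if (i : ℕ) < j then Int.sign ((k j : ℤ) - k i) else 1

theorem poly_eps {n : α → ℕ} (hn : Poly n) (hb : PB n) :
    Poly fun x : Σ a, Fin (n a) → ℕ => eps x.2 := by
  have h0 : Poly fun x : Σ a, Fin (n a) → ℕ => x.1 := Poly.sigmaFst Poly.id'
  refine Poly.prod_fin (n := fun x : Σ a, Fin (n a) → ℕ => n x.1) (hn.comp h0) (hb.comp h0) ?_
  have h1 : Poly fun y : Σ x : Σ a, Fin (n a) → ℕ, Fin (n x.1) => y.1 := Poly.sigmaFst Poly.id'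
  refine Poly.prod_fin (n := fun y : Σ x : Σ a, Fin (n a) → ℕ, Fin (n x.1) => n y.1.1)
    (hn.comp (h0.comp h1)) (hb.comp (h0.comp h1)) ?_
  have h2 : Poly fun z : Σ y : Σ x : Σ a, Fin (n a) → ℕ, Fin (n x.1), Fin (n y.1.1) => z.1 :=
    Poly.sigmaFst Poly.id'
  have hi : Poly fun z : Σ y : Σ x : Σ a, Fin (n a) → ℕ, Fin (n x.1), Fin (n y.1.1) =>
    (z.1.2 : ℕ) := Poly.sigmaFinVal h2
  have hj : Poly fun z : Σ y : Σ x : Σ a, Fin (n a) → ℕ, Fin (n x.1), Fin (n y.1.1) =>
    (z.2 : ℕ) := Poly.sigmaFinVal Poly.id'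
  exact Poly.ite (Poly.decide_lt hi hj)
    (((poly_appFun (h1.comp h2) hj).natCastInt.intSub
      (poly_appFun (h1.comp h2) hi).natCastInt).intSign) (Lib.PolyTime.Poly.const 1)

theorem eps_eq_zero {n : ℕ} {k : Fin n → ℕ} (h : ¬Function.Injective k) : eps k = 0 := by
  rw [← Set.injOn_univ, Set.injOn_iff_pairwise_ne] at h
  by_contra hne
  apply h
  have key : ∀ i j : Fin n, i < j → k i ≠ k j := fun i j hij he => by
    refine hne (Finset.prod_eq_zero (Finset.mem_univ i) (Finset.prod_eq_zero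
      (Finset.mem_univ j) ?_))
    rw [if_pos (show (i : ℕ) < j from hij), he, sub_self, Int.sign_zero]
  intro i _ j _ hij
  rcases lt_or_gt_of_ne hij with h | h
  · exact key i j h
  · exact (key j i h).symm

theorem eps_perm {n : ℕ} (σ : Equiv.Perm (Fin n)) :
    eps (fun i => (σ i : ℕ)) = (Equiv.Perm.sign σ : ℤ) := by
  rw [σ.sign_eq_prod_prod_Ioi, Units.coe_prod]
  refine Finset.prod_congr rfl fun i _ => ?_
  rw [Units.coe_prod, ← Finset.prod_filter]
  refine Finset.prod_congr (by ext j; simp) fun j hj => ?_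
  have hne : σ i ≠ σ j := σ.injective.ne (Finset.mem_Ioi.1 hj).ne
  split_ifs with h
  · exact Int.sign_eq_one_of_pos (by have := Fin.lt_def.1 h; beta_reduce; omega)
  · have := Fin.lt_def.1 (lt_of_le_of_ne (not_lt.1 h) hne.symm)
    exact Int.sign_eq_neg_one_of_neg (by beta_reduce; omega)

theorem det_eq {R : Type} [CommRing R] {n : ℕ} (A : Matrix (Fin n) (Fin n) R) :
    A.det = ∑ k ∈ box n n, (eps k : R) * ∏ i, if h : k i < n then A ⟨k i, h⟩ i else 0 := by
  rw [Matrix.det_apply']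
  refine Finset.sum_of_injOn (fun (σ : Equiv.Perm (Fin n)) i => (σ i : ℕ)) ?_ ?_ ?_ ?_
  · intro σ _ τ _ h
    ext i
    exact congrFun h i
  · intro σ _
    simp [box]
  · intro k hk hne
    have hlt : ∀ i, k i < n := fun i => by simpa using Fintype.mem_piFinset.1 hk i
    rw [eps_eq_zero, Int.cast_zero, zero_mul]
    intro hinj
    have hinj' : Function.Injective fun i => (⟨k i, hlt i⟩ : Fin n) := fun i j h =>
      hinj (congrArg Fin.val h)
    exact hne ⟨Equiv.ofBijective _ (Finite.injective_iff_bijective.1 hinj'),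
      Finset.mem_coe.2 (Finset.mem_univ _), rfl⟩
  · intro σ _
    rw [eps_perm]
    simp

end GoodAux

theorem Good.congr {f g : ∀ a, K a} (h : Good f) (e : ∀ a, f a = g a) : Good g := by
  have : f = g := funext e
  exact this ▸ h

theorem Good.comp {f : ∀ a, K a} (h : Good f) {φ : β → α} (hφ : Poly φ) :
    Good (K := fun b => K (φ b)) fun b => f (φ b) := by
  obtain ⟨hs, t, ht, F, hF, hev⟩ := h
  exact ⟨hs.comp hφ, fun b => t (φ b), ht.comp hφ, fun x => F (φ x.1, x.2),
    hF.comp ((hφ.comp (Poly.fst Poly.id')).pair (Poly.snd Poly.id')),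
    fun b p hp hle v => hev (φ b) p hp hle v⟩

theorem Good.intCast {z : α → ℤ} (hz : Good z) : Good fun a => (z a : K a) := by
  obtain ⟨hs, t, ht, F, hF, hev⟩ := hz
  refine ⟨hs.mono fun a => nu_intCast_le _, t, ht, fun x => F (x.1, x.2.1, ()),
    hF.comp (by fun_prop), fun a p hp hle v => ?_⟩
  rw [map_intCast]
  exact hev a p hp hle ()

theorem Good.ofPolyInt {z : α → ℤ} (hz : Poly z) : Good z := by
  refine ⟨DB.of_eb (EB.of_poly hz.natAbs), fun _ => 0, PB.const 0,
    fun x => (z x.1 % (x.2.1 : ℤ)).toNat, CHF.of_poly (by fun_prop), fun a p hp _ v => ?_⟩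
  have h0 : 0 ≤ z a % (p : ℤ) := Int.emod_nonneg _ (by exact_mod_cast hp.ne_zero)
  rw [ev_int, ← Int.cast_natCast, Int.toNat_of_nonneg h0, ZMod.intCast_mod]

theorem Good.natCast {n : α → ℕ} (hn : Poly n) : Good fun a => (n a : K a) := by
  exact (Good.intCast (K := K) (Good.ofPolyInt hn.natCastInt)).congr fun a => Int.cast_natCast _

theorem Good.zero : Good fun a => (0 : K a) := by
  exact (Good.natCast (K := K) (Lib.PolyTime.Poly.const 0)).congr fun a => Nat.cast_zero

theorem Good.one : Good fun a => (1 : K a) := by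
  exact (Good.natCast (K := K) (Lib.PolyTime.Poly.const 1)).congr fun a => Nat.cast_one

theorem Good.ofNat (c : ℕ) [c.AtLeastTwo] : Good fun a => (OfNat.ofNat c : K a) := by
  exact (Good.natCast (K := K) (Lib.PolyTime.Poly.const c)).congr fun a => rfl

theorem Good.add {f g : ∀ a, K a} (hf : Good f) (hg : Good g) : Good fun a => f a + g a := by
  obtain ⟨hs, t, ht, F, hF, hev⟩ := hf
  obtain ⟨hs', t', ht', F', hF', hev'⟩ := hg
  refine ⟨(hs.add hs').mono fun a => Nu.nu_add _ _, fun a => t a + t' a, ht.add ht',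
    fun x => F x + F' x, hF.add hF', fun a p hp hle v => ?_⟩
  rw [Nat.cast_add, map_add, hev a p hp (GoodAux.le_left hle), hev' a p hp (GoodAux.le_right hle)]

theorem Good.neg {f : ∀ a, K a} (hf : Good f) : Good fun a => -f a := by
  obtain ⟨hs, t, ht, F, hF, hev⟩ := hf
  refine ⟨hs.mono fun a => (Nu.nu_neg _).le, t, ht, fun x => (x.2.1 - 1) * F x,
    (CHF.of_poly (by fun_prop)).mul hF, fun a p hp hle v => ?_⟩
  rw [Nat.cast_mul, hev a p hp hle, map_neg, Nat.cast_sub hp.one_le, ZMod.natCast_self,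
    Nat.cast_one, zero_sub, neg_one_mul]

theorem Good.sub {f g : ∀ a, K a} (hf : Good f) (hg : Good g) : Good fun a => f a - g a := by
  exact (hf.add hg.neg).congr fun a => (sub_eq_add_neg _ _).symm

theorem Good.mul {f g : ∀ a, K a} (hf : Good f) (hg : Good g) : Good fun a => f a * g a := by
  obtain ⟨hs, t, ht, F, hF, hev⟩ := hf
  obtain ⟨hs', t', ht', F', hF', hev'⟩ := hg
  refine ⟨(hs.mul hs').mono fun a => Nu.nu_mul _ _, fun a => t a + t' a, ht.add ht',
    fun x => F x * F' x, hF.mul hF', fun a p hp hle v => ?_⟩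
  rw [Nat.cast_mul, map_mul, hev a p hp (GoodAux.le_left hle), hev' a p hp (GoodAux.le_right hle)]

theorem Good.ite {p : α → Prop} [DecidablePred p] (hp : Poly fun a => decide (p a))
    {f g : ∀ a, K a} (hf : Good f) (hg : Good g) : Good fun a => if p a then f a else g a := by
  exact GoodAux.good_dite (f := fun a _ => f a) (g := fun a _ => g a) hp
    (hf.comp (Poly.val Poly.id')) (hg.comp (Poly.val Poly.id'))

theorem Good.dite {p : α → Prop} [DecidablePred p] (hp : Poly fun a => decide (p a))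
    {f : ∀ a, p a → K a} {g : ∀ a, ¬p a → K a}
    (hf : Good (K := fun a : {a // p a} => K a.1) fun a => f a.1 a.2)
    (hg : Good (K := fun a : {a // ¬p a} => K a.1) fun a => g a.1 a.2) :
    Good fun a => if h : p a then f a h else g a h := by
  exact GoodAux.good_dite hp hf hg

theorem Good.sum_range {n : α → ℕ} (hn : Poly n) {f : ∀ a, ℕ → K a}
    (hf : Good (K := fun x : α × ℕ => K x.1) fun x => f x.1 x.2) :
    Good fun a => ∑ i ∈ Finset.range (n a), f a i := by
  obtain ⟨hs, t, ht, F, hF, hev⟩ := hf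
  obtain ⟨s', hs', hle⟩ := hs.unif (GoodAux.pb_range hn)
  obtain ⟨t', ht', htle⟩ := pb_unif ht (GoodAux.pb_range hn)
  refine ⟨((DB.of_eb (EB.of_poly hn)).mul hs').mono fun a => ?_, t', ht',
    fun x => ∑ y ∈ Finset.range (n x.1), F ((x.1, y), x.2),
    CHF.sum_range (hn.comp (Poly.fst Poly.id')) (hF.comp (by fun_prop)), fun a p hp h v => ?_⟩
  · refine (nu_sum_le _ _).trans ?_
    refine (Finset.sum_le_card_nsmul _ _ (s' a) fun i hi => ?_).trans (by simp)
    exact hle a (a, i) (GoodAux.sz_range hi)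
  · rw [Nat.cast_sum, map_sum]
    refine Finset.sum_congr rfl fun i hi => hev (a, i) p hp ?_ v
    exact (Nat.pow_le_pow_right (by norm_num) (htle a (a, i) (GoodAux.sz_range hi))).trans h

theorem Good.prod_range {n : α → ℕ} (hn : Poly n) {f : ∀ a, ℕ → K a}
    (hf : Good (K := fun x : α × ℕ => K x.1) fun x => f x.1 x.2) :
    Good fun a => ∏ i ∈ Finset.range (n a), f a i := by
  obtain ⟨hs, t, ht, F, hF, hev⟩ := hf
  obtain ⟨s', hs', hle⟩ := hs.unif (GoodAux.pb_range hn)
  obtain ⟨t', ht', htle⟩ := pb_unif ht (GoodAux.pb_range hn)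
  obtain ⟨F', hF', hev'⟩ := CHF.prodMod (α := α × ℕ × P) (n := fun x => n x.1)
    (p := fun x => x.2.1) (hn.comp (Poly.fst Poly.id')) (by fun_prop)
    (f := fun x y => F ((x.1, y), x.2)) (hF.comp (by fun_prop))
  refine ⟨(hs'.pow (EB.of_poly hn)).mono fun a => ?_, t', ht', F', hF', fun a p hp h v => ?_⟩
  · refine (nu_prod_le _ _).trans ?_
    refine (Finset.prod_le_pow_card _ _ (s' a) fun i hi => ?_).trans (by simp)
    exact hle a (a, i) (GoodAux.sz_range hi)
  · rw [map_prod]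
    refine (hev' (a, p, v) hp).trans ?_
    refine Finset.prod_congr rfl fun i hi => hev (a, i) p hp ?_ v
    exact (Nat.pow_le_pow_right (by norm_num) (htle a (a, i) (GoodAux.sz_range hi))).trans h

theorem Good.pow {f : ∀ a, K a} (hf : Good f) {n : α → ℕ} (hn : Poly n) :
    Good fun a => f a ^ n a := by
  exact (Good.prod_range (f := fun a _ => f a) hn (hf.comp (Poly.fst Poly.id'))).congr
    fun a => by simp

theorem Good.sum_fin {n : α → ℕ} (hn : Poly n) {f : ∀ a, Fin (n a) → K a}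
    (hf : Good (K := fun x : Σ a, Fin (n a) => K x.1) fun x => f x.1 x.2) :
    Good fun a => ∑ i, f a i := by
  refine (Good.sum_range (f := fun a i => if h : i < n a then f a ⟨i, h⟩ else 0) hn ?_).congr
    fun a => (Finset.sum_fin_eq_sum_range _).symm
  exact Good.dite (K := fun x : α × ℕ => K x.1) (p := fun x => x.2 < n x.1)
    (Poly.decide_lt (by fun_prop) (hn.comp (Poly.fst Poly.id')))
    (hf.comp (φ := fun x : {x : α × ℕ // x.2 < n x.1} => ⟨x.1.1, x.1.2, x.2⟩)
      (Poly.cast fun _ => rfl)) Good.zero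

theorem Good.prod_fin {n : α → ℕ} (hn : Poly n) {f : ∀ a, Fin (n a) → K a}
    (hf : Good (K := fun x : Σ a, Fin (n a) => K x.1) fun x => f x.1 x.2) :
    Good fun a => ∏ i, f a i := by
  refine (Good.prod_range (f := fun a i => if h : i < n a then f a ⟨i, h⟩ else 1) hn ?_).congr
    fun a => (Finset.prod_fin_eq_prod_range _).symm
  exact Good.dite (K := fun x : α × ℕ => K x.1) (p := fun x => x.2 < n x.1)
    (Poly.decide_lt (by fun_prop) (hn.comp (Poly.fst Poly.id')))
    (hf.comp (φ := fun x : {x : α × ℕ // x.2 < n x.1} => ⟨x.1.1, x.1.2, x.2⟩)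
      (Poly.cast fun _ => rfl)) Good.one

theorem Good.sum_box {n B : α → ℕ} (hn : Poly n) (hb : PB n) (hB : Poly B)
    {f : ∀ a, (Fin (n a) → ℕ) → K a}
    (hf : Good (K := fun x : Σ a, Fin (n a) → ℕ => K x.1) fun x => f x.1 x.2) :
    Good fun a => ∑ k ∈ box (n a) (B a), f a k := by
  refine (Good.sum_range (n := fun a => B a ^ n a)
    (f := fun a y => f a fun i => y / B a ^ (i : ℕ) % B a) (hB.pow hn hb) ?_).congr
    fun a => (GoodAux.sum_box_eq _ _ _).symm
  refine hf.comp (φ := fun x : α × ℕ => ⟨x.1, fun i => x.2 / B x.1 ^ (i : ℕ) % B x.1⟩) ?_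
  refine poly_mkFun (Poly.fst Poly.id') hn hb ?_
  have h1 : Poly fun x : Σ a : α × ℕ, Fin (n a.1) => x.1 := Poly.sigmaFst Poly.id'
  have h2 : Poly fun x : Σ a : α × ℕ, Fin (n a.1) => B x.1.1 := hB.comp h1.fst
  exact (h1.snd.div (h2.pow (Poly.sigmaFinVal Poly.id') (PB.finVal (hb.comp h1.fst)))).mod h2

theorem Good.factorial {n : α → ℕ} (hn : Poly n) : Good fun a => (((n a).factorial : ℕ) : K a) := by
  refine (Good.prod_range (f := fun a i => ((i + 1 : ℕ) : K a)) hn
    (Good.natCast (K := fun x : α × ℕ => K x.1) (by fun_prop))).congr fun a => ?_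
  rw [← Nat.cast_prod, Finset.prod_range_add_one_eq_factorial]

theorem Good.det {n : α → ℕ} (hn : Poly n) (hb : PB n)
    {A : ∀ a, Matrix (Fin (n a)) (Fin (n a)) (K a)}
    (hA : Good (K := fun x : Σ a, Fin (n a) × Fin (n a) => K x.1) fun x => A x.1 x.2.1 x.2.2) :
    Good fun a => (A a).det := by
  refine (Good.sum_box (B := n) (f := fun a k => (GoodAux.eps k : K a) *
    ∏ i, if h : k i < n a then A a ⟨k i, h⟩ i else 0) hn hb hn ?_).congr
    fun a => (GoodAux.det_eq _).symm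
  have h0 : Poly fun x : Σ a, Fin (n a) → ℕ => x.1 := Poly.sigmaFst Poly.id'
  refine Good.mul (K := fun x : Σ a, Fin (n a) → ℕ => K x.1)
    (Good.intCast (Good.ofPolyInt (GoodAux.poly_eps hn hb))) ?_
  refine Good.prod_fin (K := fun x : Σ a, Fin (n a) → ℕ => K x.1) (n := fun x => n x.1)
    (f := fun x i => if h : x.2 i < n x.1 then A x.1 ⟨x.2 i, h⟩ i else 0) (hn.comp h0) ?_
  have h1 : Poly fun y : Σ x : Σ a, Fin (n a) → ℕ, Fin (n x.1) => y.1 := Poly.sigmaFst Poly.id'
  have h2 : Poly fun y : Σ x : Σ a, Fin (n a) → ℕ, Fin (n x.1) => (y.2 : ℕ) :=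
    Poly.sigmaFinVal Poly.id'
  have h3 : Poly fun y : Σ x : Σ a, Fin (n a) → ℕ, Fin (n x.1) => y.1.2 y.2 := poly_appFun h1 h2
  refine Good.dite (K := fun y : Σ x : Σ a, Fin (n a) → ℕ, Fin (n x.1) => K y.1.1)
    (p := fun y => y.1.2 y.2 < n y.1.1) (Poly.decide_lt h3 (hn.comp (h0.comp h1))) ?_ Good.zero
  refine hA.comp (φ := fun y : {y : Σ x : Σ a, Fin (n a) → ℕ, Fin (n x.1) //
    y.1.2 y.2 < n y.1.1} => ⟨y.1.1.1, ⟨y.1.1.2 y.1.2, y.2⟩, y.1.2⟩) ?_
  exact (((h0.comp h1).pair (h3.pair h2)).restrict _).of_enc fun _ => rfl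

end Crest.Agent.R316
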