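import Crest.Agent.R316.Bounds

/-! Auxiliary lemmas for coefficient extraction modulo a prime. -/

set_option autoImplicit false
open Crest.Agent.Lib.PolyTime
open scoped Polynomial

namespace Crest.Agent.R316

/-- Expansion of a polynomial of total degree `< B` over the box. -/
theorem eq_sum_box {K : Type} [CommRing K] {n B : ℕ} (f : MvPolynomial (Fin n) K)
    (h : f.totalDegree < B) :
    f = ∑ k ∈ box n B, MvPolynomial.monomial (ex k) (MvPolynomial.coeff (ex k) f) := by
  classical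
  ext m
  have e : ex (⇑m) = m := Finsupp.equivFunOnFinite.symm_apply_apply m
  rw [MvPolynomial.coeff_sum, Finset.sum_eq_single (⇑m)]
  · rw [e, MvPolynomial.coeff_monomial, if_pos rfl]
  · intro k _ hk
    rw [MvPolynomial.coeff_monomial, if_neg]
    intro h1
    exact hk (by rw [← h1]; rfl)
  · intro hm
    rw [e, MvPolynomial.coeff_monomial, if_pos rfl]
    by_contra h1
    apply hm
    rw [box, Fintype.mem_piFinset]
    intro i
    have h2 := MvPolynomial.le_totalDegree (MvPolynomial.mem_support_iff.2 h1)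
    have h3 : m i ≤ m.sum fun _ e => e := Finsupp.le_degree i m
    exact Finset.mem_range.2 (by omega)

namespace CoeffAux

theorem nu_monomial {K : Type} [CommRing K] [Nu K] {n : ℕ} (m : Fin n →₀ ℕ) (c : K) :
    nu (MvPolynomial.monomial m c) = nu c * 2 ^ m.degree :=
  nuAM_single (fun m : Fin n →₀ ℕ => m.degree) m c

theorem nu_X_le {K : Type} [CommRing K] [Nu K] : nu (Polynomial.X : K[X]) ≤ 2 := by
  show nuAM id (Polynomial.X : K[X]).toFinsupp ≤ 2
  rw [Polynomial.toFinsupp_X, nuAM_single]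
  have := Nu.nu_one (K := K)
  simp only [id, pow_one]; omega

theorem thr {t s z p : ℕ} (h : 2 ^ (t + s + z + 2) ≤ p) :
    2 ^ t ≤ p ∧ 2 ^ s < p - 1 ∧ 2 ^ z < p - 1 := by
  have h1 : 2 ^ t ≤ 2 ^ (t + s + z + 2) := Nat.pow_le_pow_right (by norm_num) (by omega)
  have h2 : 2 ^ (s + 2) ≤ 2 ^ (t + s + z + 2) := Nat.pow_le_pow_right (by norm_num) (by omega)
  have h3 : 2 ^ (z + 2) ≤ 2 ^ (t + s + z + 2) := Nat.pow_le_pow_right (by norm_num) (by omega)
  have h4 : 0 < 2 ^ s := by positivity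
  have h5 : 0 < 2 ^ z := by positivity
  rw [pow_add] at h2 h3
  omega

theorem cast_pred {p : ℕ} (hp : p.Prime) : ((p - 1 : ℕ) : ZMod p) = -1 := by
  rw [Nat.cast_sub hp.one_le]; simp

theorem sum_range_zmod {p : ℕ} [Fact p.Prime] (G : ZMod p → ZMod p) :
    ∑ y ∈ Finset.range p, G (y : ZMod p) = ∑ x, G x := by
  refine Finset.sum_nbij' (fun y => (y : ZMod p)) ZMod.val (by simp)
    (fun x _ => Finset.mem_range.2 (ZMod.val_lt x)) (fun y hy => ?_) (by simp) (by simp)
  exact ZMod.val_cast_of_lt (Finset.mem_range.1 hy)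

theorem sum_range_pow_zmod {p n : ℕ} [Fact p.Prime] (G : (Fin n → ZMod p) → ZMod p) :
    ∑ y ∈ Finset.range (p ^ n), G (fun i => ((y / p ^ (i : ℕ) : ℕ) : ZMod p)) = ∑ x, G x := by
  rw [Finset.sum_range (fun y => G (fun i : Fin n => ((y / p ^ (i : ℕ) : ℕ) : ZMod p)))]
  have hb : Function.Bijective (fun (t : Fin n → Fin p) (i : Fin n) => ((t i : ℕ) : ZMod p)) := by
    rw [Fintype.bijective_iff_injective_and_card]
    refine ⟨fun t t' h => funext fun i => Fin.ext ?_, by simp⟩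
    have := congrArg ZMod.val (congrFun h i)
    rwa [ZMod.val_cast_of_lt (t i).2, ZMod.val_cast_of_lt (t' i).2] at this
  refine Fintype.sum_bijective _ (hb.comp finFunctionFinEquiv.symm.bijective) _ _ fun y => ?_
  congr 1
  funext i
  simp

theorem sum_pow_zmod {p : ℕ} [hp : Fact p.Prime] {j k : ℕ} (hj : j < p - 1) (hk : k < p - 1) :
    ∑ x : ZMod p, x ^ (p - 1 - k + j) = if j = k then -1 else 0 := by
  classical
  have h0 : p - 1 - k + j ≠ 0 := by omega
  let φ : (ZMod p)ˣ ↪ ZMod p := ⟨fun x => x, Units.val_injective⟩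
  have h1 : Finset.univ.map φ = Finset.univ \ {0} := by
    ext x
    simp only [Finset.mem_map, Finset.mem_univ, Function.Embedding.coeFn_mk, true_and,
      Finset.mem_sdiff, Finset.mem_singleton, φ]
    exact isUnit_iff_ne_zero
  have h2 : ∑ x : ZMod p, x ^ (p - 1 - k + j) =
      ∑ x : (ZMod p)ˣ, ((x : ZMod p) ^ (p - 1 - k + j)) := by
    rw [← Finset.sum_sdiff ({0} : Finset (ZMod p)).subset_univ, Finset.sum_singleton, zero_pow h0,
      add_zero, ← h1, Finset.sum_map]
    rfl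
  rw [h2, FiniteField.sum_pow_units, ZMod.card]
  refine if_congr ⟨fun h => ?_, fun h => ?_⟩ rfl rfl
  · obtain ⟨c, hc⟩ := h
    have h3 : c = 1 := by
      rcases c with _ | _ | c
      · omega
      · rfl
      · have : (p - 1) * (c + 1 + 1) = (p - 1) * c + 2 * (p - 1) := by ring
        omega
    subst h3; omega
  · subst h; rw [Nat.sub_add_cancel hk.le]

theorem sum_eval_poly {p : ℕ} [Fact p.Prime] (g : (ZMod p)[X]) (hd : g.natDegree < p - 1) {k : ℕ}
    (hk : k < p - 1) : ∑ x : ZMod p, x ^ (p - 1 - k) * g.eval x = -g.coeff k := by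
  simp only [Polynomial.eval_eq_sum_range' hd, Finset.mul_sum]
  rw [Finset.sum_comm]
  have e : ∀ j ∈ Finset.range (p - 1), ∑ x : ZMod p, x ^ (p - 1 - k) * (g.coeff j * x ^ j) =
      if j = k then -g.coeff j else 0 := by
    intro j hj
    have : ∀ x : ZMod p, x ^ (p - 1 - k) * (g.coeff j * x ^ j) =
        g.coeff j * x ^ (p - 1 - k + j) := fun x => by ring
    simp only [this]
    rw [← Finset.mul_sum, sum_pow_zmod (Finset.mem_range.1 hj) hk]
    split_ifs <;> simp
  rw [Finset.sum_congr rfl e, Finset.sum_ite_eq', if_pos (Finset.mem_range.2 hk)]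

theorem totalDegree_map_le {R S : Type} [CommRing R] [CommRing S] {n : ℕ} (φ : R →+* S)
    (f : MvPolynomial (Fin n) R) : (f.map φ).totalDegree ≤ f.totalDegree :=
  Finset.sup_mono (MvPolynomial.support_map_subset _ _)

theorem sum_eval_mv {p n : ℕ} [Fact p.Prime] (g : MvPolynomial (Fin n) (ZMod p))
    (hd : g.totalDegree < p - 1) {k : Fin n → ℕ} (hk : ∀ i, k i < p - 1) :
    ∑ x : Fin n → ZMod p, (∏ i, x i ^ (p - 1 - k i)) * MvPolynomial.eval x g =
      (-1) ^ n * g.coeff (ex k) := by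
  classical
  simp only [MvPolynomial.eval_eq', Finset.mul_sum]
  rw [Finset.sum_comm]
  have e : ∀ m ∈ g.support,
      ∑ x : Fin n → ZMod p, (∏ i, x i ^ (p - 1 - k i)) * (g.coeff m * ∏ i, x i ^ m i) =
      if m = ex k then (-1) ^ n * g.coeff m else 0 := by
    intro m hm
    have h1 : ∀ x : Fin n → ZMod p, (∏ i, x i ^ (p - 1 - k i)) * (g.coeff m * ∏ i, x i ^ m i) =
        g.coeff m * ∏ i, x i ^ (p - 1 - k i + m i) := fun x => by
      simp only [pow_add, Finset.prod_mul_distrib]; ring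
    have h2 : ∀ i, m i < p - 1 := fun i =>
      lt_of_le_of_lt ((Finsupp.le_degree i m).trans (MvPolynomial.le_totalDegree hm)) hd
    simp only [h1]
    rw [← Finset.mul_sum, ← Fintype.piFinset_univ,
      ← Finset.prod_univ_sum (fun _ => Finset.univ) (fun i (x : ZMod p) => x ^ (p - 1 - k i + m i))]
    simp only [sum_pow_zmod (h2 _) (hk _)]
    split_ifs with h3
    · subst h3; simp [ex, mul_comm]
    · obtain ⟨i, hi⟩ : ∃ i, m i ≠ k i := by
        by_contra h4
        push Not at h4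
        exact h3 (Finsupp.ext h4)
      rw [Finset.prod_eq_zero (Finset.mem_univ i) (if_neg hi), mul_zero]
  rw [Finset.sum_congr rfl e, Finset.sum_ite_eq']
  split_ifs with h
  · rfl
  · rw [MvPolynomial.notMem_support_iff.1 h, mul_zero]

theorem box_poly {α : Type} [PEnc α] {n : α → ℕ} (hn : Poly n) (hb : PB n) :
    (Poly fun x : Σ a, Fin (n a) → ℕ => x.1) ∧ (Poly fun x : Σ a, Fin (n a) → ℕ => n x.1) ∧
    (PB fun x : Σ a, Fin (n a) → ℕ => n x.1) ∧
    (Poly fun y : Σ x : (Σ a, Fin (n a) → ℕ), Fin (n x.1) => y.1.2 y.2) ∧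
    (Poly fun y : Σ x : (Σ a, Fin (n a) → ℕ), Fin (n x.1) => (⟨y.1.1, y.2⟩ : Σ a, Fin (n a))) := by
  have hw : Poly fun x : Σ a, Fin (n a) → ℕ => x.1 := Poly.id'.sigmaFst
  have hw2 : Poly fun y : Σ x : (Σ a, Fin (n a) → ℕ), Fin (n x.1) => y.1 := Poly.id'.sigmaFst
  have hj : Poly fun y : Σ x : (Σ a, Fin (n a) → ℕ), Fin (n x.1) => (y.2 : ℕ) :=
    Poly.id'.sigmaFinVal
  exact ⟨hw, hn.comp hw, hb.comp' hw.pb_sz, poly_appFun (n := n) hw2 hj,
    poly_mkFin (n := n) (hw.comp hw2) hj⟩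

end CoeffAux

end Crest.Agent.R316
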