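import Crest.Agent.R316.ModArith

/-! Sign of an integer given by its residues. -/

set_option autoImplicit false
open Crest.Agent.Lib.PolyTime
open scoped Polynomial

namespace Crest.Agent.R316

variable {α : Type} [PEnc α]

namespace SignAux

open Finset

/-- the primes in `(T, N]` -/
def prs (T N : ℕ) : Finset ℕ := (range (N + 1)).filter fun p => p.Prime ∧ T < p

theorem mem_prs {T N p : ℕ} : p ∈ prs T N ↔ p < N + 1 ∧ p.Prime ∧ T < p := by
  simp only [prs, mem_filter, mem_range]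

theorem primorial_ge {k : ℕ} (hk : 5 ≤ k) : 2 ^ 2 ^ k ≤ primorial (4 ^ k) := by
  have h := Chebyshev.theta_ge (4 ^ k)
  rw [Chebyshev.theta_eq_log_primorial, Nat.floor_natCast] at h
  have hl : 0 < Real.log 2 := Real.log_pos (by norm_num)
  have e1 : ((4 ^ k : ℕ) : ℝ) = ((2 : ℝ) ^ k) ^ 2 := by
    push_cast; rw [← pow_mul, mul_comm, pow_mul]; norm_num
  have e2 : √((4 ^ k : ℕ) : ℝ) = 2 ^ k := by rw [e1, Real.sqrt_sq (by positivity)]
  have e3 : Real.log ((4 ^ k : ℕ) : ℝ) = 2 * k * Real.log 2 := by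
    rw [e1, Real.log_pow, Real.log_pow]; push_cast; ring
  have e4 : Real.log (((4 ^ k : ℕ) : ℝ) + 1) ≤ (2 * k + 1) * Real.log 2 := by
    have h1 : (1 : ℝ) ≤ ((4 ^ k : ℕ) : ℝ) := by exact_mod_cast Nat.one_le_pow _ _ (by norm_num)
    calc _ ≤ Real.log (2 * ((4 ^ k : ℕ) : ℝ)) := Real.log_le_log (by positivity) (by linarith)
      _ = _ := by rw [Real.log_mul (by norm_num) (by positivity), e3]; ring
  have h2 : 4 * k + 3 ≤ 2 ^ k := by
    clear h e1 e2 e3 e4
    induction k, hk using Nat.le_induction with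
    | base => norm_num
    | succ k _ ih => rw [pow_succ]; omega
  have h3 : (4 * k + 3 : ℝ) ≤ 2 ^ k := by exact_mod_cast h2
  rw [e2, e3] at h
  have hk0 : (0 : ℝ) ≤ k := by positivity
  have h4 : (2 : ℝ) ^ k + (2 * k + 1) + 2 * 2 ^ k * (2 * k) ≤ ((2 : ℝ) ^ k) ^ 2 := by nlinarith
  have h5 : ((2 ^ k : ℕ) : ℝ) * Real.log 2 ≤ Real.log (primorial (4 ^ k)) := by
    rw [← e1] at h4
    push_cast at h h4 e4 ⊢
    nlinarith
  rw [← Real.log_pow, Real.log_le_log_iff (by positivity)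
    (by exact_mod_cast primorial_pos _)] at h5
  exact_mod_cast h5

theorem prod_le (T N : ℕ) : ∏ p ∈ prs T N, p ≤ 2 ^ (2 * N) := by
  rw [pow_mul]
  refine le_trans ?_ (primorial_le_four_pow N)
  exact prod_le_prod_of_subset_of_one_le' (fun p hp => by
    rw [mem_prs] at hp
    exact mem_filter.2 ⟨mem_range.2 hp.1, hp.2.1⟩) fun p hp _ => (mem_filter.1 hp).2.one_le

theorem le_prod (t s : ℕ) : 64 * 2 ^ 2 ^ s < ∏ p ∈ prs (2 ^ t) (4 ^ (t + s + 5)), p := by
  have h1 := primorial_ge (k := t + s + 5) (by omega)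
  have h2 : primorial (4 ^ (t + s + 5)) ≤
      (∏ p ∈ prs (2 ^ t) (4 ^ (t + s + 5)), p) * primorial (2 ^ t) := by
    rw [primorial, ← prod_filter_mul_prod_filter_not _ (fun p => 2 ^ t < p), filter_filter]
    refine Nat.mul_le_mul le_rfl (prod_le_prod_of_subset_of_one_le' (fun p hp => ?_)
      fun p hp _ => (mem_filter.1 hp).2.one_le)
    simp only [mem_filter, mem_range] at hp ⊢
    exact ⟨by omega, hp.1.2⟩
  have h3 := primorial_le_four_pow (2 ^ t)
  have h4 : 64 * 2 ^ 2 ^ s * 4 ^ 2 ^ t < 2 ^ 2 ^ (t + s + 5) := by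
    have e : 64 * 2 ^ 2 ^ s * 4 ^ 2 ^ t = 2 ^ (6 + 2 ^ s + 2 * 2 ^ t) := by
      rw [pow_add, pow_add, pow_mul]; norm_num
    rw [e]
    apply Nat.pow_lt_pow_right (by norm_num)
    have a : 1 ≤ 2 ^ s := Nat.one_le_two_pow
    have b : 1 ≤ 2 ^ t := Nat.one_le_two_pow
    rw [pow_add, pow_add]
    nlinarith
  by_contra hc
  push Not at hc
  have := Nat.mul_le_mul hc h3
  omega

theorem prod_dvd {S : Finset ℕ} (hS : ∀ p ∈ S, p.Prime) {z : ℤ} (h : ∀ p ∈ S, (z : ZMod p) = 0) :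
    ((∏ p ∈ S, p : ℕ) : ℤ) ∣ z := by
  rw [Int.natCast_dvd]
  exact Finset.prod_primes_dvd _ (fun p hp => (hS p hp).prime) fun p hp =>
    Int.natCast_dvd.1 ((ZMod.intCast_zmod_eq_zero_iff_dvd _ _).1 (h p hp))

/-- Chinese remainder theorem in the form of partial fractions -/
theorem crt_frac {S : Finset ℕ} (hS : ∀ p ∈ S, p.Prime) (z : ℤ) (r : ℕ → ℕ)
    (h : ∀ p ∈ S, (r p : ZMod p) * ∏ q ∈ S.erase p, (q : ZMod p) = z) :
    ∃ k : ℤ, ∑ p ∈ S, (r p : ℝ) / p = z / ((∏ p ∈ S, p : ℕ) : ℝ) + k := by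
  obtain ⟨k, hk⟩ := prod_dvd hS (z := ∑ p ∈ S, (r p : ℤ) * ∏ q ∈ S.erase p, (q : ℤ) - z)
    (fun p hp => by
      push_cast
      rw [sum_eq_single p, h p hp, sub_self]
      · intro p' _ hne
        rw [prod_eq_zero (i := p) (mem_erase.2 ⟨hne.symm, hp⟩) (ZMod.natCast_self p), mul_zero]
      · exact fun h => absurd hp h)
  refine ⟨k, ?_⟩
  have hM : (0 : ℝ) < ((∏ p ∈ S, p : ℕ) : ℝ) := by
    exact_mod_cast prod_pos fun p hp => (hS p hp).pos
  have hk' : ∑ p ∈ S, (r p : ℝ) * ∏ q ∈ S.erase p, (q : ℝ) - z = ((∏ p ∈ S, p : ℕ) : ℝ) * k := by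
    have := congrArg (Int.cast : ℤ → ℝ) hk
    push_cast at this ⊢
    exact this
  rw [div_add' _ _ _ hM.ne', eq_div_iff hM.ne', sum_mul, mul_comm (k : ℝ), ← hk', add_sub_cancel]
  refine sum_congr rfl fun p hp => ?_
  have : (p : ℝ) ≠ 0 := by exact_mod_cast (hS p hp).ne_zero
  push_cast
  rw [← mul_prod_erase S _ hp]
  field_simp

theorem approx {S : Finset ℕ} (hS : ∀ p ∈ S, p.Prime) {n : ℕ} (hn : S.card ≤ n) (hn0 : 0 < n)
    (r : ℕ → ℕ) (x : ℝ) (k : ℤ) (h : ∑ p ∈ S, (r p : ℝ) / p = x + k) :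
    ∃ (k' : ℤ) (e : ℝ), 0 ≤ e ∧ e ≤ 1 ∧
      (((∑ p ∈ S, r p * (64 * n) / p) % (64 * n) : ℕ) : ℝ) = n * (64 * x - e + 64 * k') := by
  set A := ∑ p ∈ S, r p * (64 * n) / p with hA
  have hn' : (0 : ℝ) < n := by exact_mod_cast hn0
  have h1 : (A : ℝ) ≤ 64 * n * (x + k) := by
    rw [← h, hA, mul_sum]
    push_cast
    refine sum_le_sum fun p _ => Nat.cast_div_le.trans (le_of_eq ?_)
    push_cast; ring
  have h2 : 64 * n * (x + k) ≤ A + n := by
    rw [← h, hA, mul_sum]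
    calc _ ≤ ∑ p ∈ S, (((r p * (64 * n) / p : ℕ) : ℝ) + 1) := by
          refine sum_le_sum fun p hp => ?_
          have hp' : (0 : ℝ) < p := by exact_mod_cast (hS p hp).pos
          have := Nat.lt_div_mul_add (a := r p * (64 * n)) (hS p hp).pos
          have h3 : ((r p * (64 * n) : ℕ) : ℝ) ≤ ((r p * (64 * n) / p * p + p : ℕ) : ℝ) := by
            exact_mod_cast this.le
          push_cast at h3
          rw [← mul_div_assoc, div_le_iff₀ hp']
          linarith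
      _ ≤ _ := by
          rw [sum_add_distrib, sum_const, nsmul_eq_mul, mul_one]
          push_cast
          have : (S.card : ℝ) ≤ n := by exact_mod_cast hn
          linarith
  refine ⟨k - (A / (64 * n) : ℕ), (64 * n * (x + k) - A) / n, div_nonneg (by linarith) hn'.le,
    (div_le_one hn').2 (by linarith), ?_⟩
  have h3 : ((A % (64 * n) : ℕ) : ℝ) + 64 * n * ((A / (64 * n) : ℕ) : ℝ) = A := by
    exact_mod_cast Nat.mod_add_div A (64 * n)
  rw [Int.cast_sub, Int.cast_natCast]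
  field_simp
  linarith

theorem sign_crit {n M J : ℕ} (hn : 0 < n) {z : ℤ} (hz : 64 * z.natAbs < M) (hJ : M ≤ 2 ^ J)
    (φ : ℕ → ℕ) (hφ : ∀ j, φ j < 64 * n)
    (h : ∀ j, ∃ (k : ℤ) (e : ℝ), 0 ≤ e ∧ e ≤ 1 ∧
      (φ j : ℝ) = n * (64 * (((2 ^ j * z : ℤ) : ℝ) / M) - e + 64 * k)) :
    z < 0 ↔ ∃ j < J + 1, (32 * n ≤ φ j ∧ φ j < 56 * n) ∧
      ∀ j' < j, (φ j' ≤ 8 * n ∨ 56 * n ≤ φ j') := by
  have hn' : (0 : ℝ) < n := by exact_mod_cast hn
  have hM : (0 : ℝ) < M := by exact_mod_cast (by omega : 0 < M)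
  set w : ℕ → ℝ := fun j => 64 * (((2 ^ j * z : ℤ) : ℝ) / M) with hw
  have hw0 : |w 0| ≤ 1 := by
    have : ((64 * z.natAbs : ℕ) : ℝ) ≤ M := by exact_mod_cast hz.le
    simp only [hw, pow_zero, one_mul, abs_mul, abs_div, abs_of_pos hM]
    rw [← mul_div_assoc, div_le_one hM]
    push_cast at this
    rw [Nat.cast_natAbs, Int.cast_abs] at this
    rwa [abs_of_pos (by norm_num : (0 : ℝ) < 64)]
  have hws : ∀ j, w (j + 1) = 2 * w j := fun j => by
    simp only [hw]; push_cast; ring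
  -- the normalised value
  have key : ∀ j, ∃ (y e : ℝ) (k : ℤ), (φ j : ℝ) = n * y ∧ 0 ≤ y ∧ y < 64 ∧ 0 ≤ e ∧ e ≤ 1 ∧
      y = w j - e + 64 * k := fun j => by
    obtain ⟨k, e, h1, h2, h3⟩ := h j
    refine ⟨_, e, k, h3, ?_, ?_, h1, h2, rfl⟩
    · exact nonneg_of_mul_nonneg_right (h3 ▸ Nat.cast_nonneg _) hn'
    · have : (φ j : ℝ) < 64 * n := by exact_mod_cast hφ j
      rw [h3, mul_comm 64 (n : ℝ)] at this
      exact lt_of_mul_lt_mul_left this hn'.le
  have hk : ∀ (y v : ℝ) (k : ℤ), 0 ≤ y → y < 64 → -21 ≤ v → v ≤ 20 → y = v + 64 * k →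
      y = v ∨ y = v + 64 := by
    intro y v k a b c d e
    have k1 : (-1 : ℝ) < k := by linarith
    have k2 : (k : ℝ) < 2 := by linarith
    have k1' : -1 < k := by exact_mod_cast k1
    have k2' : k < 2 := by exact_mod_cast k2
    have : k = 0 ∨ k = 1 := by omega
    rcases this with rfl | rfl
    · left; simpa using e
    · right; simpa using e
  have near : ∀ j, |w j| ≤ 20 → (φ j ≤ 8 * n ∨ 56 * n ≤ φ j) → |w j| ≤ 9 := by
    intro j hj hc
    obtain ⟨y, e, k, a1, a2, a3, a4, a5, a6⟩ := key j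
    rw [abs_le] at hj ⊢
    have hy : y ≤ 8 ∨ 56 ≤ y := by
      rcases hc with hc | hc
      · left
        have : (φ j : ℝ) ≤ 8 * n := by exact_mod_cast hc
        rw [a1, mul_comm 8] at this
        exact le_of_mul_le_mul_left this hn'
      · right
        have : 56 * (n : ℝ) ≤ φ j := by exact_mod_cast hc
        rw [a1, mul_comm 56] at this
        exact le_of_mul_le_mul_left this hn'
    rcases hk y _ k a2 a3 (by linarith) (by linarith) a6 with h' | h' <;>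
      rcases hy with hy | hy <;> constructor <;> linarith
  have inv : ∀ j, (∀ j' < j, (φ j' ≤ 8 * n ∨ 56 * n ≤ φ j')) → |w j| ≤ 20 := by
    intro j
    induction j with
    | zero => intro _; linarith
    | succ j ih =>
      intro hj
      have := near j (ih fun j' hj' => hj j' (by omega)) (hj j (by omega))
      rw [hws, abs_mul, abs_two]
      linarith
  have sgn : ∀ j, w j < 0 ↔ z < 0 := fun j => by
    have e : w j = (64 * 2 ^ j / M) * (z : ℝ) := by simp only [hw]; push_cast; ring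
    have hp : (0 : ℝ) < 64 * 2 ^ j / M := by positivity
    rw [e, ← Int.cast_lt_zero (R := ℝ)]
    exact ⟨fun h => neg_of_mul_neg_right h hp.le, fun h => mul_neg_of_pos_of_neg hp h⟩
  constructor
  · intro hz0
    have H : ∃ j, ¬ (φ j ≤ 8 * n ∨ 56 * n ≤ φ j) ∧ j < J + 1 := by
      by_contra hc
      push Not at hc
      have h1 : ∀ j' < J + 1, (φ j' ≤ 8 * n ∨ 56 * n ≤ φ j') := fun j' hj' => by
        by_contra h2
        have := hc j' (by push Not at h2; exact h2)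
        omega
      have h2 := near J (inv J fun j' hj' => h1 j' (by omega)) (h1 J (by omega))
      have h3 : w J ≤ -64 := by
        have a : (z : ℝ) ≤ -1 := by exact_mod_cast (by omega : z ≤ -1)
        have b : (M : ℝ) ≤ 2 ^ J := by exact_mod_cast hJ
        have c : ((2 ^ J * z : ℤ) : ℝ) / M ≤ -1 := by
          rw [div_le_iff₀ hM]
          push_cast
          nlinarith
        simp only [hw]
        linarith
      linarith [(abs_le.1 h2).1]
    classical
    have h1 := Nat.find_spec H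
    have h2 : ∀ j' < Nat.find H, (φ j' ≤ 8 * n ∨ 56 * n ≤ φ j') := fun j' hj' => by
      by_contra h3
      exact Nat.find_min H hj' ⟨h3, by omega⟩
    refine ⟨Nat.find H, h1.2, ⟨?_, by omega⟩, h2⟩
    obtain ⟨y, e, k, a1, a2, a3, a4, a5, a6⟩ := key (Nat.find H)
    have h3 := abs_le.1 (inv _ h2)
    have h4 := (sgn (Nat.find H)).2 hz0
    have h5 : 32 ≤ y := by
      rcases hk y _ k a2 a3 (by linarith) (by linarith) a6 with h' | h' <;> linarith
    have : 32 * (n : ℝ) ≤ φ (Nat.find H) := by rw [a1]; nlinarith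
    exact_mod_cast this
  · rintro ⟨j, -, ⟨b1, b2⟩, h2⟩
    rw [← sgn j]
    obtain ⟨y, e, k, a1, a2, a3, a4, a5, a6⟩ := key j
    have h3 := abs_le.1 (inv _ h2)
    have c1 : 32 ≤ y := by
      have : 32 * (n : ℝ) ≤ φ j := by exact_mod_cast b1
      rw [a1, mul_comm 32] at this
      exact le_of_mul_le_mul_left this hn'
    have c2 : y < 56 := by
      have : (φ j : ℝ) < 56 * n := by exact_mod_cast b2
      rw [a1, mul_comm 56] at this
      exact lt_of_mul_lt_mul_left this hn'.le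
    rcases hk y _ k a2 a3 (by linarith) (by linarith) a6 with h' | h' <;> linarith

theorem setup {z : α → ℤ} (hz : Good z) : ∃ (T N : α → ℕ) (F : α × ℕ → ℕ), Poly T ∧ Poly N ∧
    CHF F ∧ ∀ a, 64 * (z a).natAbs < ∏ p ∈ prs (T a) (N a), p ∧
      ∀ p ∈ prs (T a) (N a), ((F (a, p) : ℕ) : ZMod p) = z a := by
  obtain ⟨⟨s, hs, hs'⟩, t, ht, F, hF, hF'⟩ := hz
  obtain ⟨s₁, a1, a2, a3⟩ := hs.exists_clock
  obtain ⟨t₁, b1, b2, b3⟩ := ht.exists_clock
  refine ⟨fun a => 2 ^ t₁ a, fun a => 4 ^ (t₁ a + s₁ a + 5), fun x => F (x.1, x.2, ()),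
    by fun_prop, by fun_prop, hF.comp (by fun_prop), fun a => ⟨?_, fun p hp => ?_⟩⟩
  · refine lt_of_le_of_lt (Nat.mul_le_mul_left _ ((hs' a).trans ?_)) (le_prod (t₁ a) (s₁ a))
    exact Nat.pow_le_pow_right (by norm_num) (Nat.pow_le_pow_right (by norm_num) (a3 a))
  · rw [mem_prs] at hp
    exact hF' a p hp.2.1 ((Nat.pow_le_pow_right (by norm_num) (b3 a)).trans hp.2.2.le) ()

end SignAux

open SignAux ModAux

theorem Good.ch_zero {z : α → ℤ} (hz : Good z) : CH fun a => z a = 0 := by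
  obtain ⟨T, N, F, hT, hN, hF, h⟩ := setup hz
  have h1 : CH fun a => ∀ p < N a + 1, (p.Prime ∧ T a < p) → p ∣ F (a, p) :=
    CH.forall_lt (N := fun a => N a + 1) (by fun_prop)
      (B := fun x : α × ℕ => (x.2.Prime ∧ T x.1 < x.2) → x.2 ∣ F x)
      (((CH.prime (by fun_prop)).and (CH.of_decide (by fun_prop))).imp
        (ch_dvd (CHF.of_poly (by fun_prop)) hF))
  refine h1.congr fun a => ⟨fun h2 => ?_, fun h2 p hp hp' => ?_⟩
  · have h3 := prod_dvd (S := prs (T a) (N a)) (fun p hp => (mem_prs.1 hp).2.1) (z := z a)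
      fun p hp => by
        rw [← (h a).2 p hp, ZMod.natCast_eq_zero_iff]
        exact h2 p (mem_prs.1 hp).1 (mem_prs.1 hp).2
    rw [Int.natCast_dvd] at h3
    have := Nat.eq_zero_of_dvd_of_lt h3 (by have := (h a).1; omega)
    exact Int.natAbs_eq_zero.1 this
  · rw [← ZMod.natCast_eq_zero_iff, (h a).2 p (mem_prs.2 ⟨hp, hp'⟩), h2, Int.cast_zero]

theorem Good.ch_neg {z : α → ℤ} (hz : Good z) : CH fun a => z a < 0 := by
  classical
  obtain ⟨T, N, F, hT, hN, hF, h⟩ := setup hz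
  obtain ⟨H, hH, hH'⟩ := CHF.prodMod (α := α × ℕ) (n := fun x => N x.1 + 1) (p := fun x => x.2)
    (by fun_prop) (by fun_prop)
    (f := fun x i => if (i.Prime ∧ T x.1 < i) ∧ i ≠ x.2 then i else 1)
    (CHF.ite (P := fun y : (α × ℕ) × ℕ => (y.2.Prime ∧ T y.1.1 < y.2) ∧ y.2 ≠ y.1.2)
      (((CH.prime (by fun_prop)).and (CH.of_decide (by fun_prop))).and
        (CH.of_decide (by fun_prop))) (CHF.of_poly (by fun_prop)) (CHF.of_poly (by fun_prop)))
  let r : α × ℕ → ℕ → ℕ := fun x p =>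
    F (x.1, p) * (H (x.1, p) ^ (p - 2) % max p 1) * (2 ^ x.2 % max p 1)
  have hr : CHF fun y : (α × ℕ) × ℕ => r y.1 y.2 :=
    ((hF.comp (φ := fun y : (α × ℕ) × ℕ => (y.1.1, y.2)) (by fun_prop)).mul
      (chf_powMod (hH.comp (φ := fun y : (α × ℕ) × ℕ => (y.1.1, y.2)) (by fun_prop))
        (CHF.of_poly (by fun_prop)) (by fun_prop))).mul
      (chf_powMod (CHF.of_poly (by fun_prop)) (CHF.of_poly (by fun_prop)) (by fun_prop))
  let φ : α × ℕ → ℕ := fun x => (∑ p ∈ Finset.range (N x.1 + 1),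
    if p.Prime ∧ T x.1 < p then r x p * (64 * (N x.1 + 1)) / p else 0) % (64 * (N x.1 + 1))
  have hφ : CHF φ :=
    chf_mod (CHF.sum_range (N := fun x : α × ℕ => N x.1 + 1) (by fun_prop)
      (f := fun x p => if p.Prime ∧ T x.1 < p then r x p * (64 * (N x.1 + 1)) / p else 0)
      (CHF.ite (P := fun y : (α × ℕ) × ℕ => y.2.Prime ∧ T y.1.1 < y.2)
        ((CH.prime (by fun_prop)).and (CH.of_decide (by fun_prop)))
        (chf_div (hr.mul (CHF.of_poly (by fun_prop))) (CHF.of_poly (by fun_prop)))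
        (CHF.of_poly (by fun_prop)))) (CHF.of_poly (by fun_prop))
  have hnear : CH fun x : α × ℕ => φ x ≤ 8 * (N x.1 + 1) ∨ 56 * (N x.1 + 1) ≤ φ x :=
    (ch_le hφ (CHF.of_poly (by fun_prop))).or (ch_le (CHF.of_poly (by fun_prop)) hφ)
  have h1 : CH fun a => ∃ j < 2 * N a + 1, (32 * (N a + 1) ≤ φ (a, j) ∧ φ (a, j) < 56 * (N a + 1)) ∧
      ∀ j' < j, (φ (a, j') ≤ 8 * (N a + 1) ∨ 56 * (N a + 1) ≤ φ (a, j')) :=
    CH.exists_lt (N := fun a => 2 * N a + 1) (by fun_prop)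
      (B := fun x : α × ℕ => (32 * (N x.1 + 1) ≤ φ x ∧ φ x < 56 * (N x.1 + 1)) ∧
        ∀ j' < x.2, (φ (x.1, j') ≤ 8 * (N x.1 + 1) ∨ 56 * (N x.1 + 1) ≤ φ (x.1, j')))
      (((ch_le (CHF.of_poly (by fun_prop)) hφ).and (ch_lt hφ (CHF.of_poly (by fun_prop)))).and
        (CH.forall_lt (N := fun x : α × ℕ => x.2) (by fun_prop)
          (B := fun y : (α × ℕ) × ℕ => φ (y.1.1, y.2) ≤ 8 * (N y.1.1 + 1) ∨
            56 * (N y.1.1 + 1) ≤ φ (y.1.1, y.2))
          (hnear.comp (φ := fun y : (α × ℕ) × ℕ => (y.1.1, y.2)) (by fun_prop))))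
  refine h1.congr fun a => (sign_crit (Nat.succ_pos _) (h a).1 (prod_le _ _) (fun j => φ (a, j))
    (fun j => Nat.mod_lt _ (by omega)) fun j => ?_).symm
  have hS : ∀ p ∈ prs (T a) (N a), p.Prime := fun p hp => (mem_prs.1 hp).2.1
  obtain ⟨k, hk⟩ := crt_frac hS (2 ^ j * z a) (r (a, j)) fun p hp => by
    have hp' := hS p hp
    have := Fact.mk hp'
    have e1 : ((H (a, p) : ℕ) : ZMod p) = ∏ q ∈ (prs (T a) (N a)).erase p, (q : ZMod p) := by
      rw [hH' (a, p) hp', ← Finset.filter_ne', prs, Finset.filter_filter, Finset.prod_filter]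
      refine Finset.prod_congr rfl fun i _ => ?_
      split_ifs <;> simp
    have e2 : ((H (a, p) : ℕ) : ZMod p) ≠ 0 := by
      rw [e1]
      refine Finset.prod_ne_zero_iff.2 fun q hq => ?_
      rw [Ne, ZMod.natCast_eq_zero_iff, Nat.prime_dvd_prime_iff_eq hp'
        (hS q (Finset.mem_of_mem_erase hq))]
      exact (Finset.ne_of_mem_erase hq).symm
    have e3 := ZMod.pow_card_sub_one_eq_one e2
    have e4 : p - 1 = p - 2 + 1 := by have := hp'.two_le; omega
    rw [e4, pow_succ] at e3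
    simp only [r, max_eq_left hp'.one_le]
    rw [← e1]
    push_cast
    rw [ZMod.natCast_mod, ZMod.natCast_mod, (h a).2 p hp]
    push_cast
    linear_combination (2 ^ j * (z a : ZMod p)) * e3
  have := approx hS (n := N a + 1) ((Finset.card_filter_le _ _).trans (Finset.card_range _).le)
    (Nat.succ_pos _) _ _ k hk
  simp only [φ]
  rw [← Finset.sum_filter]
  exact this

end Crest.Agent.R316
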