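import Crest.Agent.R316.Good
import Crest.Agent.R316.SignTest
import Crest.Agent.R316.GoodCoeffAux

/-! Polynomial rings: constants, variables, coefficient extraction, substitution. -/

set_option autoImplicit false
open Crest.Agent.Lib.PolyTime
open scoped Polynomial

namespace Crest.Agent.R316

section nu
variable {K : Type} [CommRing K] [Nu K] {n : ℕ}

theorem nu_polyC (c : K) : nu (Polynomial.C c) = nu c := by
  show nuAM id (Polynomial.C c).toFinsupp = nu c
  rw [Polynomial.toFinsupp_C, nuAM_single]; simp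

theorem nu_polyCoeff_le (f : K[X]) (k : ℕ) : nu (f.coeff k) * 2 ^ k ≤ nu f := by
  by_cases h : f.coeff k = 0
  · simp [h, Nu.nu_zero]
  · rw [nu_poly]
    exact Finset.single_le_sum (f := fun k => nu (f.coeff k) * 2 ^ k) (fun _ _ => Nat.zero_le _)
      (Polynomial.mem_support_iff.2 h)

theorem nu_mvC (c : K) : nu (MvPolynomial.C c : MvPolynomial (Fin n) K) = nu c := by
  rw [MvPolynomial.C_apply, CoeffAux.nu_monomial]; simp

theorem nu_mvCoeff_le (f : MvPolynomial (Fin n) K) (m : Fin n →₀ ℕ) :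
    nu (f.coeff m) * 2 ^ m.degree ≤ nu f := by
  by_cases h : f.coeff m = 0
  · simp [h, Nu.nu_zero]
  · rw [nu_mv]
    exact Finset.single_le_sum (f := fun m : Fin n →₀ ℕ => nu (f.coeff m) * 2 ^ m.degree)
      (fun _ _ => Nat.zero_le _) (MvPolynomial.mem_support_iff.2 h)


end nu

variable {α : Type} [PEnc α] {P : Type} [PEnc P] {K : α → Type}
  [∀ a, CommRing (K a)] [∀ a, Nu (K a)] [∀ a, Ev P (K a)]

/-! ### One variable -/

theorem Good.polyC {f : ∀ a, K a} (hf : Good f) : Good fun a => Polynomial.C (f a) := by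
  obtain ⟨hs, t, ht, F, hF, h⟩ := hf
  refine ⟨hs.mono fun a => (nu_polyC _).le, t, ht, fun x => F (x.1, x.2.1, x.2.2.2),
    hF.comp (by fun_prop), fun a p hp hle v => ?_⟩
  rw [ev_poly, Polynomial.eval₂_C]; exact h a p hp hle v.2

theorem Good.polyX : Good fun a => (Polynomial.X : (K a)[X]) := by
  refine ⟨(DB.const 2).mono fun a => CoeffAux.nu_X_le, fun _ => 0, PB.const 0,
    fun x => x.2.2.1, CHF.of_poly (by fun_prop), fun a p _ _ v => ?_⟩
  rw [ev_poly, Polynomial.eval₂_X]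

theorem Good.eb_natDegree {f : ∀ a, (K a)[X]} (hf : Good f) : EB fun a => (f a).natDegree := by
  refine hf.size.eb_log fun a => ?_
  by_cases h : f a = 0
  · left; simp [h]
  · right
    refine le_trans ?_ (nu_polyCoeff_le (f a) (f a).natDegree)
    exact Nat.le_mul_of_pos_left _ (Nu.nu_pos _ (Polynomial.leadingCoeff_ne_zero.2 h))

theorem Good.polyCoeff {f : ∀ a, (K a)[X]} (hf : Good f) {k : α → ℕ} (hk : Poly k) :
    Good fun a => (f a).coeff (k a) := by
  obtain ⟨s, hs, hd⟩ := hf.eb_natDegree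
  obtain ⟨hsz, t, ht, F, hF, h⟩ := hf
  refine ⟨hsz.mono fun a => le_trans (Nat.le_mul_of_pos_right _ (by positivity))
    (nu_polyCoeff_le _ (k a)), fun a => t a + s a + sz (k a) + 2, by fun_prop,
    fun x => (x.2.1 - 1) * ∑ y ∈ Finset.range x.2.1,
      (y ^ (x.2.1 - 1 - k x.1) % (x.2.1 - 1 + 1)) * F (x.1, x.2.1, (y, x.2.2)), ?_,
    fun a p hp hle v => ?_⟩
  · refine (CHF.of_poly (by fun_prop)).mul (CHF.sum_range (by fun_prop)
      (f := fun (x : α × ℕ × P) y =>
        (y ^ (x.2.1 - 1 - k x.1) % (x.2.1 - 1 + 1)) * F (x.1, x.2.1, (y, x.2.2))) ?_)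
    exact (CHF.of_poly (Poly.powMod (by fun_prop) (by fun_prop) (by fun_prop)
      fun _ => Nat.succ_pos _)).mul (hF.comp (by fun_prop))
  · have := Fact.mk hp
    obtain ⟨b1, b2, b3⟩ := CoeffAux.thr hle
    have e1 : p - 1 + 1 = p := Nat.sub_add_cancel hp.one_le
    have hk' : k a < p - 1 := (lt_two_pow_sz (k a)).trans b3
    have hd' : ((f a).map (ev p v)).natDegree < p - 1 :=
      lt_of_le_of_lt (Polynomial.natDegree_map_le.trans (hd a)) b2
    have e2 := CoeffAux.sum_eval_poly ((f a).map (ev p v)) hd' hk'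
    rw [Polynomial.coeff_map] at e2
    simp only [e1, Nat.cast_mul, Nat.cast_sum, ZMod.natCast_mod, Nat.cast_pow,
      CoeffAux.cast_pred hp]
    rw [Finset.sum_congr rfl fun y _ => by
      rw [h a p hp b1 (y, v), ev_poly, ← Polynomial.eval_map]]
    rw [CoeffAux.sum_range_zmod (fun x => x ^ (p - 1 - k a) * ((f a).map (ev p v)).eval x), e2]
    simp

theorem Good.choose {n k : α → ℕ} (hn : Poly n) (hk : Poly k) :
    Good fun a => (((n a).choose (k a) : ℕ) : K a) := by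
  have h1 : Good (K := fun _ : α => ℤ[X]) fun a => (1 + Polynomial.X) ^ n a :=
    (Good.one.add Good.polyX).pow hn
  exact (h1.polyCoeff hk).intCast.congr fun a => by
    rw [Polynomial.coeff_one_add_X_pow]; simp

theorem Good.hasseDeriv {f : ∀ a, (K a)[X]} (hf : Good f) {k : α → ℕ} (hk : Poly k) :
    Good fun a => Polynomial.hasseDeriv (k a) (f a) := by
  obtain ⟨B, hB, hd⟩ := hf.eb_natDegree.exists_poly
  have h1 : Good (K := fun x : α × ℕ => (K x.1)[X]) fun x =>
      Polynomial.C (((x.2.choose (k x.1) : ℕ) : K x.1) * (f x.1).coeff x.2) *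
        Polynomial.X ^ (x.2 - k x.1) :=
    ((Good.choose (K := fun x : α × ℕ => K x.1) (by fun_prop) (by fun_prop)).mul
      ((hf.comp (φ := fun x : α × ℕ => x.1) (by fun_prop)).polyCoeff (by fun_prop))).polyC.mul
      (Good.polyX.pow (by fun_prop))
  refine (Good.sum_range hB (f := fun a j =>
    Polynomial.C (((j.choose (k a) : ℕ) : K a) * (f a).coeff j) * Polynomial.X ^ (j - k a))
    h1).congr fun a => ?_
  rw [Polynomial.hasseDeriv_apply, Polynomial.sum_over_range' _ (by simp) _ (hd a)]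
  simp only [Polynomial.C_mul_X_pow_eq_monomial]

theorem Good.polyAeval {U : α → ℤ[X]} (hU : Good U) {g : ∀ a, K a} (hg : Good g) :
    Good fun a => Polynomial.aeval (g a) (U a) := by
  obtain ⟨B, hB, hd⟩ := hU.eb_natDegree.exists_poly
  have h1 : Good (K := fun x : α × ℕ => K x.1) fun x =>
      (((U x.1).coeff x.2 : ℤ) : K x.1) * g x.1 ^ x.2 :=
    ((hU.comp (φ := fun x : α × ℕ => x.1) (by fun_prop)).polyCoeff (by fun_prop)).intCast.mul
      ((hg.comp (φ := fun x : α × ℕ => x.1) (by fun_prop)).pow (by fun_prop))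
  refine (Good.sum_range hB (f := fun a j => (((U a).coeff j : ℤ) : K a) * g a ^ j) h1).congr
    fun a => ?_
  rw [Polynomial.aeval_eq_sum_range' (hd a)]
  simp only [zsmul_eq_mul]

theorem Good.ch_natDegree {U : α → ℤ[X]} (hU : Good U) {D : α → ℕ} (hD : Poly D) :
    CH fun a => U a ≠ 0 ∧ (U a).natDegree = D a := by
  obtain ⟨B, hB, hd⟩ := hU.eb_natDegree.exists_poly
  have h1 : CH fun x : α × ℕ => D x.1 < x.2 → (U x.1).coeff x.2 = 0 :=
    (CH.of_decide (by fun_prop)).imp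
      ((hU.comp (φ := fun x : α × ℕ => x.1) (by fun_prop)).polyCoeff (by fun_prop)).ch_zero
  refine ((hU.polyCoeff hD).ch_zero.not.and (CH.forall_lt hB h1)).congr fun a => ?_
  constructor
  · rintro ⟨h2, h3⟩
    refine ⟨fun h => h2 (by simp [h]), le_antisymm ?_ (Polynomial.le_natDegree_of_ne_zero h2)⟩
    rw [Polynomial.natDegree_le_iff_coeff_eq_zero]
    intro j hj
    by_cases hjB : j < B a
    · exact h3 j hjB hj
    · exact Polynomial.coeff_eq_zero_of_natDegree_lt (lt_of_lt_of_le (hd a) (by omega))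
  · rintro ⟨h2, h3⟩
    refine ⟨?_, fun j _ hj => Polynomial.coeff_eq_zero_of_natDegree_lt (h3.trans_lt hj)⟩
    rw [← h3]; exact Polynomial.leadingCoeff_ne_zero.2 h2

/-- The trailing (lowest nonzero) coefficient is negative. -/
theorem Good.ch_trailing_neg {U : α → ℤ[X]} (hU : Good U) :
    CH fun a => (U a).trailingCoeff < 0 := by
  obtain ⟨B, hB, hd⟩ := hU.eb_natDegree.exists_poly
  have h1 : CH fun x : (α × ℕ) × ℕ => (U x.1.1).coeff x.2 = 0 :=
    ((hU.comp (φ := fun x : (α × ℕ) × ℕ => x.1.1) (by fun_prop)).polyCoeff (by fun_prop)).ch_zero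
  have h2 : CH fun x : α × ℕ => (U x.1).coeff x.2 < 0 ∧ ∀ i < x.2, (U x.1).coeff i = 0 :=
    ((hU.comp (φ := fun x : α × ℕ => x.1) (by fun_prop)).polyCoeff (by fun_prop)).ch_neg.and
      (CH.forall_lt (N := fun x : α × ℕ => x.2) (by fun_prop) h1)
  refine (CH.exists_lt hB h2).congr fun a => ?_
  constructor
  · rintro ⟨j, -, h3, h4⟩
    have h5 : (U a).natTrailingDegree = j :=
      le_antisymm (Polynomial.natTrailingDegree_le_of_ne_zero h3.ne)
        (Polynomial.le_natTrailingDegree (fun h => h3.ne (by simp [h])) h4)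
    rw [Polynomial.trailingCoeff, h5]; exact h3
  · intro h3
    exact ⟨(U a).natTrailingDegree,
      lt_of_le_of_lt (Polynomial.natTrailingDegree_le_natDegree _) (hd a), h3,
      fun i hi => Polynomial.coeff_eq_zero_of_lt_natTrailingDegree hi⟩


/-! ### Several variables -/

variable {n : α → ℕ}

theorem Good.mvC {f : ∀ a, K a} (hf : Good f) :
    Good fun a => (MvPolynomial.C (f a) : MvPolynomial (Fin (n a)) (K a)) := by
  obtain ⟨hs, t, ht, F, hF, h⟩ := hf
  refine ⟨hs.mono fun a => (nu_mvC _).le, t, ht, fun x => F (x.1, x.2.1, x.2.2.2),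
    hF.comp (by fun_prop), fun a p hp hle v => ?_⟩
  rw [ev_mv, MvPolynomial.eval₂_C]; exact h a p hp hle v.2

theorem Good.mvX {i : ∀ a, Fin (n a)} (hi : Poly fun a => (i a : ℕ)) :
    Good fun a => (MvPolynomial.X (i a) : MvPolynomial (Fin (n a)) (K a)) := by
  refine ⟨(DB.const 2).mono fun a => ?_, fun _ => 0, PB.const 0,
    fun x => x.2.2.1.getD (i x.1) 0, CHF.of_poly (Poly.listGetD (by fun_prop)
      (hi.comp (by fun_prop)) (by fun_prop)), fun a p _ _ v => ?_⟩
  · rw [MvPolynomial.X, CoeffAux.nu_monomial, Finsupp.degree_single]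
    have := Nu.nu_one (K := K a)
    omega
  · rw [ev_mv, MvPolynomial.eval₂_X]

theorem Good.eb_totalDegree {f : ∀ a, MvPolynomial (Fin (n a)) (K a)} (hf : Good f) :
    EB fun a => (f a).totalDegree := by
  refine hf.size.eb_log fun a => ?_
  by_cases h : f a = 0
  · left; simp [h]
  · right
    obtain ⟨m, hm, e⟩ := Finset.exists_mem_eq_sup (f a).support
      (MvPolynomial.support_nonempty.2 h) (fun s => s.sum fun _ e => e)
    rw [MvPolynomial.totalDegree, e]
    refine le_trans ?_ (nu_mvCoeff_le (f a) m)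
    exact Nat.le_mul_of_pos_left _ (Nu.nu_pos _ (MvPolynomial.mem_support_iff.1 hm))

theorem Good.mvCoeff (hn : Poly n) (hb : PB n) {f : ∀ a, MvPolynomial (Fin (n a)) (K a)}
    (hf : Good f) {k : ∀ a, Fin (n a) → ℕ} (hk : Poly fun x : Σ a, Fin (n a) => k x.1 x.2) :
    Good fun a => MvPolynomial.coeff (ex (k a)) (f a) := by
  obtain ⟨s, hs, hd⟩ := hf.eb_totalDegree
  obtain ⟨hsz, t, ht, F, hF, h⟩ := hf
  have hkl : Poly fun a => List.ofFn (k a) := Poly.ofFn hn hb hk
  refine ⟨hsz.mono fun a => le_trans (Nat.le_mul_of_pos_right _ (by positivity))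
    (nu_mvCoeff_le _ (ex (k a))), fun a => t a + s a + sz (List.ofFn (k a)) + 2, by fun_prop,
    fun x => (x.2.1 - 1) ^ n x.1 * ∑ y ∈ Finset.range (x.2.1 ^ n x.1),
      (∏ i : Fin (n x.1), (y / x.2.1 ^ (i : ℕ) % x.2.1) ^ (x.2.1 - 1 - k x.1 i) % (x.2.1 - 1 + 1)) *
        F (x.1, x.2.1, (List.ofFn fun i : Fin (n x.1) => y / x.2.1 ^ (i : ℕ) % x.2.1, x.2.2)), ?_,
    fun a p hp hle v => ?_⟩
  · have hn1 : Poly fun x : α × ℕ × P => n x.1 := hn.comp (by fun_prop)
    have hb1 : PB fun x : α × ℕ × P => n x.1 := hb.comp' (by fun_prop)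
    have hn2 : Poly fun x : (α × ℕ × P) × ℕ => n x.1.1 := hn.comp (by fun_prop)
    have hb2 : PB fun x : (α × ℕ × P) × ℕ => n x.1.1 := hb.comp' (by fun_prop)
    have hw : Poly fun z : Σ x : (α × ℕ × P) × ℕ, Fin (n x.1.1) => z.1 := Poly.id'.sigmaFst
    have hi : Poly fun z : Σ x : (α × ℕ × P) × ℕ, Fin (n x.1.1) => (z.2 : ℕ) :=
      Poly.id'.sigmaFinVal
    have hib : PB fun z : Σ x : (α × ℕ × P) × ℕ, Fin (n x.1.1) => (z.2 : ℕ) :=
      (hb2.comp' hw.pb_sz).mono fun z => z.2.2.le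
    have hdig : Poly fun z : Σ x : (α × ℕ × P) × ℕ, Fin (n x.1.1) =>
        z.1.2 / z.1.1.2.1 ^ (z.2 : ℕ) % z.1.1.2.1 :=
      (hw.snd.div (hw.fst.snd.fst.pow hi hib)).mod hw.fst.snd.fst
    have hk2 : Poly fun z : Σ x : (α × ℕ × P) × ℕ, Fin (n x.1.1) => k z.1.1.1 z.2 :=
      hk.comp (poly_mkFin (n := n) hw.fst.fst hi)
    refine (CHF.of_poly (Poly.pow (by fun_prop) hn1 hb1)).mul
      (CHF.sum_range (Poly.pow (by fun_prop) hn1 hb1)
      (f := fun (x : α × ℕ × P) y =>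
        (∏ i : Fin (n x.1),
          (y / x.2.1 ^ (i : ℕ) % x.2.1) ^ (x.2.1 - 1 - k x.1 i) % (x.2.1 - 1 + 1)) *
        F (x.1, x.2.1, (List.ofFn fun i : Fin (n x.1) => y / x.2.1 ^ (i : ℕ) % x.2.1, x.2.2))) ?_)
    refine (CHF.of_poly (Poly.prod_fin hn2 hb2 (Poly.powMod hdig
      ((hw.fst.snd.fst.sub (Lib.PolyTime.Poly.const 1)).sub hk2)
      ((hw.fst.snd.fst.sub (Lib.PolyTime.Poly.const 1)).add (Lib.PolyTime.Poly.const 1)) fun _ => Nat.succ_pos _))).mul
      (hF.comp (Poly.pair (by fun_prop) (Poly.pair (by fun_prop)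
        (Poly.pair (Poly.ofFn hn2 hb2 hdig) (by fun_prop)))))
  · have := Fact.mk hp
    obtain ⟨b1, b2, b3⟩ := CoeffAux.thr hle
    have e1 : p - 1 + 1 = p := Nat.sub_add_cancel hp.one_le
    have hk' : ∀ i, k a i < p - 1 := fun i => (lt_two_pow_sz (k a i)).trans
      (lt_of_le_of_lt (Nat.pow_le_pow_right (by norm_num)
        (sz_le_of_mem (List.mem_ofFn.2 ⟨i, rfl⟩))) b3)
    have hd' : ((f a).map (ev p v)).totalDegree < p - 1 :=
      lt_of_le_of_lt ((CoeffAux.totalDegree_map_le _ _).trans (hd a)) b2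
    have e2 := CoeffAux.sum_eval_mv ((f a).map (ev p v)) hd' hk'
    rw [MvPolynomial.coeff_map] at e2
    simp only [e1, Nat.cast_mul, Nat.cast_sum, ZMod.natCast_mod, Nat.cast_pow, Nat.cast_prod,
      CoeffAux.cast_pred hp]
    rw [Finset.sum_congr rfl fun y _ => by
      rw [h a p hp b1 (List.ofFn fun i : Fin (n a) => y / p ^ (i : ℕ) % p, v), ev_mv,
        ← MvPolynomial.eval_map]]
    have e3 : ∀ (y : ℕ) (i : Fin (n a)),
        (((List.ofFn fun i : Fin (n a) => y / p ^ (i : ℕ) % p).getD i 0 : ℕ) : ZMod p) =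
          ((y / p ^ (i : ℕ) : ℕ) : ZMod p) := by
      intro y i
      rw [List.getD_eq_getElem _ _ (by simp), List.getElem_ofFn, ZMod.natCast_mod]
    simp only [e3]
    rw [CoeffAux.sum_range_pow_zmod (fun x : Fin (n a) → ZMod p =>
      (∏ i, x i ^ (p - 1 - k a i)) * MvPolynomial.eval x ((f a).map (ev p v))), e2, ← mul_assoc,
      ← mul_pow]
    simp

theorem Good.mvAeval (hn : Poly n) (hb : PB n) {Q : ∀ a, MvPolynomial (Fin (n a)) ℤ}
    (hQ : Good Q) {g : ∀ a, Fin (n a) → K a}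
    (hg : Good (K := fun x : Σ a, Fin (n a) => K x.1) fun x => g x.1 x.2) :
    Good fun a => MvPolynomial.aeval (g a) (Q a) := by
  obtain ⟨B, hB, hd⟩ := hQ.eb_totalDegree.exists_poly
  obtain ⟨hw, hn1, hb1, hk, hm⟩ := CoeffAux.box_poly hn hb
  have h1 : Good (K := fun x : Σ a, Fin (n a) → ℕ => K x.1) fun x =>
      ((MvPolynomial.coeff (ex x.2) (Q x.1) : ℤ) : K x.1) * ∏ i, g x.1 i ^ x.2 i :=
    (Good.mvCoeff (n := fun x : Σ a, Fin (n a) → ℕ => n x.1) hn1 hb1 (hQ.comp hw)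
      (k := fun x => x.2) hk).intCast.mul
      (Good.prod_fin (n := fun x : Σ a, Fin (n a) → ℕ => n x.1) hn1
        (f := fun x i => g x.1 i ^ x.2 i) ((hg.comp hm).pow hk))
  refine (Good.sum_box hn hb hB (f := fun a k =>
    ((MvPolynomial.coeff (ex k) (Q a) : ℤ) : K a) * ∏ i, g a i ^ k i) h1).congr fun a => ?_
  conv_rhs => rw [eq_sum_box (Q a) (hd a)]
  rw [map_sum]
  refine Finset.sum_congr rfl fun k _ => ?_
  rw [MvPolynomial.aeval_monomial, Finsupp.prod_fintype _ _ (by simp)]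
  simp [ex]

theorem Good.mapC {f : ∀ a, MvPolynomial (Fin (n a)) (K a)} (hf : Good f) :
    Good fun a => MvPolynomial.map (Polynomial.C : K a →+* (K a)[X]) (f a) := by
  obtain ⟨hs, t, ht, F, hF, h⟩ := hf
  refine ⟨hs.mono fun a => ?_, t, ht, fun x => F (x.1, x.2.1, (x.2.2.1, x.2.2.2.2)),
    hF.comp (by fun_prop), fun a p hp hle v => ?_⟩
  · rw [nu_mv, nu_mv, MvPolynomial.support_map_of_injective _ Polynomial.C_injective]
    exact Finset.sum_le_sum fun m _ => by rw [MvPolynomial.coeff_map, nu_polyC]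
  · rw [h a p hp hle, ev_mv, ev_mv, MvPolynomial.eval₂_map]
    congr 1
    ext c
    simp [ev_poly]

theorem Good.pderiv (hn : Poly n) (hb : PB n) {f : ∀ a, MvPolynomial (Fin (n a)) (K a)}
    (hf : Good f) {i : ∀ a, Fin (n a)} (hi : Poly fun a => (i a : ℕ)) :
    Good fun a => MvPolynomial.pderiv (i a) (f a) := by
  obtain ⟨B, hB, hd⟩ := hf.eb_totalDegree.exists_poly
  obtain ⟨hw, hn1, hb1, hk, hm⟩ := CoeffAux.box_poly hn hb
  have hi1 : Poly fun x : Σ a, Fin (n a) → ℕ => (i x.1 : ℕ) := hi.comp hw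
  have hw2 : Poly fun y : Σ x : (Σ a, Fin (n a) → ℕ), Fin (n x.1) => y.1 := Poly.id'.sigmaFst
  have hj : Poly fun y : Σ x : (Σ a, Fin (n a) → ℕ), Fin (n x.1) => (y.2 : ℕ) :=
    Poly.id'.sigmaFinVal
  have he : Poly fun y : Σ x : (Σ a, Fin (n a) → ℕ), Fin (n x.1) =>
      y.1.2 y.2 - if (y.2 : ℕ) = (i y.1.1 : ℕ) then 1 else 0 :=
    hk.sub (Poly.ite (Poly.decide_eq hj (hi1.comp hw2)) (Lib.PolyTime.Poly.const 1) (Lib.PolyTime.Poly.const 0))
  have h1 : Good (K := fun x : Σ a, Fin (n a) → ℕ => MvPolynomial (Fin (n x.1)) (K x.1)) fun x =>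
      MvPolynomial.C (MvPolynomial.coeff (ex x.2) (f x.1) * ((x.2 (i x.1) : ℕ) : K x.1)) *
        ∏ j, MvPolynomial.X j ^ (x.2 j - if (j : ℕ) = (i x.1 : ℕ) then 1 else 0) :=
    (Good.mvC (n := fun x : Σ a, Fin (n a) → ℕ => n x.1)
      ((Good.mvCoeff (n := fun x : Σ a, Fin (n a) → ℕ => n x.1) hn1 hb1 (hf.comp hw)
        (k := fun x => x.2) hk).mul
        (Good.natCast (poly_appFun (n := n) (g := fun x => x) Poly.id' hi1)))).mul
      (Good.prod_fin (n := fun x : Σ a, Fin (n a) → ℕ => n x.1) hn1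
        (f := fun x j => MvPolynomial.X j ^ (x.2 j - if (j : ℕ) = (i x.1 : ℕ) then 1 else 0))
        ((Good.mvX (n := fun y : Σ x : (Σ a, Fin (n a) → ℕ), Fin (n x.1) => n y.1.1)
          (i := fun y => y.2) hj).pow he))
  refine (Good.sum_box hn hb hB (f := fun a k =>
    MvPolynomial.C (MvPolynomial.coeff (ex k) (f a) * ((k (i a) : ℕ) : K a)) *
      ∏ j, MvPolynomial.X j ^ (k j - if (j : ℕ) = (i a : ℕ) then 1 else 0)) h1).congr fun a => ?_
  conv_rhs => rw [eq_sum_box (f a) (hd a)]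
  rw [map_sum]
  refine Finset.sum_congr rfl fun k _ => ?_
  rw [MvPolynomial.pderiv_monomial, MvPolynomial.monomial_eq, Finsupp.prod_fintype _ _ (by simp)]
  congr 1
  refine Finset.prod_congr rfl fun j _ => ?_
  congr 1
  simp [ex, Finsupp.single_apply, Fin.val_inj, eq_comm]


end Crest.Agent.R316
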