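import Crest.Agent.R316.Defs

/-! Power sums and elementary symmetric functions; root enumerations. -/

set_option autoImplicit false
open Crest.Agent.Lib.PolyTime
open scoped Polynomial

namespace Crest.Agent.R316

open Polynomial Finset

variable {K K' : Type} [CommRing K] [CommRing K']

namespace NewtonAux

theorem map_newtonS (f : K →+* K') (n : ℕ) (P : ℕ → K) :
    (newtonS n P).map f = newtonS n fun m => f (P m) := by
  unfold newtonS
  rw [Polynomial.map_sum]
  refine sum_congr rfl fun i _ => ?_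
  rw [Polynomial.map_mul, Polynomial.map_pow, map_C, map_X, map_mul f, map_mul f, map_pow f,
    map_neg f, map_one f, map_prod f]
  congr 5
  funext t
  split_ifs <;> simp

theorem map_newton (f : K →+* K') (n : ℕ) (A : K) (P : ℕ → K) (j : ℕ) :
    f (newton n A P j) = newton n (f A) (fun m => f (P m)) j := by
  unfold newton
  rw [map_sum]
  refine sum_congr rfl fun l _ => ?_
  rw [map_mul, map_mul, map_pow, map_mul, map_natCast, map_prod, ← map_newtonS,
    ← Polynomial.map_pow, coeff_map]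
  congr 3
  funext t
  split_ifs <;> simp

theorem coeff_prod_one_add {ι : Type} (s : Finset ι) (r : ι → K) (i : ℕ) :
    (∏ j ∈ s, (1 + C (r j) * X)).coeff i = ∑ t ∈ s.powersetCard i, ∏ j ∈ t, r j := by
  classical
  rw [Finset.prod_one_add, finsetSum_coeff, powersetCard_eq_filter, sum_filter]
  refine sum_congr rfl fun t _ => ?_
  rw [prod_mul_distrib, prod_const, ← map_prod, coeff_C_mul_X_pow]
  by_cases h : #t = i
  · simp [h]
  · rw [if_neg h, if_neg (fun h' => h h'.symm)]

theorem ode_unique {n : ℕ} {F G M : ℂ[X]} (hF : X ^ n ∣ derivative F - M * F)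
    (hG : X ^ n ∣ derivative G - M * G) (h0 : F.coeff 0 = G.coeff 0) :
    ∀ j, j ≤ n → F.coeff j = G.coeff j := by
  have hD : X ^ n ∣ derivative (F - G) - M * (F - G) := by
    have := dvd_sub hF hG
    rw [derivative_sub]
    convert this using 1
    ring
  rw [X_pow_dvd_iff] at hD
  suffices h : ∀ j, j ≤ n → (F - G).coeff j = 0 by
    intro j hj
    have := h j hj
    rwa [coeff_sub, sub_eq_zero] at this
  intro j
  induction j using Nat.strong_induction_on with
  | _ j ih =>
    intro hj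
    rcases j with _ | j
    · rw [coeff_sub, h0, sub_self]
    · have h1 := hD j (by omega)
      rw [coeff_sub, coeff_derivative, coeff_mul, sum_eq_zero, sub_zero] at h1
      · exact (mul_eq_zero.1 h1).resolve_right (by exact_mod_cast Nat.succ_ne_zero j)
      · intro x hx
        have := mem_antidiagonal.1 hx
        rw [ih x.2 (by omega) (by omega), mul_zero]

theorem prod_ne (n i : ℕ) (hi : i < n) :
    (∏ t ∈ range n, if t = i then 1 else ((t + 1 : ℕ) : ℂ)) * ((i + 1 : ℕ) : ℂ) =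
      (n.factorial : ℂ) := by
  rw [← Finset.prod_range_add_one_eq_factorial, Nat.cast_prod,
    ← Finset.mul_prod_erase _ _ (mem_range.2 hi),
    ← Finset.mul_prod_erase (range n) (fun t => ((t + 1 : ℕ) : ℂ)) (mem_range.2 hi), if_pos rfl,
    one_mul, mul_comm]
  congr 1
  exact prod_congr rfl fun t ht => if_neg (ne_of_mem_erase ht)

theorem prod_ge (n l : ℕ) (hl : l ≤ n) :
    (∏ t ∈ range n, if l ≤ t then ((t + 1 : ℕ) : ℂ) else 1) * (l.factorial : ℂ) =
      (n.factorial : ℂ) := by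
  induction n, hl using Nat.le_induction with
  | base =>
    rw [prod_eq_one, one_mul]
    intro t ht
    exact if_neg (by have := mem_range.1 ht; omega)
  | succ n hn ih =>
    rw [prod_range_succ, if_pos hn, Nat.factorial_succ, Nat.cast_mul, ← ih]
    ring

/-- The truncated logarithm. -/
noncomputable def lg {ι : Type} [Fintype ι] (z : ι → ℂ) (n : ℕ) : ℂ[X] :=
  ∑ i ∈ range n, C ((-1) ^ i * (∑ j, z j ^ (i + 1)) / ((i + 1 : ℕ) : ℂ)) * X ^ (i + 1)

theorem X_dvd_lg {ι : Type} [Fintype ι] (z : ι → ℂ) (n : ℕ) : X ∣ lg z n :=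
  dvd_sum fun i _ => Dvd.dvd.mul_left (dvd_pow_self _ (Nat.succ_ne_zero i)) _

theorem derivative_lg {ι : Type} [Fintype ι] (z : ι → ℂ) (n : ℕ) :
    derivative (lg z n) = ∑ j, C (z j) * ∑ i ∈ range n, (-(C (z j) * X)) ^ i := by
  unfold lg
  rw [derivative_sum]
  simp_rw [mul_sum]
  rw [sum_comm]
  refine sum_congr rfl fun i _ => ?_
  rw [derivative_C_mul_X_pow, Nat.add_sub_cancel,
    div_mul_cancel₀ _ (by exact_mod_cast Nat.succ_ne_zero i), map_sum, sum_mul]
  refine sum_congr rfl fun j _ => ?_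
  simp only [map_mul, map_pow, map_neg, map_one]
  rw [neg_pow (C (z j) * X)]
  ring

theorem phi_ode {ι : Type} [Fintype ι] (z : ι → ℂ) (n : ℕ) :
    X ^ n ∣ derivative (∏ j, (1 + C (z j) * X)) -
      derivative (lg z n) * ∏ j, (1 + C (z j) * X) := by
  classical
  rw [derivative_lg, derivative_prod_finset, sum_mul, ← sum_sub_distrib]
  refine dvd_sum fun j _ => ?_
  rw [← Finset.mul_prod_erase _ (fun j => 1 + C (z j) * X) (mem_univ j)]
  have h := mul_neg_geom_sum (-(C (z j) * X)) n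
  refine ⟨(∏ b ∈ univ.erase j, (1 + C (z b) * X)) * C (z j) * (-C (z j)) ^ n, ?_⟩
  have h2 : (-(C (z j) * X)) ^ n = X ^ n * (-C (z j)) ^ n := by
    rw [← mul_pow]; congr 1; ring
  simp only [derivative_add, derivative_one, derivative_mul, derivative_C, derivative_X]
  linear_combination (-(∏ b ∈ univ.erase j, (1 + C (z b) * X)) * C (z j)) * h +
    ((∏ b ∈ univ.erase j, (1 + C (z b) * X)) * C (z j)) * h2

theorem derivative_psi (L : ℂ[X]) (n : ℕ) :
    derivative (∑ l ∈ range (n + 1), C (1 / (l.factorial : ℂ)) * L ^ l) =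
      derivative L * ∑ l ∈ range n, C (1 / (l.factorial : ℂ)) * L ^ l := by
  rw [sum_range_succ', derivative_add, derivative_sum, mul_sum]
  simp only [pow_zero, mul_one, derivative_C, add_zero]
  refine sum_congr rfl fun l _ => ?_
  rw [derivative_mul, derivative_C, zero_mul, zero_add, derivative_pow, Nat.add_sub_cancel]
  have : C (1 / ((l + 1).factorial : ℂ)) * C (((l + 1 : ℕ)) : ℂ) = C (1 / (l.factorial : ℂ)) := by
    rw [← map_mul, Nat.factorial_succ]
    congr 1
    have h1 : ((l + 1 : ℕ) : ℂ) ≠ 0 := by exact_mod_cast Nat.succ_ne_zero l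
    have h2 : ((l.factorial : ℕ) : ℂ) ≠ 0 := by exact_mod_cast l.factorial_ne_zero
    rw [Nat.cast_mul]
    field_simp
  rw [← this]
  ring

theorem psi_coeff {ι : Type} [Fintype ι] (z : ι → ℂ) (n j : ℕ) (hj : j ≤ n) :
    (∑ l ∈ range (n + 1), C (1 / (l.factorial : ℂ)) * lg z n ^ l).coeff j =
      (∏ j, (1 + C (z j) * X)).coeff j := by
  refine ode_unique (M := derivative (lg z n)) ?_ (phi_ode z n) ?_ j hj
  · rw [derivative_psi, sum_range_succ]
    have : X ^ n ∣ lg z n ^ n := pow_dvd_pow_of_dvd (X_dvd_lg z n) n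
    have h2 := this.mul_left (-(derivative (lg z n) * C (1 / (n.factorial : ℂ))))
    convert h2 using 1
    ring
  · rw [coeff_prod_one_add, sum_range_succ', coeff_add, finsetSum_coeff, sum_eq_zero]
    · simp
    · intro l _
      rw [coeff_C_mul, X_dvd_iff.1 ((X_dvd_lg z n).trans (dvd_pow_self _ (Nat.succ_ne_zero l))),
        mul_zero]

theorem newtonS_eq {ι : Type} [Fintype ι] (z : ι → ℂ) (n : ℕ) (A : ℂ)
    {P : ℕ → ℂ} (hP : ∀ m, 1 ≤ m → m ≤ n → P m = A * ∑ j, z j ^ m) :
    newtonS n P = C ((n.factorial : ℂ) * A) * lg z n := by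
  unfold newtonS lg
  rw [mul_sum]
  refine sum_congr rfl fun i hi => ?_
  have hi' := mem_range.1 hi
  rw [← mul_assoc, ← map_mul, hP _ (by omega) (by omega), ← prod_ne n i hi']
  congr 2
  have h1 : ((i + 1 : ℕ) : ℂ) ≠ 0 := by exact_mod_cast Nat.succ_ne_zero i
  field_simp

theorem newton_eq {ι : Type} [Fintype ι] (z : ι → ℂ) (n : ℕ) (A : ℂ)
    {P : ℕ → ℂ} (hP : ∀ m, 1 ≤ m → m ≤ n → P m = A * ∑ j, z j ^ m) (j : ℕ) (hj : j ≤ n) :
    newton n A P j = (n.factorial : ℂ) ^ (n + 1) * A ^ n *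
      ∑ t ∈ (univ : Finset ι).powersetCard j, ∏ i ∈ t, z i := by
  rw [← coeff_prod_one_add, ← psi_coeff z n j hj, finsetSum_coeff, mul_sum]
  unfold newton
  refine sum_congr rfl fun l hl => ?_
  have hl' : l ≤ n := Nat.lt_succ_iff.1 (mem_range.1 hl)
  have h2 : ((l.factorial : ℕ) : ℂ) ≠ 0 := by exact_mod_cast l.factorial_ne_zero
  rw [newtonS_eq z n A hP, mul_pow (C _), ← map_pow, coeff_C_mul, coeff_C_mul,
    eq_div_of_mul_eq h2 (prod_ge n l hl')]
  obtain ⟨d, rfl⟩ := Nat.exists_eq_add_of_le hl'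
  rw [Nat.add_sub_cancel_left]
  field_simp
  ring

theorem coeff_chi (n : ℕ) (A : K) (P : ℕ → K) (k : ℕ) :
    (chi n A P).coeff k = if k ≤ n then newton n A P (n - k) else 0 := by
  unfold chi
  rw [finsetSum_coeff]
  simp_rw [coeff_C_mul_X_pow]
  rw [sum_ite_eq]
  simp

open Classical in
theorem prod_split {ι : Type} [Fintype ι] (v : ι → ℂ) (c : ℂ) :
    C c * ∏ j, (X + C (v j)) =
      (C c * ∏ j with v j ≠ 0, (X + C (v j))) * X ^ #{j | v j = 0} := by
  rw [← prod_filter_not_mul_prod_filter univ (fun j => v j = 0), mul_assoc]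
  congr 2
  rw [← prod_const]
  exact prod_congr rfl fun j hj => by rw [(mem_filter.1 hj).2]; simp

open Classical in
theorem coeff_zero_split {ι : Type} [Fintype ι] (v : ι → ℂ) (c : ℂ) :
    (C c * ∏ j with v j ≠ 0, (X + C (v j))).coeff 0 = c * ∏ j with v j ≠ 0, v j := by
  rw [coeff_zero_eq_eval_zero]
  simp [eval_prod]

theorem map_revH (f : K →+* K') (D : ℕ) (U : K[X]) : (revH D U).map f = revH D (U.map f) := by
  simp [revH, Polynomial.map_sum]

theorem map_revN (f : K →+* K') (D : ℕ) (U : K[X]) : (revN D U).map f = revN D (U.map f) := by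
  simp [revN, Polynomial.map_sum]

theorem coeff_U {D : ℕ} {U : ℂ[X]} {z : Fin D → ℂ}
    (hU : U = C (U.coeff D) * ∏ j, (X - C (z j))) (i : ℕ) (hi : i < D) :
    U.coeff (D - (i + 1)) * U.coeff D ^ i =
      ∑ t ∈ (univ : Finset (Fin D)).powersetCard (i + 1), ∏ j ∈ t, -(U.coeff D * z j) := by
  generalize U.coeff D = a at hU
  have h1 : (∏ j, (X - C (z j))) = ∏ j, (X + C (-z j)) := by
    simp [sub_eq_add_neg]
  rw [hU, h1, coeff_C_mul, Finset.prod_X_add_C_coeff _ _ (by simp), card_univ, Fintype.card_fin,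
    show D - (D - (i + 1)) = i + 1 by omega, mul_right_comm, ← pow_succ', mul_sum]
  refine sum_congr rfl fun t ht => ?_
  rw [← (mem_powersetCard.1 ht).2, ← prod_const, ← prod_mul_distrib]
  simp

theorem rev_eq {D : ℕ} {U : ℂ[X]} {z : Fin D → ℂ}
    (hU : U = C (U.coeff D) * ∏ j, (X - C (z j))) :
    1 - revH D U = ∏ j, (1 + C (-(U.coeff D * z j)) * X) := by
  ext k
  rw [coeff_prod_one_add, revH, sub_neg_eq_add, coeff_add, finsetSum_coeff]
  simp_rw [coeff_C_mul_X_pow]
  rcases k with _ | k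
  · simp
  · simp only [Nat.add_right_cancel_iff]
    rw [sum_ite_eq, coeff_one, if_neg (Nat.succ_ne_zero k), zero_add]
    split_ifs with hk
    · exact coeff_U hU k (mem_range.1 hk)
    · rw [powersetCard_eq_empty.2, sum_empty]
      have := mem_range.not.1 hk
      simp only [card_univ, Fintype.card_fin]
      omega

theorem revN_eq (D : ℕ) (U : K[X]) :
    revN D U = C (D : K) * (1 - revH D U) - X * derivative (1 - revH D U) := by
  rw [revH, sub_neg_eq_add, derivative_add, derivative_one, zero_add, derivative_sum, mul_add,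
    mul_one, revN, mul_sum, mul_sum, add_sub_assoc, ← sum_sub_distrib]
  congr 1
  refine sum_congr rfl fun j hj => ?_
  rw [derivative_C_mul_X_pow, Nat.add_sub_cancel, Nat.cast_sub (mem_range.1 hj)]
  simp only [map_mul, map_sub]
  ring

theorem revN_eq' {D : ℕ} {U : ℂ[X]} {z : Fin D → ℂ}
    (hU : U = C (U.coeff D) * ∏ j, (X - C (z j))) :
    revN D U = ∑ j, ∏ i ∈ univ.erase j, (1 + C (-(U.coeff D * z i)) * X) := by
  rw [revN_eq, rev_eq hU, derivative_prod_finset, mul_sum]
  have : C (D : ℂ) * ∏ j, (1 + C (-(U.coeff D * z j)) * X) =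
      ∑ _j : Fin D, ∏ j, (1 + C (-(U.coeff D * z j)) * X) := by
    simp
  rw [this, ← sum_sub_distrib]
  refine sum_congr rfl fun j _ => ?_
  rw [← Finset.mul_prod_erase _ (fun j => 1 + C (-(U.coeff D * z j)) * X) (mem_univ j)]
  simp only [derivative_add, derivative_one, derivative_mul, derivative_C, derivative_X]
  ring

theorem roots_enum {D : ℕ} {U : ℤ[X]} {z : Fin D → ℂ} (h : Enum D U z) :
    (U.map (Int.castRingHom ℂ)).roots = (univ : Finset (Fin D)).val.map z := by
  have hc : ((U.coeff D : ℤ) : ℂ) ≠ 0 := by exact_mod_cast h.1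
  rw [h.2, roots_C_mul _ hc, ← roots_multiset_prod_X_sub_C ((univ : Finset (Fin D)).val.map z),
    Multiset.map_map]
  rfl

theorem map_ne_zero_enum {D : ℕ} {U : ℤ[X]} {z : Fin D → ℂ} (h : Enum D U z) :
    U.map (Int.castRingHom ℂ) ≠ 0 := by
  intro h0
  have := congrArg (coeff · D) h0
  simp only [coeff_map, eq_intCast, coeff_zero, Int.cast_eq_zero] at this
  exact h.1 this

open Classical in
theorem card_fiber {D : ℕ} {U : ℤ[X]} {z : Fin D → ℂ} (h : Enum D U z) (w : ℂ) :
    #{j | z j = w} = (U.map (Int.castRingHom ℂ)).rootMultiplicity w := by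
  rw [← count_roots, roots_enum h, Multiset.count_map]
  simp only [eq_comm (a := w)]
  rfl

theorem norm_le_of_coeff {W : ℤ[X]} (hW : W ≠ 0) {N : ℕ} (hN : ∀ i, (W.coeff i).natAbs ≤ N)
    {v : ℂ} (hv : aeval v W = 0) : ‖v‖ ≤ (N + 1 : ℕ) := by
  have hinj : Function.Injective (Int.castRingHom ℂ) := (Int.castRingHom ℂ).injective_int
  have hp : W.map (Int.castRingHom ℂ) ≠ 0 := (Polynomial.map_ne_zero_iff hinj).2 hW
  have hr : (W.map (Int.castRingHom ℂ)).IsRoot v := by
    rw [IsRoot.def, eval_map, ← hv, aeval_def]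
    rfl
  have h1 := (hr.norm_lt_cauchyBound hp).le
  have h2 : cauchyBound (W.map (Int.castRingHom ℂ)) ≤ (N + 1 : ℕ) := by
    rw [cauchyBound, Nat.cast_succ]
    gcongr
    have hl : 1 ≤ ‖(W.map (Int.castRingHom ℂ)).leadingCoeff‖₊ := by
      rw [leadingCoeff_map_of_injective hinj, eq_intCast, ← NNReal.coe_le_coe, coe_nnnorm,
        Complex.norm_intCast, NNReal.coe_one]
      exact_mod_cast Int.one_le_abs (leadingCoeff_ne_zero.2 hW)
    refine (div_le_self (by positivity) hl).trans (Finset.sup_le fun i _ => ?_)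
    rw [coeff_map, eq_intCast, ← NNReal.coe_le_coe, coe_nnnorm, Complex.norm_intCast,
      NNReal.coe_natCast]
    have := hN i
    have h3 : |W.coeff i| ≤ (N : ℤ) := by rw [Int.abs_eq_natAbs]; exact_mod_cast this
    exact_mod_cast h3
  exact_mod_cast h1.trans h2

theorem natAbs_coeff_le (U : ℤ[X]) (i : ℕ) : (U.coeff i).natAbs ≤ nu U := by
  by_cases h : U.coeff i = 0
  · simp [h]
  · rw [nu_poly]
    refine le_trans ?_ (single_le_sum (f := fun k => nu (U.coeff k) * 2 ^ k)
      (fun _ _ => Nat.zero_le _) (mem_support_iff.2 h))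
    exact Nat.le_mul_of_pos_right _ (by positivity)

theorem aeval_box {M e : ℕ} {h : MvPolynomial (Fin M) ℤ} (he : h.totalDegree ≤ e)
    (x : Fin M → ℂ) : MvPolynomial.aeval x h =
      ∑ k ∈ box M (e + 1), ((MvPolynomial.coeff (ex k) h : ℤ) : ℂ) * ∏ i, x i ^ k i := by
  classical
  have hsub : h.support ⊆ (box M (e + 1)).image ex := by
    intro d hd
    refine mem_image.2 ⟨d, ?_, ?_⟩
    · refine Fintype.mem_piFinset.2 fun i => mem_range.2 (Nat.lt_succ_of_le ?_)
      exact ((MvPolynomial.monomial_le_degreeOf i hd).trans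
        (MvPolynomial.degreeOf_le_totalDegree h i)).trans he
    · simp [ex]
  rw [MvPolynomial.aeval_def, MvPolynomial.eval₂_eq', sum_subset hsub, sum_image]
  · rfl
  · exact fun a _ b _ hab => Finsupp.equivFunOnFinite.symm.injective hab
  · intro d _ hd
    rw [MvPolynomial.notMem_support_iff.1 hd]
    simp

end NewtonAux

open NewtonAux

theorem map_chi (f : K →+* K') (n : ℕ) (A : K) (P : ℕ → K) :
    (chi n A P).map f = chi n (f A) fun m => f (P m) := by
  unfold chi
  rw [Polynomial.map_sum]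
  refine sum_congr rfl fun i _ => ?_
  rw [Polynomial.map_mul, Polynomial.map_pow, map_C, map_X, map_newton]

theorem natDegree_chi_le (n : ℕ) (A : K) (P : ℕ → K) : (chi n A P).natDegree ≤ n := by
  refine natDegree_le_iff_coeff_eq_zero.2 fun k hk => ?_
  rw [coeff_chi, if_neg (by omega)]

theorem chi_eq {ι : Type} [Fintype ι] (z : ι → ℂ) {n : ℕ} (hn : Fintype.card ι = n) (A : ℂ)
    {P : ℕ → ℂ} (hP : ∀ m, 1 ≤ m → m ≤ n → P m = A * ∑ j, z j ^ m) :
    chi n A P = C ((n.factorial : ℂ) ^ (n + 1) * A ^ n) * ∏ j, (X + C (z j)) := by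
  ext k
  rw [coeff_chi, coeff_C_mul]
  split_ifs with hk
  · rw [newton_eq z n A hP _ (Nat.sub_le _ _),
      Finset.prod_X_add_C_coeff _ _ (by rwa [card_univ, hn]), card_univ, hn]
  · rw [coeff_eq_zero_of_natDegree_lt, mul_zero]
    refine lt_of_le_of_lt (natDegree_prod_le _ _) ?_
    simp only [natDegree_X_add_C, sum_const, card_univ, hn, smul_eq_mul, mul_one]
    omega

open Classical in
theorem natTrailingDegree_prod {ι : Type} [Fintype ι] (v : ι → ℂ) {c : ℂ} (hc : c ≠ 0) :
    (C c * ∏ j, (X + C (v j))).natTrailingDegree = #{j | v j = 0} := by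
  have h0 : (C c * ∏ j with v j ≠ 0, (X + C (v j))).coeff 0 ≠ 0 := by
    rw [coeff_zero_split]
    exact mul_ne_zero hc (prod_ne_zero_iff.2 fun j hj => (mem_filter.1 hj).2)
  rw [prod_split, natTrailingDegree_mul_X_pow (fun h => h0 (by rw [h, coeff_zero])),
    natTrailingDegree_eq_zero.2 (Or.inr h0), zero_add]

open Classical in
theorem trailingCoeff_prod {ι : Type} [Fintype ι] (v : ι → ℂ) {c : ℂ} (hc : c ≠ 0) :
    (C c * ∏ j, (X + C (v j))).trailingCoeff = c * ∏ j with v j ≠ 0, v j := by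
  rw [trailingCoeff, natTrailingDegree_prod v hc, prod_split, ← coeff_zero_split]
  have := coeff_mul_X_pow (C c * ∏ j with v j ≠ 0, (X + C (v j))) #{j | v j = 0} 0
  rwa [zero_add] at this

theorem map_psum (f : K →+* K') (D : ℕ) (U : K[X]) (m : ℕ) :
    f (psum D U m) = psum D (U.map f) m := by
  unfold psum
  rw [map_sum]
  refine sum_congr rfl fun k _ => ?_
  rw [← coeff_map, Polynomial.map_mul, Polynomial.map_pow, map_revH, map_revN]

theorem psum_eq {D : ℕ} {U : ℂ[X]} {z : Fin D → ℂ}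
    (hU : U = C (U.coeff D) * ∏ j, (X - C (z j))) (m : ℕ) :
    psum D U m = U.coeff D ^ m * ∑ j, z j ^ m := by
  have hH : X ∣ revH D U :=
    dvd_neg.2 (dvd_sum fun i _ => Dvd.dvd.mul_left (dvd_pow_self _ (Nat.succ_ne_zero i)) _)
  set S : ℂ[X] := ∑ j, ∑ α ∈ range (m + 1), (C (U.coeff D * z j) * X) ^ α with hS
  have h1 : X ^ (m + 1) ∣ revN D U - S * (1 - revH D U) := by
    rw [revN_eq' hU, rev_eq hU, hS, sum_mul, ← sum_sub_distrib]
    refine dvd_sum fun j _ => ?_
    rw [← Finset.mul_prod_erase _ (fun j => 1 + C (-(U.coeff D * z j)) * X) (mem_univ j)]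
    have h := mul_neg_geom_sum (C (U.coeff D * z j) * X) (m + 1)
    refine ⟨(∏ b ∈ univ.erase j, (1 + C (-(U.coeff D * z b)) * X)) *
      C (U.coeff D * z j) ^ (m + 1), ?_⟩
    rw [map_neg C (U.coeff D * z j)]
    rw [mul_pow] at h
    linear_combination (-(∏ b ∈ univ.erase j, (1 + C (-(U.coeff D * z b)) * X))) * h
  have h2 : X ^ (m + 1) ∣ revN D U * ∑ k ∈ range (m + 1), revH D U ^ k - S := by
    have h := mul_neg_geom_sum (revH D U) (m + 1)
    have h3 := dvd_sub (h1.mul_right (∑ k ∈ range (m + 1), revH D U ^ k))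
      ((pow_dvd_pow_of_dvd hH (m + 1)).mul_left S)
    convert h3 using 1
    linear_combination S * h
  have h4 := X_pow_dvd_iff.1 h2 m (Nat.lt_succ_self m)
  rw [coeff_sub, sub_eq_zero, mul_sum, finsetSum_coeff] at h4
  rw [psum, h4, hS, finsetSum_coeff, mul_sum]
  refine sum_congr rfl fun j _ => ?_
  rw [finsetSum_coeff]
  simp_rw [mul_pow (C (U.coeff D * z j)), ← map_pow, coeff_C_mul_X_pow]
  rw [sum_ite_eq, if_pos (mem_range.2 (Nat.lt_succ_self m)), mul_pow]

theorem exists_enum {U : ℤ[X]} (hU : U ≠ 0) {D : ℕ} (hD : U.natDegree = D) :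
    ∃ z, Enum D U z := by
  have hinj : Function.Injective (Int.castRingHom ℂ) := (Int.castRingHom ℂ).injective_int
  have hcard : Multiset.card (U.map (Int.castRingHom ℂ)).roots =
      (U.map (Int.castRingHom ℂ)).natDegree :=
    splits_iff_card_roots.1 (IsAlgClosed.splits _)
  have hdeg : (U.map (Int.castRingHom ℂ)).natDegree = D := by
    rw [natDegree_map_eq_of_injective hinj, hD]
  have hlen : (U.map (Int.castRingHom ℂ)).roots.toList.length = D := by
    rw [Multiset.length_toList, hcard, hdeg]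
  refine ⟨fun j => (U.map (Int.castRingHom ℂ)).roots.toList.get (j.cast hlen.symm), ?_, ?_⟩
  · rw [← hD]
    exact leadingCoeff_ne_zero.2 hU
  · conv_lhs => rw [← C_leadingCoeff_mul_prod_multiset_X_sub_C hcard]
    congr 1
    · rw [leadingCoeff, hdeg, coeff_map, eq_intCast]
    · generalize (U.map (Int.castRingHom ℂ)).roots = s at hlen ⊢
      subst hlen
      conv_lhs => rw [← Multiset.coe_toList s]
      rw [Multiset.map_coe, Multiset.prod_coe]
      exact (Fin.prod_univ_fun_getElem s.toList fun a => X - C a).symm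

theorem Enum.mem_range_iff {D : ℕ} {U : ℤ[X]} {z : Fin D → ℂ} (h : Enum D U z) (w : ℂ) :
    w ∈ Set.range z ↔ aeval w U = 0 := by
  have h1 : aeval w U = (U.map (Int.castRingHom ℂ)).eval w := by
    rw [eval_map, aeval_def]
    rfl
  rw [h1, ← IsRoot.def, ← mem_roots (map_ne_zero_enum h), roots_enum h]
  simp

open Classical in
theorem Enum.card_fiber_conj {D : ℕ} {U : ℤ[X]} {z : Fin D → ℂ} (h : Enum D U z) (w : ℂ) :
    #{j | z j = star w} = #{j | z j = w} := by
  rw [card_fiber h, card_fiber h]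
  have h1 := eq_rootMultiplicity_map (p := U.map (Int.castRingHom ℂ))
    (starRingEnd ℂ).injective w
  rw [Polynomial.map_map, Subsingleton.elim ((starRingEnd ℂ).comp (Int.castRingHom ℂ))
    (Int.castRingHom ℂ)] at h1
  exact h1.symm

open Classical in
theorem Enum.card_fiber_eq_one {D : ℕ} {U : ℤ[X]} {z : Fin D → ℂ} (h : Enum D U z) {x : ℝ}
    (hx : aeval x U = 0) (hx' : aeval x (derivative U) ≠ 0) : #{j | z j = (x : ℂ)} = 1 := by
  have key : ∀ W : ℤ[X], (W.map (Int.castRingHom ℂ)).eval (x : ℂ) = ((aeval x W : ℝ) : ℂ) := by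
    intro W
    rw [eval_map, ← Complex.coe_algebraMap, ← aeval_algebraMap_apply, aeval_def]
    rfl
  rw [card_fiber h]
  have hp := map_ne_zero_enum h
  have h1 : 0 < (U.map (Int.castRingHom ℂ)).rootMultiplicity (x : ℂ) := by
    rw [rootMultiplicity_pos hp, IsRoot.def, key, hx]
    simp
  have h2 : ¬ 1 < (U.map (Int.castRingHom ℂ)).rootMultiplicity (x : ℂ) := by
    rw [one_lt_rootMultiplicity_iff_isRoot hp, IsRoot.def, IsRoot.def, derivative_map, key, key]
    exact fun h3 => hx' (by exact_mod_cast h3.2)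
  omega

theorem tupTr_eq {M e : ℕ} {D : Fin M → ℕ} {U : Fin M → ℤ[X]} {z : ∀ i, Fin (D i) → ℂ}
    (hz : ∀ i, Enum (D i) (U i) (z i)) {h : MvPolynomial (Fin M) ℤ} (he : h.totalDegree ≤ e) :
    ((tupTr e D U h : ℤ) : ℂ) = (∏ i, (((U i).coeff (D i) : ℤ) : ℂ) ^ e) *
      ∑ j : ∀ i, Fin (D i), MvPolynomial.aeval (fun i => z i (j i)) h := by
  simp_rw [aeval_box he]
  rw [sum_comm, mul_sum, tupTr, Int.cast_sum]
  refine sum_congr rfl fun k hk => ?_
  rw [← mul_sum, Int.cast_mul, mul_left_comm, Int.cast_prod]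
  congr 1
  rw [← Fintype.piFinset_univ, ← Finset.prod_univ_sum (fun _ => univ) (fun i j => z i j ^ k i),
    ← prod_mul_distrib]
  refine prod_congr rfl fun i _ => ?_
  have hk' : k i ≤ e := Nat.lt_succ_iff.1 (mem_range.1 (Fintype.mem_piFinset.1 hk i))
  have h1 := map_psum (Int.castRingHom ℂ) (D i) (U i) (k i)
  rw [psum_eq (z := z i) (by rw [coeff_map]; exact (hz i).2), coeff_map, eq_intCast,
    eq_intCast] at h1
  rw [Int.cast_mul, Int.cast_pow, h1, ← mul_assoc, ← pow_add, Nat.sub_add_cancel hk']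

/-- Cauchy bounds. -/
theorem root_bounds {U : ℤ[X]} (hU : U ≠ 0) {v : ℂ} (hv : aeval v U = 0) :
    ‖v‖ ≤ (nu U + 1 : ℕ) ∧ (v ≠ 0 → 1 ≤ (nu U + 1 : ℕ) * ‖v‖) := by
  refine ⟨norm_le_of_coeff hU (natAbs_coeff_le U) hv, fun h0 => ?_⟩
  have h1 : ‖v⁻¹‖ ≤ (nu U + 1 : ℕ) := by
    refine norm_le_of_coeff (W := U.reverse) (mt reverse_eq_zero.1 hU)
      (fun i => by rw [coeff_reverse]; exact natAbs_coeff_le U _) ?_
    let := invertibleOfNonzero h0
    rw [aeval_def, ← invOf_eq_inv, eval₂_reverse_eq_zero_iff, ← aeval_def, hv]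
  rw [norm_inv] at h1
  have h2 : 0 < ‖v‖ := norm_pos_iff.2 h0
  calc (1 : ℝ) = ‖v‖⁻¹ * ‖v‖ := (inv_mul_cancel₀ h2.ne').symm
    _ ≤ _ := by gcongr

end Crest.Agent.R316
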