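import Crest.Agent.R316.Pham
import Crest.Agent.R316.Newton

/-! Naturality and meaning of the penalty and cell polynomials. -/

set_option autoImplicit false
open Crest.Agent.Lib.PolyTime
open scoped Polynomial

namespace Crest.Agent.R316

open MvPolynomial Finset

variable {K K' : Type} [CommRing K] [CommRing K'] {n E κ : ℕ}

namespace SpecAux

theorem totalDegree_map_le (f : K →+* K') (Q : MvPolynomial (Fin n) K) :
    (map f Q).totalDegree ≤ Q.totalDegree :=
  Finset.sup_mono (support_map_subset f Q)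

theorem totalDegree_pderiv_lt (hE : 0 < E) {Q : MvPolynomial (Fin n) K}
    (hQ : Q.totalDegree ≤ E) (i : Fin n) : (pderiv i Q).totalDegree < E := by
  rw [totalDegree, Finset.sup_lt_iff (show (⊥ : ℕ) < E from hE)]
  intro m hm
  have h1 : m + Finsupp.single i 1 ∈ Q.support := by
    rw [mem_support_iff] at hm ⊢
    intro h
    rw [coeff_pderiv, h, zero_mul] at hm
    exact hm rfl
  have h2 := le_totalDegree h1
  rw [Finsupp.sum_add_index' (fun _ => rfl) (fun _ _ _ => rfl), Finsupp.sum_single_index rfl] at h2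
  omega

theorem map_uform (f : K →+* K') (a : ℕ) : map f (uform n K a) = uform n K' a := by
  simp [uform]

theorem map_map_C (f : K →+* K') (Q : MvPolynomial (Fin n) K) :
    map (Polynomial.mapRingHom f) (map Polynomial.C Q) = map Polynomial.C (map f Q) := by
  rw [MvPolynomial.map_map, MvPolynomial.map_map]
  congr 2
  ext r : 1
  simp

theorem map_eval_C (s : K) (Q : MvPolynomial (Fin n) K) :
    map (Polynomial.evalRingHom s) (map Polynomial.C Q) = Q := by
  rw [MvPolynomial.map_map]
  have : (Polynomial.evalRingHom s).comp Polynomial.C = RingHom.id K := by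
    ext r
    simp
  rw [this, MvPolynomial.map_id]

theorem totalDegree_aeval_le {σ : Type} (g : σ → MvPolynomial (Fin n) K)
    (hg : ∀ i, (g i).totalDegree ≤ 1) (Q : MvPolynomial σ ℤ) :
    (aeval g Q).totalDegree ≤ Q.totalDegree := by
  rw [aeval_def, eval₂_eq]
  refine totalDegree_finsetSum_le fun m hm => (totalDegree_mul _ _).trans ?_
  have h1 : (algebraMap ℤ (MvPolynomial (Fin n) K) (coeff m Q)).totalDegree = 0 := by
    rw [eq_intCast, ← map_intCast (C : K →+* MvPolynomial (Fin n) K), totalDegree_C]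
  rw [h1, zero_add]
  refine (totalDegree_finsetProd _ _).trans (le_trans ?_ (le_totalDegree hm))
  refine Finset.sum_le_sum fun i _ => (totalDegree_pow _ _).trans ?_
  exact (Nat.mul_le_mul_left _ (hg i)).trans (Nat.mul_one _).le

end SpecAux

theorem map_penG (f : K →+* K') (l : K) (Q : MvPolynomial (Fin n) K) (i : Fin n) :
    map f (penG l Q i) = penG (f l) (map f Q) i := by
  simp [penG, pderiv_map]

theorem map_penF (f : K →+* K') (l : K) (Q : MvPolynomial (Fin n) K) :
    map f (penF E l Q) = penF E (f l) (map f Q) := by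
  simp [penF]

theorem isPham_penG (hE : 0 < E) {Q : MvPolynomial (Fin n) K} (hQ : Q.totalDegree ≤ E) (l : K) :
    IsPham E (penG l Q) := by
  intro i
  rw [penG, totalDegree_neg]
  refine lt_of_le_of_lt (totalDegree_mul _ _) ?_
  rw [totalDegree_C, zero_add]
  exact SpecAux.totalDegree_pderiv_lt hE hQ i

theorem Params.map {Q : MvPolynomial (Fin n) K} (h : Params E κ Q) (f : K →+* K') :
    Params E κ (map f Q) :=
  ⟨h.odd, (SpecAux.totalDegree_map_le f Q).trans h.deg, h.big⟩

theorem Params.isPham_innG {Q : MvPolynomial (Fin n) K} (h : Params E κ Q) :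
    IsPham E (innG κ Q) :=
  isPham_penG h.odd.pos ((SpecAux.totalDegree_map_le _ Q).trans h.deg) _

theorem map_zeroPoly {G : Fin n → MvPolynomial (Fin n) K} (hG : IsPham E G) (f : K →+* K')
    (g : MvPolynomial (Fin n) K) :
    (zeroPoly E G g).map f = zeroPoly E (fun i => map f (G i)) (map f g) := by
  simp only [zeroPoly, map_chi, map_one, map_tr hG, map_pow]

theorem map_pairPoly {G : Fin n → MvPolynomial (Fin n) K} (hG : IsPham E G) (f : K →+* K')
    (a : ℕ) : (pairPoly E G a).map f = pairPoly E (fun i => map f (G i)) a := by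
  simp only [pairPoly, map_chi, map_one, map_sum, map_mul, map_natCast, map_tr hG, map_pow,
    map_neg, SpecAux.map_uform]

theorem zeroPoly_eq {G : Fin n → MvPolynomial (Fin n) ℂ} {ξ : Fin (E ^ n) → Fin n → ℂ}
    (hξ : Valid E G ξ) (g : MvPolynomial (Fin n) ℂ) :
    zeroPoly E G g = Polynomial.C (((E ^ n).factorial : ℂ) ^ (E ^ n + 1)) *
      ∏ j, (Polynomial.X + Polynomial.C (eval (ξ j) g)) := by
  rw [zeroPoly, chi_eq (fun j => eval (ξ j) g) (Fintype.card_fin _) 1, one_pow, mul_one]
  intro m _ _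
  rw [hξ, one_mul]
  simp only [map_pow]

theorem pairPoly_eq {G : Fin n → MvPolynomial (Fin n) ℂ} {ξ : Fin (E ^ n) → Fin n → ℂ}
    (hξ : Valid E G ξ) (a : ℕ) :
    pairPoly E G a = Polynomial.C (((E ^ n * E ^ n).factorial : ℂ) ^ (E ^ n * E ^ n + 1)) *
      ∏ jk : Fin (E ^ n) × Fin (E ^ n), (Polynomial.X + Polynomial.C
        (eval (ξ jk.1) (uform n ℂ a) - eval (ξ jk.2) (uform n ℂ a))) := by
  rw [pairPoly, chi_eq (fun jk : Fin (E ^ n) × Fin (E ^ n) =>
    eval (ξ jk.1) (uform n ℂ a) - eval (ξ jk.2) (uform n ℂ a)) (by simp) 1, one_pow, mul_one]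
  intro m _ _
  simp only [hξ _, map_pow, map_neg, one_mul, sub_eq_add_neg, add_pow, Fintype.sum_prod_type,
    Finset.sum_mul_sum]
  simp only [Finset.mul_sum]
  rw [Finset.sum_comm]
  refine Finset.sum_congr rfl fun j _ => ?_
  rw [Finset.sum_comm]
  refine Finset.sum_congr rfl fun k _ => Finset.sum_congr rfl fun i _ => ?_
  ring

theorem tailSq_eq_sum_range {f : K[X]} {B : ℕ} (hB : f.natDegree < B) (e : ℕ) :
    tailSq e f = ∑ j ∈ range B, if e ≤ j then f.coeff j ^ 2 else 0 :=
  Polynomial.sum_over_range' f (fun _ => by simp) B hB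

theorem map_tailSq (f : K →+* K') (e : ℕ) (U : K[X]) : f (tailSq e U) = tailSq e (U.map f) := by
  rw [tailSq_eq_sum_range (Nat.lt_succ_self U.natDegree),
    tailSq_eq_sum_range (Nat.lt_succ_of_le (Polynomial.natDegree_map_le (f := f) (p := U))),
    map_sum]
  refine Finset.sum_congr rfl fun j _ => ?_
  split_ifs <;> simp

theorem tailSq_nonneg (e : ℕ) (U : ℝ[X]) : 0 ≤ tailSq e U := by
  rw [tailSq_eq_sum_range (Nat.lt_succ_self U.natDegree)]
  refine Finset.sum_nonneg fun j _ => ?_
  split_ifs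
  · exact sq_nonneg _
  · exact le_rfl

theorem tailSq_eq_zero_iff (e : ℕ) (U : ℝ[X]) :
    tailSq e U = 0 ↔ ∀ j, e ≤ j → U.coeff j = 0 := by
  rw [tailSq_eq_sum_range (Nat.lt_succ_self U.natDegree), Finset.sum_eq_zero_iff_of_nonneg
    (fun j _ => by split_ifs; exacts [sq_nonneg _, le_rfl])]
  constructor
  · intro h j hj
    by_cases hd : j < U.natDegree + 1
    · have := h j (Finset.mem_range.2 hd)
      rw [if_pos hj] at this
      exact pow_eq_zero_iff two_ne_zero |>.1 this
    · exact Polynomial.coeff_eq_zero_of_natDegree_lt (by omega)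
  · intro h j _
    split_ifs with hj
    · rw [h j hj, zero_pow two_ne_zero]
    · rfl

theorem coeff_layer (t : ℕ) (W : K[X][X]) (j : ℕ) :
    (layer t W).coeff j = (W.coeff j).coeff t := by
  rw [layer, Polynomial.sum_def, Polynomial.finsetSum_coeff, Finset.sum_eq_single j]
  · simp
  · intro i _ hi
    rw [Polynomial.coeff_monomial, if_neg hi]
  · intro hj
    rw [Polynomial.notMem_support_iff.1 hj]
    simp

theorem map_cR {Q : MvPolynomial (Fin n) K} (h : Params E κ Q) (f : K →+* K') (a i : ℕ) :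
    (cR E κ Q a i).map f = cR E κ (map f Q) a i := by
  have h1 := congrArg (fun W => W.coeff i) (map_pairPoly h.isPham_innG (Polynomial.mapRingHom f) a)
  simp only [Polynomial.coeff_map, Polynomial.coe_mapRingHom, innG, map_penG, SpecAux.map_map_C,
    Polynomial.map_pow, Polynomial.map_X] at h1
  exact h1

theorem map_cZ {Q : MvPolynomial (Fin n) K} (h : Params E κ Q) (f : K →+* K') (i : ℕ) :
    (cZ E κ Q i).map f = cZ E κ (map f Q) i := by
  have h1 := congrArg (fun W => W.coeff i)
    (map_zeroPoly h.isPham_innG (Polynomial.mapRingHom f) (inng E κ Q))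
  simp only [Polynomial.coeff_map, Polynomial.coe_mapRingHom, innG, inng, map_penG, map_penF,
    map_sub, map_C, SpecAux.map_map_C, Polynomial.map_pow, Polynomial.map_X] at h1
  exact h1

theorem eval_cR {Q : MvPolynomial (Fin n) K} (h : Params E κ Q) (s : K) (a i : ℕ) :
    (cR E κ Q a i).eval s = (pairPoly E (penG (s ^ κ) Q) a).coeff i := by
  have h1 := congrArg (fun W => W.coeff i) (map_pairPoly h.isPham_innG (Polynomial.evalRingHom s) a)
  simp only [Polynomial.coeff_map, Polynomial.coe_evalRingHom, innG, map_penG, SpecAux.map_eval_C,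
    Polynomial.eval_pow, Polynomial.eval_X] at h1
  exact h1

theorem eval_cZ {Q : MvPolynomial (Fin n) K} (h : Params E κ Q) (s : K) (i : ℕ) :
    (cZ E κ Q i).eval s =
      (zeroPoly E (penG (s ^ κ) Q) (penF E (s ^ κ) Q - C s)).coeff i := by
  have h1 := congrArg (fun W => W.coeff i)
    (map_zeroPoly h.isPham_innG (Polynomial.evalRingHom s) (inng E κ Q))
  simp only [Polynomial.coeff_map, Polynomial.coe_evalRingHom, innG, inng, map_penG, map_penF,
    map_sub, map_C, SpecAux.map_eval_C, Polynomial.eval_pow, Polynomial.eval_X] at h1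
  exact h1

theorem map_cellEq {Q : MvPolynomial (Fin n) K} (h : Params E κ Q) (f : K →+* K') (d : Cell) :
    f (cellEq E κ Q d) = cellEq E κ (map f Q) d := by
  simp only [cellEq, map_add, map_sum, map_tailSq, map_cR h, map_cZ h]

theorem map_cellNe {Q : MvPolynomial (Fin n) K} (h : Params E κ Q) (f : K →+* K') (d : Cell) :
    f (cellNe E κ Q d) = cellNe E κ (map f Q) d := by
  simp only [cellNe, map_mul, ← Polynomial.coeff_map, map_cR h, map_cZ h]

theorem cellEq_nonneg (Q : MvPolynomial (Fin n) ℝ) (d : Cell) : 0 ≤ cellEq E κ Q d :=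
  add_nonneg (add_nonneg (add_nonneg
    (Finset.sum_nonneg fun _ _ => Finset.sum_nonneg fun _ _ => tailSq_nonneg _ _)
    (tailSq_nonneg _ _)) (Finset.sum_nonneg fun _ _ => tailSq_nonneg _ _)) (tailSq_nonneg _ _)

theorem map_Qx {r : ℕ} (f : K →+* K') (x : Fin r → K) (Q : MvPolynomial (Fin (r + n)) ℤ) :
    map f (Qx x Q) = Qx (fun i => f (x i)) Q := by
  rw [Qx, Qx, map_pow]
  congr 1
  have : (map f).comp (aeval (Fin.append (fun i => C (x i)) X) :
      MvPolynomial (Fin (r + n)) ℤ →ₐ[ℤ] MvPolynomial (Fin n) K).toRingHom =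
      (aeval (Fin.append (fun i => C (f (x i))) X) :
        MvPolynomial (Fin (r + n)) ℤ →ₐ[ℤ] MvPolynomial (Fin n) K').toRingHom := by
    refine MvPolynomial.ringHom_ext' (RingHom.ext_int _ _) fun i => ?_
    refine Fin.addCases (fun i => ?_) (fun i => ?_) i <;> simp
  exact DFunLike.congr_fun this Q

theorem eval_Qx {r : ℕ} (x : Fin r → K) (y : Fin n → K) (Q : MvPolynomial (Fin (r + n)) ℤ) :
    eval y (Qx x Q) = aeval (Fin.append x y) Q ^ 2 := by
  rw [Qx, map_pow]
  congr 1
  have : (eval y).comp (aeval (Fin.append (fun i => C (x i)) X) :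
      MvPolynomial (Fin (r + n)) ℤ →ₐ[ℤ] MvPolynomial (Fin n) K).toRingHom =
      (aeval (Fin.append x y) : MvPolynomial (Fin (r + n)) ℤ →ₐ[ℤ] K).toRingHom := by
    refine MvPolynomial.ringHom_ext' (RingHom.ext_int _ _) fun i => ?_
    refine Fin.addCases (fun i => ?_) (fun i => ?_) i <;> simp
  exact DFunLike.congr_fun this Q

theorem totalDegree_Qx_le {r : ℕ} (x : Fin r → K) (Q : MvPolynomial (Fin (r + n)) ℤ) :
    (Qx x Q).totalDegree ≤ 2 * Q.totalDegree := by
  refine (totalDegree_pow _ _).trans (Nat.mul_le_mul_left _ ?_)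
  refine SpecAux.totalDegree_aeval_le _ (fun i => ?_) Q
  refine Fin.addCases (fun i => ?_) (fun i => ?_) i
  · simp
  · rw [Fin.append_right]
    exact (totalDegree_monomial_le (R := K) (Finsupp.single i 1) 1).trans (by simp)

end Crest.Agent.R316
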