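import Crest.Agent.R316.GoodCoeff
import Crest.Agent.R316.Spec

/-! The algebraic constructions preserve good families. -/

set_option autoImplicit false
open Crest.Agent.Lib.PolyTime
open scoped Polynomial

namespace Crest.Agent.R316

variable {α : Type} [PEnc α] {P : Type} [PEnc P] {K : α → Type}
  [∀ a, CommRing (K a)] [∀ a, Nu (K a)] [∀ a, Ev P (K a)] {n E κ : α → ℕ}

namespace OpsAux

theorem poly_sig1 {φ : α → Type} [∀ a, PEnc (φ a)] : Poly fun x : Σ a, φ a => x.1 :=
  Poly.sigmaFst Poly.id'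

theorem poly_sig2 : Poly fun x : Σ a, Fin (n a) => (x.2 : ℕ) := Poly.sigmaFinVal Poly.id'

theorem poly_pair1 : Poly fun x : Σ a, Fin (n a) × Fin (n a) => (x.2.1 : ℕ) :=
  (Poly.sigmaSnd_enc Poly.id').left.of_enc fun _ => rfl

theorem poly_pair2 : Poly fun x : Σ a, Fin (n a) × Fin (n a) => (x.2.2 : ℕ) :=
  (Poly.sigmaSnd_enc Poly.id').right.of_enc fun _ => rfl

/-- Reindexing of a family indexed by `Σ a, Fin (n a)`. -/
theorem good_fin {β : Type} [PEnc β] {f : ∀ a, Fin (n a) → K a}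
    (hf : Good (K := fun x : Σ a, Fin (n a) => K x.1) fun x => f x.1 x.2) {φ : β → α}
    (hφ : Poly φ) {i : ∀ b, Fin (n (φ b))} (hi : Poly fun b => (i b : ℕ)) :
    Good (K := fun b => K (φ b)) fun b => f (φ b) (i b) :=
  hf.comp (poly_mkFin hφ hi)

/-- Reindexing of a family indexed by `α × ℕ`. -/
theorem good_nat {β γ : Type} [PEnc β] [PEnc γ] {f : ∀ a, γ → K a}
    (hf : Good (K := fun x : α × γ => K x.1) fun x => f x.1 x.2) {φ : β → α}
    (hφ : Poly φ) {i : β → γ} (hi : Poly i) :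
    Good (K := fun b => K (φ b)) fun b => f (φ b) (i b) :=
  hf.comp (hφ.pair hi)

theorem poly_fin {β γ : Type} [PEnc β] [PEnc γ] {f : ∀ a, Fin (n a) → γ}
    (hf : Poly fun x : Σ a, Fin (n a) => f x.1 x.2) {φ : β → α}
    (hφ : Poly φ) {i : ∀ b, Fin (n (φ b))} (hi : Poly fun b => (i b : ℕ)) :
    Poly fun b => f (φ b) (i b) :=
  hf.comp (poly_mkFin hφ hi)

/-- The entry `k i` on `Σ (x : Σ a, Fin (n a) → ℕ), Fin (n x.1)`. -/
theorem poly_entry :
    Poly fun y : Σ x : (Σ a, Fin (n a) → ℕ), Fin (n x.1) => y.1.2 y.2 :=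
  poly_appFun (g := fun y : Σ x : (Σ a, Fin (n a) → ℕ), Fin (n x.1) => y.1) poly_sig1 poly_sig2

theorem good_jac (hn : Poly n) (hb : PB n) (hE : Poly E)
    {G : ∀ a, Fin (n a) → MvPolynomial (Fin (n a)) (K a)}
    (hG : Good (K := fun x : Σ a, Fin (n a) => MvPolynomial (Fin (n x.1)) (K x.1))
      fun x => G x.1 x.2) :
    Good fun a => jac (E a) (G a) := by
  refine Good.det (K := fun a => MvPolynomial (Fin (n a)) (K a))
    (A := fun a => Matrix.of fun i j => MvPolynomial.pderiv j (MvPolynomial.X i ^ E a - G a i))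
    hn hb ?_
  refine Good.pderiv (K := fun x : Σ a, Fin (n a) × Fin (n a) => K x.1)
    (n := fun x : Σ a, Fin (n a) × Fin (n a) => n x.1)
    (f := fun x => MvPolynomial.X x.2.1 ^ E x.1 - G x.1 x.2.1) (i := fun x => x.2.2)
    (hn.comp poly_sig1) (hb.comp poly_sig1) ?_ poly_pair2
  exact ((Good.mvX poly_pair1).pow (hE.comp poly_sig1)).sub
    (good_fin (K := fun a => MvPolynomial (Fin (n a)) (K a)) hG poly_sig1 poly_pair1)

end OpsAux

open OpsAux

theorem Good.tr (hn : Poly n) (hb : PB n) (hE : Poly E)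
    {G : ∀ a, Fin (n a) → MvPolynomial (Fin (n a)) (K a)}
    (hG : Good (K := fun x : Σ a, Fin (n a) => MvPolynomial (Fin (n x.1)) (K x.1))
      fun x => G x.1 x.2)
    (hP : ∀ a, IsPham (E a) (G a)) {h : ∀ a, MvPolynomial (Fin (n a)) (K a)} (hh : Good h) :
    Good fun a => tr (E a) (G a) (h a) := by
  obtain ⟨B, hB, hlt⟩ := hh.eb_totalDegree.exists_poly
  refine Good.congr (f := fun a => trB (E a) (B a) (G a) (h a)) ?_
    fun a => trB_eq_tr (hP a) (hlt a)
  refine Good.sum_box (f := fun a k => MvPolynomial.coeff (ex fun i => E a * (k i + 1) - 1)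
    (h a * jac (E a) (G a) * ∏ i, G a i ^ k i)) hn hb hB ?_
  refine Good.mvCoeff (K := fun x : Σ a, Fin (n a) → ℕ => K x.1)
    (n := fun x : Σ a, Fin (n a) → ℕ => n x.1)
    (f := fun x => h x.1 * jac (E x.1) (G x.1) * ∏ i, G x.1 i ^ x.2 i)
    (k := fun x i => E x.1 * (x.2 i + 1) - 1)
    (hn.comp poly_sig1) (hb.comp poly_sig1) ?_ ?_
  · refine ((hh.mul (good_jac hn hb hE hG)).comp poly_sig1).mul ?_
    refine Good.prod_fin (K := fun x : Σ a, Fin (n a) → ℕ => MvPolynomial (Fin (n x.1)) (K x.1))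
      (n := fun x : Σ a, Fin (n a) → ℕ => n x.1) (f := fun x i => G x.1 i ^ x.2 i)
      (hn.comp poly_sig1) ?_
    exact (good_fin (K := fun a => MvPolynomial (Fin (n a)) (K a)) hG
      (poly_sig1.comp poly_sig1) poly_sig2).pow poly_entry
  · exact ((hE.comp (poly_sig1.comp poly_sig1)).mul (poly_entry.add (.const 1))).sub (.const 1)

namespace OpsAux

theorem good_newtonS {m : α → ℕ} (hm : Poly m) {S : ∀ a, ℕ → K a}
    (hS : Good (K := fun x : α × ℕ => K x.1) fun x => S x.1 x.2) :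
    Good fun a => newtonS (m a) (S a) := by
  refine Good.sum_range (K := fun a => (K a)[X]) (f := fun a i =>
    Polynomial.C ((-1) ^ i * (∏ t ∈ Finset.range (m a), if t = i then 1 else ((t + 1 : ℕ) : K a)) *
      S a (i + 1)) * Polynomial.X ^ (i + 1)) hm ?_
  refine Good.mul (Good.polyC (K := fun x : α × ℕ => K x.1) ((Good.mul ?_ ?_).mul ?_))
    (Good.polyX.pow (by fun_prop))
  · exact Good.one.neg.pow (by fun_prop)
  · refine Good.prod_range (K := fun x : α × ℕ => K x.1)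
      (f := fun x t => if t = x.2 then 1 else ((t + 1 : ℕ) : K x.1)) (by fun_prop) ?_
    exact Good.ite (by fun_prop) Good.one (Good.natCast (by fun_prop))
  · exact good_nat hS (by fun_prop) (by fun_prop)

theorem good_newton {m j : α → ℕ} (hm : Poly m) (hj : Poly j) {A : ∀ a, K a} (hA : Good A)
    {S : ∀ a, ℕ → K a} (hS : Good (K := fun x : α × ℕ => K x.1) fun x => S x.1 x.2) :
    Good fun a => newton (m a) (A a) (S a) (j a) := by
  refine Good.sum_range (f := fun a l =>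
    ((∏ t ∈ Finset.range (m a), if l ≤ t then ((t + 1 : ℕ) : K a) else 1) *
    ((((m a).factorial : ℕ) : K a) * A a) ^ (m a - l)) * (newtonS (m a) (S a) ^ l).coeff (j a))
    (by fun_prop) ?_
  refine (Good.mul ?_ ?_).mul ?_
  · refine Good.prod_range (K := fun x : α × ℕ => K x.1)
      (f := fun x t => if x.2 ≤ t then ((t + 1 : ℕ) : K x.1) else 1) (by fun_prop) ?_
    exact Good.ite (by fun_prop) (Good.natCast (by fun_prop)) Good.one
  · exact (((Good.factorial hm).mul hA).comp (Poly.fst Poly.id')).pow (by fun_prop)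
  · exact Good.polyCoeff (K := fun x : α × ℕ => K x.1)
      (((good_newtonS hm hS).comp (Poly.fst Poly.id')).pow (Poly.snd Poly.id')) (by fun_prop)

end OpsAux

theorem Good.chi {m : α → ℕ} (hm : Poly m) {A : ∀ a, K a} (hA : Good A) {S : ∀ a, ℕ → K a}
    (hS : Good (K := fun x : α × ℕ => K x.1) fun x => S x.1 x.2) :
    Good fun a => chi (m a) (A a) (S a) := by
  refine Good.sum_range (K := fun a => (K a)[X]) (f := fun a i =>
    Polynomial.C (newton (m a) (A a) (S a) (m a - i)) * Polynomial.X ^ i) (by fun_prop) ?_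
  refine Good.mul (Good.polyC (K := fun x : α × ℕ => K x.1) ?_) (Good.polyX.pow (by fun_prop))
  exact good_newton (K := fun x : α × ℕ => K x.1) (m := fun x => m x.1) (S := fun x => S x.1)
    (by fun_prop) (by fun_prop) (hA.comp (Poly.fst Poly.id'))
    (good_nat hS (by fun_prop) (by fun_prop))


theorem Good.psum {D m : α → ℕ} (hD : Poly D) (hm : Poly m) {U : ∀ a, (K a)[X]} (hU : Good U) :
    Good fun a => psum (D a) (U a) (m a) := by
  have hc : Good (K := fun x : α × ℕ => K x.1) fun x =>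
      (U x.1).coeff (D x.1 - (x.2 + 1)) * (U x.1).coeff (D x.1) ^ x.2 :=
    (Good.polyCoeff (K := fun x : α × ℕ => K x.1) (hU.comp (Poly.fst Poly.id'))
      (by fun_prop)).mul (((hU.polyCoeff hD).comp (Poly.fst Poly.id')).pow (by fun_prop))
  have hH : Good fun a => revH (D a) (U a) := by
    refine Good.neg (Good.sum_range (K := fun a => (K a)[X]) (f := fun a j =>
      Polynomial.C ((U a).coeff (D a - (j + 1)) * (U a).coeff (D a) ^ j) *
        Polynomial.X ^ (j + 1)) hD ?_)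
    exact Good.mul (Good.polyC (K := fun x : α × ℕ => K x.1) hc) (Good.polyX.pow (by fun_prop))
  have hN : Good fun a => revN (D a) (U a) := by
    refine Good.add (Good.polyC (Good.natCast hD)) (Good.sum_range (K := fun a => (K a)[X])
      (f := fun a j => Polynomial.C (((D a - (j + 1) : ℕ) : K a) *
        ((U a).coeff (D a - (j + 1)) * (U a).coeff (D a) ^ j)) * Polynomial.X ^ (j + 1)) hD ?_)
    exact Good.mul (Good.polyC (K := fun x : α × ℕ => K x.1) ((Good.natCast (by fun_prop)).mul hc))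
      (Good.polyX.pow (by fun_prop))
  refine Good.sum_range (f := fun a k => (revN (D a) (U a) * revH (D a) (U a) ^ k).coeff (m a))
    (by fun_prop) ?_
  exact Good.polyCoeff (K := fun x : α × ℕ => K x.1)
    ((hN.comp (Poly.fst Poly.id')).mul ((hH.comp (Poly.fst Poly.id')).pow (Poly.snd Poly.id')))
    (by fun_prop)

theorem Good.tupTr (hn : Poly n) (hb : PB n) {e : α → ℕ} (he : Poly e)
    {D : ∀ a, Fin (n a) → ℕ} (hD : Poly fun x : Σ a, Fin (n a) => D x.1 x.2)
    {U : ∀ a, Fin (n a) → (K a)[X]}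
    (hU : Good (K := fun x : Σ a, Fin (n a) => (K x.1)[X]) fun x => U x.1 x.2)
    {h : ∀ a, MvPolynomial (Fin (n a)) (K a)} (hh : Good h) :
    Good fun a => tupTr (e a) (D a) (U a) (h a) := by
  refine Good.sum_box (f := fun a k => MvPolynomial.coeff (ex k) (h a) *
    ∏ i, ((U a i).coeff (D a i) ^ (e a - k i) * Crest.Agent.R316.psum (D a i) (U a i) (k i)))
    hn hb (B := fun a => e a + 1) (by fun_prop) ?_
  refine Good.mul ?_ ?_
  · exact Good.mvCoeff (K := fun x : Σ a, Fin (n a) → ℕ => K x.1)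
      (n := fun x : Σ a, Fin (n a) → ℕ => n x.1) (f := fun x => h x.1) (k := fun x => x.2)
      (hn.comp poly_sig1) (hb.comp poly_sig1) (hh.comp poly_sig1) poly_entry
  · refine Good.prod_fin (K := fun x : Σ a, Fin (n a) → ℕ => K x.1)
      (n := fun x : Σ a, Fin (n a) → ℕ => n x.1)
      (f := fun x i => (U x.1 i).coeff (D x.1 i) ^ (e x.1 - x.2 i) *
        Crest.Agent.R316.psum (D x.1 i) (U x.1 i) (x.2 i)) (hn.comp poly_sig1) ?_
    have hU' := good_fin (K := fun a => (K a)[X]) hU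
      (β := Σ x : (Σ a, Fin (n a) → ℕ), Fin (n x.1)) (poly_sig1.comp poly_sig1) poly_sig2
    have hD' := poly_fin hD
      (β := Σ x : (Σ a, Fin (n a) → ℕ), Fin (n x.1)) (poly_sig1.comp poly_sig1) poly_sig2
    exact ((hU'.polyCoeff hD').pow ((he.comp (poly_sig1.comp poly_sig1)).sub poly_entry)).mul
      (Good.psum hD' poly_entry hU')

theorem Good.layer {t : α → ℕ} (ht : Poly t) {W : ∀ a, (K a)[X][X]} (hW : Good W) :
    Good fun a => layer (t a) (W a) := by
  obtain ⟨B, hB, hlt⟩ := hW.eb_natDegree.exists_poly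
  refine Good.congr (f := fun a => ∑ j ∈ Finset.range (B a),
    Polynomial.C (((W a).coeff j).coeff (t a)) * Polynomial.X ^ j) ?_ fun a => ?_
  · refine Good.sum_range (K := fun a => (K a)[X]) (f := fun a j =>
      Polynomial.C (((W a).coeff j).coeff (t a)) * Polynomial.X ^ j) hB ?_
    refine Good.mul (Good.polyC (K := fun x : α × ℕ => K x.1) ?_) (Good.polyX.pow (by fun_prop))
    exact Good.polyCoeff (K := fun x : α × ℕ => K x.1)
      (Good.polyCoeff (K := fun x : α × ℕ => (K x.1)[X]) (hW.comp (Poly.fst Poly.id'))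
        (Poly.snd Poly.id')) (by fun_prop)
  · ext j
    rw [coeff_layer, Polynomial.finsetSum_coeff]
    simp only [Polynomial.coeff_C_mul_X_pow]
    rw [Finset.sum_ite_eq]
    split_ifs with hj
    · rfl
    · rw [Polynomial.coeff_eq_zero_of_natDegree_lt ((hlt a).trans_le (by simpa using hj))]
      simp

theorem Good.tailSq {e : α → ℕ} (he : Poly e) {U : ∀ a, (K a)[X]} (hU : Good U) :
    Good fun a => tailSq (e a) (U a) := by
  obtain ⟨B, hB, hlt⟩ := hU.eb_natDegree.exists_poly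
  refine Good.congr (f := fun a => ∑ j ∈ Finset.range (B a),
    if e a ≤ j then (U a).coeff j ^ 2 else 0) ?_ fun a => (tailSq_eq_sum_range (hlt a) _).symm
  refine Good.sum_range (f := fun a j => if e a ≤ j then (U a).coeff j ^ 2 else 0) hB ?_
  exact Good.ite (by fun_prop) ((Good.polyCoeff (K := fun x : α × ℕ => K x.1)
    (hU.comp (Poly.fst Poly.id')) (Poly.snd Poly.id')).pow (.const 2)) Good.zero

theorem Good.penG (hn : Poly n) (hb : PB n) {l : ∀ a, K a} (hl : Good l)
    {Q : ∀ a, MvPolynomial (Fin (n a)) (K a)} (hQ : Good Q) :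
    Good (K := fun x : Σ a, Fin (n a) => MvPolynomial (Fin (n x.1)) (K x.1))
      fun x => penG (l x.1) (Q x.1) x.2 :=
  ((Good.mvC (K := fun x : Σ a, Fin (n a) => K x.1) (hl.comp poly_sig1)).mul
    (Good.pderiv (K := fun x : Σ a, Fin (n a) => K x.1) (n := fun x : Σ a, Fin (n a) => n x.1)
      (hn.comp poly_sig1) (hb.comp poly_sig1) (hQ.comp poly_sig1) poly_sig2)).neg

theorem Good.penF (hn : Poly n) (hE : Poly E) {l : ∀ a, K a} (hl : Good l)
    {Q : ∀ a, MvPolynomial (Fin (n a)) (K a)} (hQ : Good Q) :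
    Good fun a => penF (E a) (l a) (Q a) := by
  refine Good.add ?_ ((Good.mvC ((Good.natCast (hE.add (.const 1))).mul hl)).mul hQ)
  refine Good.sum_fin (K := fun a => MvPolynomial (Fin (n a)) (K a))
    (f := fun a i => MvPolynomial.X i ^ (E a + 1)) hn ?_
  exact (Good.mvX (K := fun x : Σ a, Fin (n a) => K x.1) (n := fun x : Σ a, Fin (n a) => n x.1)
    poly_sig2).pow ((hE.comp poly_sig1).add (.const 1))

namespace OpsAux

/-- `tr` of a family indexed by a larger type. -/
theorem good_tr' (hn : Poly n) (hb : PB n) (hE : Poly E)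
    {G : ∀ a, Fin (n a) → MvPolynomial (Fin (n a)) (K a)}
    (hG : Good (K := fun x : Σ a, Fin (n a) => MvPolynomial (Fin (n x.1)) (K x.1))
      fun x => G x.1 x.2)
    (hP : ∀ a, IsPham (E a) (G a)) {β : Type} [PEnc β] {φ : β → α} (hφ : Poly φ)
    {h : ∀ b, MvPolynomial (Fin (n (φ b))) (K (φ b))} (hh : Good h) :
    Good (K := fun b => K (φ b)) fun b => tr (E (φ b)) (G (φ b)) (h b) :=
  Good.tr (K := fun b => K (φ b)) (n := fun b => n (φ b)) (G := fun b => G (φ b)) (hn.comp hφ)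
    (hb.comp hφ) (hE.comp hφ)
    (good_fin (K := fun a => MvPolynomial (Fin (n a)) (K a)) hG (hφ.comp poly_sig1) poly_sig2)
    (fun b => hP (φ b)) hh

theorem good_uform (hn : Poly n) {u : α → ℕ} (hu : Poly u) :
    Good fun a => uform (n a) (K a) (u a) := by
  refine Good.sum_fin (K := fun a => MvPolynomial (Fin (n a)) (K a))
    (f := fun a i => MvPolynomial.C ((u a : K a) ^ (i : ℕ)) * MvPolynomial.X i) hn ?_
  exact (Good.mvC (K := fun x : Σ a, Fin (n a) => K x.1)
    ((Good.natCast (hu.comp poly_sig1)).pow poly_sig2)).mul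
    (Good.mvX (K := fun x : Σ a, Fin (n a) => K x.1) (n := fun x : Σ a, Fin (n a) => n x.1)
      poly_sig2)

end OpsAux

theorem Good.zeroPoly (hn : Poly n) (hb : PB n) (hE : Poly E)
    {G : ∀ a, Fin (n a) → MvPolynomial (Fin (n a)) (K a)}
    (hG : Good (K := fun x : Σ a, Fin (n a) => MvPolynomial (Fin (n x.1)) (K x.1))
      fun x => G x.1 x.2)
    (hP : ∀ a, IsPham (E a) (G a)) {g : ∀ a, MvPolynomial (Fin (n a)) (K a)} (hg : Good g) :
    Good fun a => zeroPoly (E a) (G a) (g a) :=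
  Good.chi (S := fun a m => Crest.Agent.R316.tr (E a) (G a) (g a ^ m)) (hE.pow hn hb) Good.one
    (good_tr' hn hb hE hG hP (β := α × ℕ) (Poly.fst Poly.id')
      ((hg.comp (Poly.fst Poly.id')).pow (Poly.snd Poly.id')))

theorem Good.pairPoly (hn : Poly n) (hb : PB n) (hE : Poly E)
    {G : ∀ a, Fin (n a) → MvPolynomial (Fin (n a)) (K a)}
    (hG : Good (K := fun x : Σ a, Fin (n a) => MvPolynomial (Fin (n x.1)) (K x.1))
      fun x => G x.1 x.2)
    (hP : ∀ a, IsPham (E a) (G a)) {u : α → ℕ} (hu : Poly u) :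
    Good fun a => pairPoly (E a) (G a) (u a) := by
  refine Good.chi (S := fun a m => ∑ i ∈ Finset.range (m + 1), ((m.choose i : ℕ) : K a) *
    (Crest.Agent.R316.tr (E a) (G a) (uform (n a) (K a) (u a) ^ i) *
      Crest.Agent.R316.tr (E a) (G a) ((-uform (n a) (K a) (u a)) ^ (m - i))))
    ((hE.pow hn hb).mul (hE.pow hn hb)) Good.one ?_
  refine Good.sum_range (K := fun x : α × ℕ => K x.1) (f := fun x i =>
    ((x.2.choose i : ℕ) : K x.1) *
    (Crest.Agent.R316.tr (E x.1) (G x.1) (uform (n x.1) (K x.1) (u x.1) ^ i) *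
      Crest.Agent.R316.tr (E x.1) (G x.1) ((-uform (n x.1) (K x.1) (u x.1)) ^ (x.2 - i))))
    (by fun_prop) ?_
  have hφ : Poly fun y : (α × ℕ) × ℕ => y.1.1 := by fun_prop
  have hu' := (good_uform (K := K) hn hu).comp hφ
  exact (Good.choose (by fun_prop) (by fun_prop)).mul
    ((good_tr' hn hb hE hG hP hφ (hu'.pow (by fun_prop))).mul
      (good_tr' hn hb hE hG hP hφ (hu'.neg.pow (by fun_prop))))

namespace OpsAux

theorem good_innG (hn : Poly n) (hb : PB n) (hκ : Poly κ)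
    {Q : ∀ a, MvPolynomial (Fin (n a)) (K a)} (hQ : Good Q) :
    Good (K := fun x : Σ a, Fin (n a) => MvPolynomial (Fin (n x.1)) (K x.1)[X])
      fun x => innG (κ x.1) (Q x.1) x.2 :=
  Good.penG (K := fun a => (K a)[X]) (l := fun a => Polynomial.X ^ κ a)
    (Q := fun a => MvPolynomial.map Polynomial.C (Q a)) hn hb (Good.polyX.pow hκ) hQ.mapC

theorem good_inng (hn : Poly n) (hE : Poly E) (hκ : Poly κ)
    {Q : ∀ a, MvPolynomial (Fin (n a)) (K a)} (hQ : Good Q) :
    Good fun a => inng (E a) (κ a) (Q a) :=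
  (Good.penF (K := fun a => (K a)[X]) hn hE (Good.polyX.pow hκ) hQ.mapC).sub (Good.mvC Good.polyX)

end OpsAux

theorem Good.cR (hn : Poly n) (hb : PB n) (hE : Poly E) (hκ : Poly κ)
    {Q : ∀ a, MvPolynomial (Fin (n a)) (K a)} (hQ : Good Q) (hp : ∀ a, Params (E a) (κ a) (Q a))
    {u i : α → ℕ} (hu : Poly u) (hi : Poly i) :
    Good fun a => cR (E a) (κ a) (Q a) (u a) (i a) :=
  (Good.pairPoly (K := fun a => (K a)[X]) (G := fun a => innG (κ a) (Q a)) hn hb hE
    (good_innG hn hb hκ hQ) (fun a => (hp a).isPham_innG) hu).polyCoeff hi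

theorem Good.cZ (hn : Poly n) (hb : PB n) (hE : Poly E) (hκ : Poly κ)
    {Q : ∀ a, MvPolynomial (Fin (n a)) (K a)} (hQ : Good Q) (hp : ∀ a, Params (E a) (κ a) (Q a))
    {i : α → ℕ} (hi : Poly i) : Good fun a => cZ (E a) (κ a) (Q a) (i a) :=
  (Good.zeroPoly (K := fun a => (K a)[X]) (G := fun a => innG (κ a) (Q a)) hn hb hE
    (good_innG hn hb hκ hQ) (fun a => (hp a).isPham_innG) (good_inng hn hE hκ hQ)).polyCoeff hi

theorem Good.cellEq (hn : Poly n) (hb : PB n) (hE : Poly E) (hκ : Poly κ)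
    {Q : ∀ a, MvPolynomial (Fin (n a)) (K a)} (hQ : Good Q) (hp : ∀ a, Params (E a) (κ a) (Q a))
    {d : α → Cell} (hd : Poly d) : Good fun a => cellEq (E a) (κ a) (Q a) (d a) := by
  refine ((Good.add ?_ ?_).add ?_).add ?_
  · refine Good.sum_range (f := fun a u => ∑ i ∈ Finset.range (d a).1,
      Crest.Agent.R316.tailSq 0 (Crest.Agent.R316.cR (E a) (κ a) (Q a) u i))
      (n := fun a => gridB (E a) (n a))
      ((((hE.pow hn hb).mul (hE.pow hn hb)).mul hn).add (.const 1)) ?_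
    refine Good.sum_range (K := fun x : α × ℕ => K x.1) (f := fun x i =>
      Crest.Agent.R316.tailSq 0 (Crest.Agent.R316.cR (E x.1) (κ x.1) (Q x.1) x.2 i))
      (by fun_prop) ?_
    have hφ : Poly fun y : (α × ℕ) × ℕ => y.1.1 := by fun_prop
    exact Good.tailSq (K := fun y : (α × ℕ) × ℕ => K y.1.1) (.const 0)
      (Good.cR (K := fun y : (α × ℕ) × ℕ => K y.1.1) (n := fun y : (α × ℕ) × ℕ => n y.1.1)
        (hn.comp hφ) (hb.comp hφ) (hE.comp hφ) (hκ.comp hφ) (hQ.comp hφ) (fun y => hp y.1.1)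
        (by fun_prop) (by fun_prop))
  · exact Good.tailSq (by fun_prop) (Good.cR hn hb hE hκ hQ hp (by fun_prop) (by fun_prop))
  · refine Good.sum_range (f := fun a i =>
      Crest.Agent.R316.tailSq 0 (Crest.Agent.R316.cZ (E a) (κ a) (Q a) i)) (by fun_prop) ?_
    have hφ : Poly fun y : α × ℕ => y.1 := by fun_prop
    exact Good.tailSq (K := fun y : α × ℕ => K y.1) (.const 0)
      (Good.cZ (K := fun y : α × ℕ => K y.1) (n := fun y : α × ℕ => n y.1)
        (hn.comp hφ) (hb.comp hφ) (hE.comp hφ) (hκ.comp hφ) (hQ.comp hφ) (fun y => hp y.1)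
        (by fun_prop))
  · exact Good.tailSq (by fun_prop) (Good.cZ hn hb hE hκ hQ hp (by fun_prop))

theorem Good.cellNe (hn : Poly n) (hb : PB n) (hE : Poly E) (hκ : Poly κ)
    {Q : ∀ a, MvPolynomial (Fin (n a)) (K a)} (hQ : Good Q) (hp : ∀ a, Params (E a) (κ a) (Q a))
    {d : α → Cell} (hd : Poly d) : Good fun a => cellNe (E a) (κ a) (Q a) (d a) :=
  ((Good.cR hn hb hE hκ hQ hp hd.snd.fst hd.fst).polyCoeff hd.snd.snd.fst).mul
    ((Good.cZ hn hb hE hκ hQ hp hd.snd.snd.snd.fst).polyCoeff hd.snd.snd.snd.snd)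

theorem Good.candW (hn : Poly n) (hb : PB n) (hE : Poly E)
    {Q : ∀ a, MvPolynomial (Fin (n a)) (K a)} (hQ : Good Q) (hE0 : ∀ a, 0 < E a)
    (hdeg : ∀ a, (Q a).totalDegree ≤ E a) :
    Good (K := fun x : Σ a, Fin (n a) => (K x.1)[X][X]) fun x => candW (E x.1) (Q x.1) x.2 := by
  refine Good.zeroPoly (K := fun x : Σ a, Fin (n a) => (K x.1)[X])
    (n := fun x : Σ a, Fin (n a) => n x.1) (G := fun x => Crest.Agent.R316.penG Polynomial.X
      (MvPolynomial.map Polynomial.C (Q x.1))) (hn.comp poly_sig1) (hb.comp poly_sig1)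
    (hE.comp poly_sig1) ?_ (fun x => ?_) (Good.mvX poly_sig2).neg
  · exact Good.penG (K := fun x : Σ a, Fin (n a) => (K x.1)[X])
      (n := fun x : Σ a, Fin (n a) => n x.1) (l := fun _ => Polynomial.X)
      (Q := fun x => MvPolynomial.map Polynomial.C (Q x.1))
      (hn.comp poly_sig1) (hb.comp poly_sig1) Good.polyX (hQ.mapC.comp poly_sig1)
  · exact isPham_penG (hE0 x.1) ((Finset.sup_mono (MvPolynomial.support_map_subset _ _)).trans (hdeg x.1)) _


theorem Good.Qx {r : α → ℕ} (hr : Poly r) (hrb : PB r) (hn : Poly n) (hb : PB n)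
    {x : ∀ a, Fin (r a) → K a}
    (hx : Good (K := fun y : Σ a, Fin (r a) => K y.1) fun y => x y.1 y.2)
    {Q : ∀ a, MvPolynomial (Fin (r a + n a)) ℤ} (hQ : Good Q) :
    Good fun a => Qx (x a) (Q a) := by
  refine Good.pow (Good.mvAeval (K := fun a => MvPolynomial (Fin (n a)) (K a))
    (n := fun a => r a + n a)
    (g := fun a => Fin.append (fun i => MvPolynomial.C (x a i)) MvPolynomial.X)
    (hr.add hn) (hrb.add hb) hQ ?_) (.const 2)
  refine Good.congr (K := fun y : Σ a, Fin (r a + n a) => MvPolynomial (Fin (n y.1)) (K y.1))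
    (f := fun y => if h : (y.2 : ℕ) < r y.1 then MvPolynomial.C (x y.1 ⟨y.2, h⟩) else
      MvPolynomial.X ⟨y.2 - r y.1, by have := y.2.2; omega⟩) ?_ fun y => ?_
  · refine Good.dite (K := fun y : Σ a, Fin (r a + n a) => MvPolynomial (Fin (n y.1)) (K y.1))
      (p := fun y => (y.2 : ℕ) < r y.1) (f := fun y h => MvPolynomial.C (x y.1 ⟨y.2, h⟩))
      (g := fun y h => MvPolynomial.X ⟨y.2 - r y.1, by have := y.2.2; omega⟩)
      (Poly.decide_lt poly_sig2 (hr.comp poly_sig1)) ?_ ?_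
    · exact Good.mvC (K := fun y : {y : Σ a, Fin (r a + n a) // (y.2 : ℕ) < r y.1} => K y.1.1)
        (good_fin hx (φ := fun y : {y : Σ a, Fin (r a + n a) // (y.2 : ℕ) < r y.1} => y.1.1)
          (poly_sig1.restrict _) (i := fun y => ⟨y.1.2, y.2⟩)
          ((poly_sig2 (n := fun a => r a + n a)).restrict _))
    · exact Good.mvX (K := fun y : {y : Σ a, Fin (r a + n a) // ¬(y.2 : ℕ) < r y.1} => K y.1.1)
        (n := fun y : {y : Σ a, Fin (r a + n a) // ¬(y.2 : ℕ) < r y.1} => n y.1.1)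
        ((poly_sig2.sub (hr.comp poly_sig1)).restrict _)
  · obtain ⟨a, i⟩ := y
    refine Fin.addCases (fun i => ?_) (fun i => ?_) i
    · simp
    · simp

namespace OpsAux

theorem good_nwP {L m : α → ℕ} (hL : Poly L) (hm : Poly m) {y : ∀ a, K a} (hy : Good y) :
    Good fun a => nwP (L a) (m a) (y a) := by
  refine Good.pow (Good.prod_range (f := fun a k => 2 ^ L a * y a + 2 ^ k)
    (n := fun a => 2 * L a + 1) (by fun_prop) ?_) (n := fun a => 2 * m a) (by fun_prop)
  exact ((((Good.ofNat 2).pow hL).mul hy).comp (Poly.fst Poly.id')).add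
    ((Good.ofNat 2).pow (Poly.snd Poly.id'))

theorem good_nwNum {L m : α → ℕ} (hL : Poly L) (hm : Poly m) {y : ∀ a, K a} (hy : Good y) :
    Good fun a => nwNum (L a) (m a) (y a) :=
  (good_nwP hL hm hy).sub (good_nwP hL hm hy.neg)

theorem good_nwDen {L m : α → ℕ} (hL : Poly L) (hm : Poly m) {y : ∀ a, K a} (hy : Good y) :
    Good fun a => nwDen (L a) (m a) (y a) :=
  (good_nwP hL hm hy).add (good_nwP hL hm hy.neg)

theorem good_condDen {L m nt : α → ℕ} (hL : Poly L) (hm : Poly m) (hnt : Poly nt)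
    {y : ∀ a, ℕ → K a} (hy : Good (K := fun x : α × ℕ => K x.1) fun x => y x.1 x.2) :
    Good fun a => condDen (L a) (m a) (nt a) (y a) :=
  Good.prod_range (f := fun a k => nwDen (L a) (m a) (y a k)) hnt
    (good_nwDen (K := fun x : α × ℕ => K x.1) (hL.comp (Poly.fst Poly.id'))
      (hm.comp (Poly.fst Poly.id')) hy)

theorem good_condNum {L m nt : α → ℕ} (hL : Poly L) (hm : Poly m) (hnt : Poly nt)
    {y w : ∀ a, ℕ → K a} {c : ∀ a, K a}
    (hy : Good (K := fun x : α × ℕ => K x.1) fun x => y x.1 x.2)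
    (hw : Good (K := fun x : α × ℕ => K x.1) fun x => w x.1 x.2) (hc : Good c) :
    Good fun a => condNum (L a) (m a) (nt a) (y a) (w a) (c a) := by
  refine Good.sub ?_ (hc.mul (good_condDen hL hm hnt hy))
  refine Good.sum_range (f := fun a k => w a k * nwNum (L a) (m a) (y a k) *
    (∏ k' ∈ Finset.range (nt a), if k' = k then 1 else nwDen (L a) (m a) (y a k'))) hnt ?_
  refine (hw.mul (good_nwNum (K := fun x : α × ℕ => K x.1) (hL.comp (Poly.fst Poly.id'))
      (hm.comp (Poly.fst Poly.id')) hy)).mul ?_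
  refine Good.prod_range (K := fun x : α × ℕ => K x.1) (f := fun x k' =>
    if k' = x.2 then 1 else nwDen (L x.1) (m x.1) (y x.1 k')) (hnt.comp (Poly.fst Poly.id')) ?_
  have hφ : Poly fun y : (α × ℕ) × ℕ => y.1.1 := by fun_prop
  exact Good.ite (by fun_prop) Good.one (good_nwDen (K := fun y : (α × ℕ) × ℕ => K y.1.1)
    (hL.comp hφ) (hm.comp hφ) (good_nat hy hφ (Poly.snd Poly.id')))

theorem good_nat2 {β : Type} [PEnc β] {f : ∀ a, ℕ → ℕ → K a}
    (hf : Good (K := fun x : α × ℕ × ℕ => K x.1) fun x => f x.1 x.2.1 x.2.2) {φ : β → α}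
    (hφ : Poly φ) {i j : β → ℕ} (hi : Poly i) (hj : Poly j) :
    Good (K := fun b => K (φ b)) fun b => f (φ b) (i b) (j b) :=
  hf.comp (hφ.pair (hi.pair hj))

end OpsAux

theorem Good.condPoly {L m nc nt : α → ℕ} (hL : Poly L) (hm : Poly m) (hnc : Poly nc)
    (hnt : Poly nt) {y w : ∀ a, ℕ → ℕ → K a} {c : ∀ a, ℕ → K a}
    (hy : Good (K := fun x : α × ℕ × ℕ => K x.1) fun x => y x.1 x.2.1 x.2.2)
    (hw : Good (K := fun x : α × ℕ × ℕ => K x.1) fun x => w x.1 x.2.1 x.2.2)
    (hc : Good (K := fun x : α × ℕ => K x.1) fun x => c x.1 x.2) :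
    Good fun a => condPoly (L a) (m a) (nc a) (nt a) (y a) (w a) (c a) := by
  have h1 : Poly fun x : α × ℕ => x.1 := by fun_prop
  have hφ : Poly fun y : (α × ℕ) × ℕ => y.1.1 := by fun_prop
  have hy' := good_nat2 hy hφ (i := fun y => y.1.2) (j := fun y => y.2) (by fun_prop) (by fun_prop)
  have hw' := good_nat2 hw hφ (i := fun y => y.1.2) (j := fun y => y.2) (by fun_prop) (by fun_prop)
  have hD : Good (K := fun x : α × ℕ => K x.1) fun x =>
      condDen (L x.1) (m x.1) (nt x.1) (y x.1 x.2) ^ 2 :=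
    (good_condDen (K := fun x : α × ℕ => K x.1) (y := fun x => y x.1 x.2) (hL.comp h1)
      (hm.comp h1) (hnt.comp h1) hy').pow (.const 2)
  refine Good.sub ((Good.ofNat 4).mul ?_) (Good.prod_range
    (f := fun a i => condDen (L a) (m a) (nt a) (y a i) ^ 2) hnc hD)
  refine Good.sum_range (f := fun a i =>
    condNum (L a) (m a) (nt a) (y a i) (w a i) (c a i) ^ 2 *
    (∏ i' ∈ Finset.range (nc a), if i' = i then 1 else
      condDen (L a) (m a) (nt a) (y a i') ^ 2)) hnc ?_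
  refine ((good_condNum (K := fun x : α × ℕ => K x.1) (y := fun x => y x.1 x.2)
    (w := fun x => w x.1 x.2) (hL.comp h1) (hm.comp h1) (hnt.comp h1) hy' hw' hc).pow
    (.const 2)).mul ?_
  refine Good.prod_range (K := fun x : α × ℕ => K x.1) (f := fun x i' =>
    if i' = x.2 then 1 else condDen (L x.1) (m x.1) (nt x.1) (y x.1 i') ^ 2) (hnc.comp h1) ?_
  exact Good.ite (by fun_prop) Good.one
    (good_nat (f := fun a i => condDen (L a) (m a) (nt a) (y a i) ^ 2) hD hφ (Poly.snd Poly.id'))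


/-- A positive multiple of `∏_{j,t} (X + v j t)`, where `j` runs over the tuples of roots and the
power sums of `v j ·` are the values of `H m` at the tuple `j`. -/
theorem exists_chiT (hn : Poly n) (hb : PB n) {U : ∀ a, Fin (n a) → ℤ[X]}
    (hU : Good fun x : Σ a, Fin (n a) => U x.1 x.2) {D : ∀ a, Fin (n a) → ℕ}
    (hD : Poly fun x : Σ a, Fin (n a) => D x.1 x.2) {nn : α → ℕ} (hnn : Poly nn)
    {H : ∀ a, ℕ → MvPolynomial (Fin (n a)) ℤ}
    (hH : Good (K := fun x : α × ℕ => MvPolynomial (Fin (n x.1)) ℤ) fun x => H x.1 x.2) :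
    ∃ W : α → ℤ[X], Good W ∧ ∀ a (z : ∀ i, Fin (D a i) → ℂ),
      (∀ i, Enum (D a i) (U a i) (z i)) → ∀ v : (∀ i, Fin (D a i)) → Fin (nn a) → ℂ,
      (∀ j m, 1 ≤ m → MvPolynomial.aeval (fun i => z i (j i)) (H a m) = ∑ t, v j t ^ m) →
      ∃ c : ℝ, 0 < c ∧ (W a).map (Int.castRingHom ℂ) = Polynomial.C (c : ℂ) *
        ∏ jt : (∀ i, Fin (D a i)) × Fin (nn a),
          (Polynomial.X + Polynomial.C (v jt.1 jt.2)) := by
  have hN : Poly fun a => (∏ i, D a i) * nn a := (Poly.prod_fin hn hb hD).mul hnn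
  obtain ⟨f, hf, hfle⟩ := (Good.eb_totalDegree (K := fun _ : α × ℕ => ℤ)
    (n := fun x : α × ℕ => n x.1) hH).unif
    (s := fun a => sz a + 4 * sz ((∏ i, D a i) * nn a) + 1)
    ((PB.sz_id.add ((PB.const 4).mul hN.pb_sz)).add (PB.const 1))
  obtain ⟨g, hg, hfg⟩ := hf.exists_poly
  have he : Poly fun a => 2 * g a := by fun_prop
  have h1 : Poly fun x : α × ℕ => x.1 := by fun_prop
  refine ⟨fun a => chi ((∏ i, D a i) * nn a) (∏ i, (U a i).coeff (D a i) ^ (2 * g a))
    fun m => tupTr (2 * g a) (D a) (U a) (H a m), ?_, fun a z hz v hv => ?_⟩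
  · refine Good.chi (K := fun _ => ℤ) (S := fun a m => tupTr (2 * g a) (D a) (U a) (H a m))
      hN ?_ ?_
    · exact Good.prod_fin (K := fun _ => ℤ)
        (f := fun a i => (U a i).coeff (D a i) ^ (2 * g a)) hn
        ((Good.polyCoeff (K := fun _ => ℤ) hU hD).pow (he.comp poly_sig1))
    · exact Good.tupTr (K := fun _ : α × ℕ => ℤ) (n := fun x : α × ℕ => n x.1)
        (D := fun x => D x.1) (U := fun x => U x.1) (hn.comp h1) (hb.comp h1) (he.comp h1)
        (poly_fin hD (h1.comp poly_sig1) poly_sig2)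
        (good_fin (K := fun _ => ℤ[X]) hU (h1.comp poly_sig1) poly_sig2) hH
  · set N := (∏ i, D a i) * nn a with hNdef
    set A : ℤ := ∏ i, (U a i).coeff (D a i) ^ (2 * g a) with hA
    have hA0 : 0 < A := Finset.prod_pos fun i _ => by
      rw [pow_mul]
      exact pow_pos (pow_pos (abs_pos.2 (hz i).1) 2 |>.trans_eq (sq_abs _)) _
    refine ⟨(N.factorial : ℝ) ^ (N + 1) * (A : ℝ) ^ N, by positivity, ?_⟩
    rw [map_chi, chi_eq (fun jt : (∀ i, Fin (D a i)) × Fin (nn a) => v jt.1 jt.2)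
      (by simp) _ fun m hm1 hm2 => ?_]
    · simp [hA, hNdef]
    · have hdeg : (H a m).totalDegree ≤ 2 * g a := by
        have h2 := hfle a (a, m) (by
          have := sz_le_of_le hm2
          rw [sz_pair]; omega)
        have h3 := hfg a
        simp only at h2
        omega
      rw [eq_intCast, tupTr_eq hz hdeg, Fintype.sum_prod_type]
      simp only [hv _ m hm1, eq_intCast, Int.cast_prod, Int.cast_pow]

/-- Values of good polynomials at tuples of roots are zero or of doubly exponential size. -/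
theorem Good.sep (hn : Poly n) (hb : PB n) {U : ∀ a, Fin (n a) → ℤ[X]}
    (hU : Good fun x : Σ a, Fin (n a) => U x.1 x.2) {h : ∀ a, MvPolynomial (Fin (n a)) ℤ}
    (hh : Good h) :
    ∃ H : α → ℕ, DB H ∧ ∀ a z, Roots (U a) z → |MvPolynomial.aeval z (h a)| ≤ H a ∧
      (MvPolynomial.aeval z (h a) ≠ 0 → 1 ≤ H a * |MvPolynomial.aeval z (h a)|) := by
  have h1 : Poly fun x : (Σ a, Fin (n a) → ℕ) × ℕ => x.1.1 := poly_sig1.comp (Poly.fst Poly.id')
  obtain ⟨W, hW, hWs⟩ := exists_chiT (α := Σ a, Fin (n a) → ℕ) (n := fun x => n x.1)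
    (U := fun x => U x.1) (D := fun x => x.2) (nn := fun _ => 1) (H := fun x m => h x.1 ^ m)
    (hn.comp poly_sig1) (hb.comp poly_sig1)
    (good_fin (K := fun _ => ℤ[X]) hU (poly_sig1.comp poly_sig1) poly_sig2) poly_entry (.const 1)
    ((hh.comp h1).pow (Poly.snd Poly.id'))
  obtain ⟨f, hf, hfle⟩ := (Good.eb_natDegree (K := fun _ => ℤ) hU).unif
    (s := fun a => sz a + 4 * sz (n a) + 1)
    ((PB.sz_id.add ((PB.const 4).mul hn.pb_sz)).add (PB.const 1))
  obtain ⟨G, hG, hGle⟩ := hW.size.unif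
    (s := fun a => sz a + (n a * (4 * sz (f a) + 2) + 1) + 1)
    ((PB.sz_id.add ((hb.mul (((PB.const 4).mul hf.pb_sz).add (PB.const 2))).add
      (PB.const 1))).add (PB.const 1))
  refine ⟨fun a => G a + 1, hG.add (DB.const 1), fun a z hz => ?_⟩
  set D : Fin (n a) → ℕ := fun i => (U a i).natDegree with hD
  have hDle : ∀ i, D i ≤ f a := fun i => hfle a ⟨a, i⟩ (by
    have := sz_le_of_le i.2.le
    rw [sz_sigma, sz_fin]
    simp only
    omega)
  have hnu : nu (W ⟨a, D⟩) ≤ G a := hGle a ⟨a, D⟩ (by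
    have := sz_fun_le hDle
    rw [sz_sigma]
    simp only
    omega)
  choose z' hz' using fun i => exists_enum (hz i).1 (D := D i) rfl
  obtain ⟨c, hc, hmap⟩ := hWs ⟨a, D⟩ z' hz'
    (fun j _ => MvPolynomial.aeval (fun i => z' i (j i)) (h a)) (fun j m _ => by simp)
  have hj : ∀ i, ∃ j, z' i j = (z i : ℂ) := fun i => ((hz' i).mem_range_iff _).2 (by
    have := Polynomial.aeval_algebraMap_apply ℂ (z i) (U a i)
    rw [(hz i).2, map_zero] at this
    exact this)
  choose j hj using hj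
  have hW0 : W ⟨a, D⟩ ≠ 0 := by
    intro h0
    rw [h0, Polynomial.map_zero] at hmap
    refine mul_ne_zero (Polynomial.C_ne_zero.2 (Complex.ofReal_ne_zero.2 hc.ne')) ?_ hmap.symm
    exact Finset.prod_ne_zero_iff.2 fun _ _ => Polynomial.X_add_C_ne_zero _
  have hval : MvPolynomial.aeval (fun i => z' i (j i)) (h a) =
      ((MvPolynomial.aeval z (h a) : ℝ) : ℂ) := by
    simp only [hj]
    exact MvPolynomial.aeval_algebraMap_apply ℂ z (h a)
  have hroot : Polynomial.aeval (-((MvPolynomial.aeval z (h a) : ℝ) : ℂ)) (W ⟨a, D⟩) = 0 := by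
    rw [Polynomial.aeval_def, ← Polynomial.eval_map, algebraMap_int_eq, hmap, Polynomial.eval_mul,
      Polynomial.eval_prod]
    refine mul_eq_zero_of_right _ (Finset.prod_eq_zero (Finset.mem_univ (j, (0 : Fin 1))) ?_)
    simp [hval]
  obtain ⟨hb1, hb2⟩ := root_bounds hW0 hroot
  rw [norm_neg, Complex.norm_real, Real.norm_eq_abs] at hb1 hb2
  have hle : ((nu (W ⟨a, D⟩) + 1 : ℕ) : ℝ) ≤ ((G a + 1 : ℕ) : ℝ) := by
    exact_mod_cast Nat.succ_le_succ hnu
  refine ⟨hb1.trans hle, fun h0 => (hb2 (by simpa using h0)).trans ?_⟩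
  exact mul_le_mul_of_nonneg_right hle (abs_nonneg _)

end Crest.Agent.R316
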