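import Crest.Agent.R316.CH

/-! Embedding into the official hierarchy. -/

set_option autoImplicit false
open Crest.Agent.Lib.PolyTime
open scoped Polynomial

namespace Crest.Agent.R316

namespace LevelAux

open Crest.CountHier

theorem ofBits_inj : ∀ {l l' : List Bool}, l.length = l'.length → ofBits l = ofBits l' → l = l'
  | [], [], _, _ => rfl
  | [], _ :: _, h, _ => by simp at h
  | _ :: _, [], h, _ => by simp at h
  | b :: l, b' :: l', h, e => by
    simp only [ofBits_cons] at e
    have h1 : b = b' := by simpa using congrArg Nat.bodd e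
    have h2 : ofBits l = ofBits l' := by simpa using congrArg Nat.div2 e
    rw [h1, ofBits_inj (by simpa using h) h2]

theorem ofBits_surj : ∀ (m y : ℕ), y < 2 ^ m → ∃ l : List Bool, l.length = m ∧ ofBits l = y
  | 0, y, h => ⟨[], rfl, by simp at h; simp [h]⟩
  | m + 1, y, h => by
    obtain ⟨l, h1, h2⟩ := ofBits_surj m y.div2 (by rw [Nat.div2_val]; omega)
    exact ⟨y.bodd :: l, by simp [h1], by rw [ofBits_cons, h2, Nat.bit_bodd_div2]⟩

theorem ncard_eq (m : ℕ) (R : ℕ → Prop) :
    {y : List Bool | y.length = m ∧ R (ofBits y)}.ncard = cnt (2 ^ m) R := by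
  classical
  rw [cnt, ← Set.ncard_coe_finset]
  refine Set.ncard_congr (fun y _ => ofBits y) ?_ ?_ ?_
  · rintro y ⟨rfl, h⟩
    simpa using ⟨ofBits_lt y, h⟩
  · rintro y y' ⟨h, -⟩ ⟨h', -⟩ e
    exact ofBits_inj (h.trans h'.symm) e
  · intro y hy
    simp only [Finset.coe_filter, Finset.mem_range, Set.mem_ofPred_eq] at hy
    obtain ⟨l, h1, rfl⟩ := ofBits_surj m y hy.1
    exact ⟨l, ⟨h1, hy.2⟩, rfl⟩

theorem cnt_pad {n N k : ℕ} (hN : N ≤ 2 ^ n) (hk : k ≤ 2 ^ n) (R : ℕ → Prop) :
    cnt (2 ^ (n + 1)) (fun y => (y < N ∧ R y) ∨ 2 ^ n + k ≤ y) + k = cnt N R + 2 ^ n := by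
  classical
  have e : (Finset.range (2 ^ (n + 1))).filter (fun y => (y < N ∧ R y) ∨ 2 ^ n + k ≤ y) =
      (Finset.range N).filter R ∪ Finset.Ico (2 ^ n + k) (2 ^ (n + 1)) := by
    ext y
    simp only [Finset.mem_filter, Finset.mem_range, Finset.mem_union, Finset.mem_Ico, pow_succ]
    constructor
    · rintro ⟨h1, h2 | h2⟩
      · exact Or.inl h2
      · exact Or.inr ⟨h2, h1⟩
    · rintro (h | h)
      · exact ⟨by omega, Or.inl h⟩
      · exact ⟨h.2, Or.inr h.1⟩
  have d : Disjoint ((Finset.range N).filter R) (Finset.Ico (2 ^ n + k) (2 ^ (n + 1))) := by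
    rw [Finset.disjoint_left]
    intro y h1 h2
    have := Finset.mem_range.1 (Finset.mem_filter.1 h1).1
    have := (Finset.mem_Ico.1 h2).1
    omega
  have h := Finset.card_union_of_disjoint d
  rw [← e, Nat.card_Ico] at h
  have h2 : cnt (2 ^ (n + 1)) (fun y => (y < N ∧ R y) ∨ 2 ^ n + k ≤ y) =
      cnt N R + (2 ^ (n + 1) - (2 ^ n + k)) := by
    unfold cnt
    convert h
  rw [h2, pow_succ]
  omega

theorem unpair (x y : List Bool) : pMarked pBool (pairBits x y) = (x, y) := by
  have := pMarked_code (p := pBool) (c := fun b => [b]) (v := id) (l := x) (fun _ _ _ => rfl) y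
  simpa [pairBits, List.flatMap] using this

theorem exists_clock {N : List Bool → ℕ} (hN : Poly N) :
    ∃ p : Polynomial ℕ, ∀ w, N w ≤ 2 ^ p.eval w.length := by
  obtain ⟨q, hq⟩ := hN.pb_sz
  refine ⟨q.comp (4 * Polynomial.X + 1), fun w => (lt_two_pow_sz _).le.trans
    (Nat.pow_le_pow_right (by norm_num) ((hq w).trans ?_))⟩
  rw [Polynomial.eval_comp]
  exact eval_mono q (by simpa using sz_listBool_le w)

theorem key (j : ℕ) : ∀ (α : Type) [PEnc α] (P : α → Prop), Lvl j α P →
    ∀ (dec : List Bool → α) (c f : List Bool → Bool), Poly dec → Poly c → Poly f →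
      {w | if c w then P (dec w) else f w = true} ∈ level j := by
  induction j with
  | zero =>
    rintro α _ P ⟨g, hg, h⟩ dec c f hdec hc hf
    refine Poly.inP (f := fun w => bif c w then g (dec w) else f w) (by fun_prop) fun w => ?_
    rw [Set.mem_ofPred_eq]
    cases c w <;> simp [h]
  | succ j ih =>
    rintro α _ P ⟨N, k, B, hN, hk, hB, h⟩ dec c f hdec hc hf
    obtain ⟨N', hN'⟩ : ∃ N' : List Bool → ℕ,
      N' = fun w => bif c w then N (dec w) else bif f w then 1 else 0 := ⟨_, rfl⟩
    obtain ⟨k', hk'⟩ : ∃ k' : List Bool → ℕ, k' = fun w => bif c w then k (dec w) else 0 :=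
      ⟨_, rfl⟩
    have pN : Poly N' := by rw [hN']; fun_prop
    have pk : Poly k' := by rw [hk']; fun_prop
    obtain ⟨p, hp⟩ := exists_clock (N := fun w => N' w + k' w) (by fun_prop)
    have hQ : ∀ w, (if c w then P (dec w) else f w = true) ↔
        k' w < cnt (N' w) fun y => c w = true → B (dec w, y) := by
      intro w
      rw [hN', hk']
      cases hcw : c w
      · cases hfw : f w <;> simp [hcw, hfw, cnt]
      · simp [hcw, h]
    refine ⟨_, ih (α × ℕ) B hB
      (fun z => (dec (pMarked pBool z).1, ofBits (pMarked pBool z).2))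
      (fun z => c (pMarked pBool z).1 &&
        decide (ofBits (pMarked pBool z).2 < N' (pMarked pBool z).1))
      (fun z => decide (ofBits (pMarked pBool z).2 < N' (pMarked pBool z).1) ||
        decide (2 ^ p.eval (pMarked pBool z).1.length + k' (pMarked pBool z).1 ≤
          ofBits (pMarked pBool z).2))
      (by fun_prop) (by fun_prop) (by fun_prop), p + 1, fun w => ?_⟩
    have h1 : N' w ≤ 2 ^ p.eval w.length := le_trans (Nat.le_add_right _ _) (hp w)
    have h2 : k' w ≤ 2 ^ p.eval w.length := le_trans (Nat.le_add_left _ _) (hp w)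
    have h3 := cnt_pad h1 h2 fun y => c w = true → B (dec w, y)
    rw [← ncard_eq] at h3
    rw [Set.mem_ofPred_eq, hQ, Polynomial.eval_add, Polynomial.eval_one]
    have e : ∀ S : Set (List Bool), S = {y : List Bool | y.length = p.eval w.length + 1 ∧
        ((ofBits y < N' w ∧ (c w = true → B (dec w, ofBits y))) ∨
          2 ^ p.eval w.length + k' w ≤ ofBits y)} →
        ((k' w < cnt (N' w) fun y => c w = true → B (dec w, y)) ↔
          2 ^ (p.eval w.length + 1) < 2 * S.ncard) := by
      rintro S rfl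
      rw [pow_succ]
      omega
    refine e _ ?_
    ext y
    simp only [Set.mem_ofPred_eq, unpair]
    refine and_congr_right fun _ => ?_
    by_cases h4 : ofBits y < N' w
    · have h5 : ¬ 2 ^ p.eval w.length + k' w ≤ ofBits y := by omega
      cases c w <;> simp [h4, h5]
    · simp [h4]

end LevelAux

theorem CH.mem_level {P : List Bool → Prop} (h : CH P) :
    ∃ j, {w | P w} ∈ Crest.CountHier.level j := by
  obtain ⟨j, hj⟩ := h
  exact ⟨j, by
    simpa using LevelAux.key j _ P hj id (fun _ => true) (fun _ => true) Poly.id' (by fun_prop)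
      (by fun_prop)⟩

end Crest.Agent.R316
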