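import Crest.Agent.R316.BP
import Crest.Agent.R316.Delin
import Crest.Agent.R316.Form
import Crest.Agent.R316.Level

/-! Assembly. -/

set_option autoImplicit false
open Crest.Agent.Lib.PolyTime
open scoped Polynomial

namespace Crest.Agent.R316

open MvPolynomial

variable {α : Type} [PEnc α] {r N : α → ℕ}

namespace MainAux

theorem eb_unif_nat {f : α × ℕ → ℕ} (hf : EB f) {n : α → ℕ} (hn : EB n) :
    ∃ f' : α → ℕ, EB f' ∧ ∀ a i, i ≤ n a → f (a, i) ≤ f' a := by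
  obtain ⟨f', h1, h2⟩ := hf.unif (s := fun a => sz a + 4 * sz (n a) + 1)
    ((PB.sz_id.add ((PB.const 4).mul hn.pb_sz)).add (PB.const 1))
  refine ⟨f', h1, fun a i hi => h2 a _ ?_⟩
  have := sz_le_of_le hi
  rw [sz_pair]; omega

theorem db_unif_nat {f : α × ℕ → ℕ} (hf : DB f) {n : α → ℕ} (hn : EB n) :
    ∃ f' : α → ℕ, DB f' ∧ ∀ a i, i ≤ n a → f (a, i) ≤ f' a := by
  obtain ⟨f', h1, h2⟩ := hf.unif (s := fun a => sz a + 4 * sz (n a) + 1)
    ((PB.sz_id.add ((PB.const 4).mul hn.pb_sz)).add (PB.const 1))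
  refine ⟨f', h1, fun a i hi => h2 a _ ?_⟩
  have := sz_le_of_le hi
  rw [sz_pair]; omega

theorem eb_unif_fin {n : α → ℕ} {f : (Σ a, Fin (n a)) → ℕ} (hf : EB f) (hn : EB n) :
    ∃ f' : α → ℕ, EB f' ∧ ∀ a i, f ⟨a, i⟩ ≤ f' a := by
  obtain ⟨f', h1, h2⟩ := hf.unif (s := fun a => sz a + 4 * sz (n a) + 1)
    ((PB.sz_id.add ((PB.const 4).mul hn.pb_sz)).add (PB.const 1))
  refine ⟨f', h1, fun a i => h2 a _ ?_⟩
  have := sz_le_of_le i.2.le
  rw [sz_sigma, sz_fin]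
  dsimp only
  omega

theorem db_unif_fin {n : α → ℕ} {f : (Σ a, Fin (n a)) → ℕ} (hf : DB f) (hn : EB n) :
    ∃ f' : α → ℕ, DB f' ∧ ∀ a i, f ⟨a, i⟩ ≤ f' a := by
  obtain ⟨f', h1, h2⟩ := hf.unif (s := fun a => sz a + 4 * sz (n a) + 1)
    ((PB.sz_id.add ((PB.const 4).mul hn.pb_sz)).add (PB.const 1))
  refine ⟨f', h1, fun a i => h2 a _ ?_⟩
  have := sz_le_of_le i.2.le
  rw [sz_sigma, sz_fin]
  dsimp only
  omega

theorem append_eq {β : Type} {m n : ℕ} (u : Fin m → β) (v : Fin n → β) (i : Fin (m + n)) :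
    Fin.append u v i =
      if h : (i : ℕ) < m then u ⟨i, h⟩ else v ⟨i - m, by have := i.2; omega⟩ := by
  refine Fin.addCases (fun j => ?_) (fun j => ?_) i
  · simp
  · simp

theorem good_append {P : Type} [PEnc P] {K : α → Type} [∀ a, CommRing (K a)] [∀ a, Nu (K a)]
    [∀ a, Ev P (K a)] (hr : Poly r) {u : ∀ a, Fin (r a) → K a} {v : ∀ a, Fin (N a) → K a}
    (hu : Good (K := fun x : Σ a, Fin (r a) => K x.1) fun x => u x.1 x.2)
    (hv : Good (K := fun x : Σ a, Fin (N a) => K x.1) fun x => v x.1 x.2) :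
    Good (K := fun x : Σ a, Fin (r a + N a) => K x.1) fun x =>
      Fin.append (u x.1) (v x.1) x.2 := by
  refine Good.congr ?_ fun x => (append_eq (u x.1) (v x.1) x.2).symm
  refine Good.dite (K := fun x : Σ a, Fin (r a + N a) => K x.1)
    (p := fun x => (x.2 : ℕ) < r x.1) (by fun_prop) ?_ ?_
  · exact hu.comp (φ := fun x : {x : Σ a, Fin (r a + N a) // (x.2 : ℕ) < r x.1} =>
      (⟨x.1.1, ⟨x.1.2, x.2⟩⟩ : Σ a, Fin (r a))) (poly_mkFin (by fun_prop) (by fun_prop))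
  · exact hv.comp (φ := fun x : {x : Σ a, Fin (r a + N a) // ¬(x.2 : ℕ) < r x.1} =>
      (⟨x.1.1, ⟨x.1.2 - r x.1.1, by have := x.1.2.2; have := x.2; omega⟩⟩ : Σ a, Fin (N a)))
      (poly_mkFin (by fun_prop) (by fun_prop))

theorem exists_params (hN : Poly N) (hNb : PB N)
    {Q : ∀ a, MvPolynomial (Fin (r a + N a)) ℤ} (hQ : Good Q) :
    ∃ E κ : α → ℕ, Poly E ∧ Poly κ ∧ ∀ a (K : Type) [CommRing K] (x : Fin (r a) → K),
      Params (E a) (κ a) (Qx x (Q a)) := by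
  obtain ⟨g, hg, hg'⟩ := hQ.eb_totalDegree.exists_poly
  refine ⟨fun a => 2 * g a + 1, fun a => (2 * g a + 1) ^ N a + 1, by fun_prop, by fun_prop,
    fun a K _ x => ⟨⟨g a, rfl⟩, ?_, Nat.lt_succ_self _⟩⟩
  have := totalDegree_Qx_le x (Q a)
  have := hg' a
  dsimp only
  omega

theorem Qx_nonneg {r n : ℕ} (x : Fin r → ℝ) (Q : MvPolynomial (Fin (r + n)) ℤ) (y : Fin n → ℝ) :
    0 ≤ eval y (Qx x Q) := by
  rw [eval_Qx]; positivity

theorem Qx_zero_iff {r n : ℕ} (x : Fin r → ℝ) (Q : MvPolynomial (Fin (r + n)) ℤ) :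
    (∃ y, eval y (Qx x Q) = 0) ↔ ∃ y : Fin n → ℝ, aeval (Fin.append x y) Q = 0 := by
  simp only [eval_Qx, ne_eq, OfNat.ofNat_ne_zero, not_false_eq_true, pow_eq_zero_iff]

theorem map_Qx_X {r n : ℕ} {K : Type} [CommRing K] (x : Fin r → K)
    (Q : MvPolynomial (Fin (r + n)) ℤ) :
    map (aeval x : MvPolynomial (Fin r) ℤ →ₐ[ℤ] K).toRingHom (Qx (fun i => X i) Q) = Qx x Q := by
  rw [map_Qx]
  simp

/-- An explicit value of `s` that is large enough at all tuples of roots. -/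
theorem exists_threshold (hr : Poly r) (hrb : PB r) (hN : Poly N) (hNb : PB N)
    {Q : ∀ a, MvPolynomial (Fin (r a + N a)) ℤ} (hQ : Good Q) {W : ∀ a, Fin (r a) → ℤ[X]}
    (hW : Good fun x : Σ a, Fin (r a) => W x.1 x.2) {E κ : α → ℕ} (hE : Poly E) (hκ : Poly κ)
    (hp : ∀ a (K : Type) [CommRing K] (x : Fin (r a) → K), Params (E a) (κ a) (Qx x (Q a))) :
    ∃ L : α → ℕ, Poly L ∧ ∀ a x, Roots (W a) x →
      ((∃ y, eval y (penF (E a) (((2 : ℝ) ^ L a) ^ κ a) (Qx x (Q a))) < 2 ^ L a) ↔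
        ∃ y : Fin (N a) → ℝ, aeval (Fin.append x y) (Q a) = 0) := by
  set Q0 : ∀ a, MvPolynomial (Fin (N a)) (MvPolynomial (Fin (r a)) ℤ) :=
    fun a => Qx (fun i => X i) (Q a) with hQ0
  have gQ0 : Good Q0 := Good.Qx (K := fun a => MvPolynomial (Fin (r a)) ℤ) hr hrb hN hNb
    (Good.mvX (K := fun _ => ℤ) (n := fun y : Σ a, Fin (r a) => r y.1) (by fun_prop)) hQ
  have pQ0 : ∀ a, Params (E a) (κ a) (Q0 a) := fun a => hp a _ _
  -- the pair coefficients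
  have f3 : Poly fun x : (α × ℕ) × ℕ => x.1.1 := by fun_prop
  have gR : Good (K := fun x : (α × ℕ) × ℕ => (MvPolynomial (Fin (r x.1.1)) ℤ)[X])
      fun x => cR (E x.1.1) (κ x.1.1) (Q0 x.1.1) x.1.2 x.2 :=
    Good.cR (K := fun x : (α × ℕ) × ℕ => MvPolynomial (Fin (r x.1.1)) ℤ)
      (hN.comp f3) (hNb.comp f3) (hE.comp f3) (hκ.comp f3) (gQ0.comp f3) (fun x => pQ0 _)
      (by fun_prop) (by fun_prop)
  have f4 : Poly fun x : ((α × ℕ) × ℕ) × ℕ => x.1.1.1 := by fun_prop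
  have gRc : Good (K := fun x : ((α × ℕ) × ℕ) × ℕ => MvPolynomial (Fin (r x.1.1.1)) ℤ)
      fun x => (cR (E x.1.1.1) (κ x.1.1.1) (Q0 x.1.1.1) x.1.1.2 x.1.2).coeff x.2 :=
    (gR.comp (φ := fun x : ((α × ℕ) × ℕ) × ℕ => x.1) (by fun_prop)).polyCoeff (by fun_prop)
  obtain ⟨H1, dH1, sH1⟩ := Good.sep (n := fun x : ((α × ℕ) × ℕ) × ℕ => r x.1.1.1)
    (hr.comp f4) (hrb.comp f4) (U := fun x => W x.1.1.1)
    (hW.comp (φ := fun x : Σ b : ((α × ℕ) × ℕ) × ℕ, Fin (r b.1.1.1) =>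
      (⟨x.1.1.1.1, x.2⟩ : Σ a, Fin (r a))) (poly_mkFin (by fun_prop) (by fun_prop))) gRc
  obtain ⟨H2, dH2, sH2⟩ := db_unif_nat dH1 gR.eb_natDegree
  obtain ⟨H3, dH3, sH3⟩ := db_unif_nat dH2
    (n := fun x : α × ℕ => E x.1 ^ N x.1 * E x.1 ^ N x.1) (EB.of_poly (by fun_prop))
  obtain ⟨H4, dH4, sH4⟩ := db_unif_nat dH3 (n := fun a => gridB (E a) (N a))
    (EB.of_poly (by unfold gridB; fun_prop))
  -- the zero coefficients
  have f2 : Poly fun x : α × ℕ => x.1 := by fun_prop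
  have gZ : Good (K := fun x : α × ℕ => (MvPolynomial (Fin (r x.1)) ℤ)[X])
      fun x => cZ (E x.1) (κ x.1) (Q0 x.1) x.2 :=
    Good.cZ (K := fun x : α × ℕ => MvPolynomial (Fin (r x.1)) ℤ)
      (hN.comp f2) (hNb.comp f2) (hE.comp f2) (hκ.comp f2) (gQ0.comp f2) (fun x => pQ0 _)
      (by fun_prop)
  have gZc : Good (K := fun x : (α × ℕ) × ℕ => MvPolynomial (Fin (r x.1.1)) ℤ)
      fun x => (cZ (E x.1.1) (κ x.1.1) (Q0 x.1.1) x.1.2).coeff x.2 :=
    (gZ.comp (φ := fun x : (α × ℕ) × ℕ => x.1) (by fun_prop)).polyCoeff (by fun_prop)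
  obtain ⟨J1, dJ1, sJ1⟩ := Good.sep (n := fun x : (α × ℕ) × ℕ => r x.1.1)
    (hr.comp f3) (hrb.comp f3) (U := fun x => W x.1.1)
    (hW.comp (φ := fun x : Σ b : (α × ℕ) × ℕ, Fin (r b.1.1) =>
      (⟨x.1.1.1, x.2⟩ : Σ a, Fin (r a))) (poly_mkFin (by fun_prop) (by fun_prop))) gZc
  obtain ⟨J2, dJ2, sJ2⟩ := db_unif_nat dJ1 gZ.eb_natDegree
  obtain ⟨J3, dJ3, sJ3⟩ := db_unif_nat dJ2 (n := fun a => E a ^ N a) (EB.of_poly (by fun_prop))
  obtain ⟨L, hL, hL'⟩ := (((dH4.add dJ3).mul (dH4.add dJ3)).add (DB.const 1)).exists_poly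
  refine ⟨L, hL, fun a x hx => ?_⟩
  rw [← Qx_zero_iff]
  have key : ∀ (c : MvPolynomial (Fin (r a)) ℤ) (h : ℕ), h ≤ H4 a + J3 a →
      (|aeval x c| ≤ h ∧ (aeval x c ≠ 0 → 1 ≤ h * |aeval x c|)) →
      |aeval x c| ≤ ((H4 a + J3 a : ℕ) : ℝ) ∧
        (aeval x c ≠ 0 → 1 ≤ ((H4 a + J3 a : ℕ) : ℝ) * |aeval x c|) := by
    intro c h hh hc
    have hh' : (h : ℝ) ≤ ((H4 a + J3 a : ℕ) : ℝ) := by exact_mod_cast hh
    exact ⟨hc.1.trans hh', fun h0 => (hc.2 h0).trans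
      (mul_le_mul_of_nonneg_right hh' (abs_nonneg _))⟩
  refine cell_threshold (hp a ℝ x) (Qx_nonneg x (Q a)) (H := ((H4 a + J3 a : ℕ) : ℝ))
    (fun u hu i hi e => ?_) (fun i hi e => ?_) ?_
  · rw [← map_Qx_X, ← map_cR (pQ0 a), Polynomial.coeff_map]
    by_cases he : e ≤ (cR (E a) (κ a) (Q0 a) u i).natDegree
    · refine key _ (H1 (((a, u), i), e)) ?_ (sH1 (((a, u), i), e) x hx)
      have h2 := sH2 ((a, u), i) e he
      have h3 := sH3 (a, u) i hi
      have h4 := sH4 a u hu.le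
      omega
    · rw [Polynomial.coeff_eq_zero_of_natDegree_lt (not_le.1 he)]
      simp
      positivity
  · rw [← map_Qx_X, ← map_cZ (pQ0 a), Polynomial.coeff_map]
    by_cases he : e ≤ (cZ (E a) (κ a) (Q0 a) i).natDegree
    · refine key _ (J1 ((a, i), e)) ?_ (sJ1 ((a, i), e) x hx)
      have h2 := sJ2 (a, i) e he
      have h3 := sJ3 a i hi
      omega
    · rw [Polynomial.coeff_eq_zero_of_natDegree_lt (not_le.1 he)]
      simp
      positivity
  · have := (hL' a).le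
    exact_mod_cast this

theorem eval_map_aux {n : ℕ} (y : Fin n → ℝ) (f : MvPolynomial (Fin n) ℝ) :
    algebraMap ℝ ℂ (eval y f) = eval (fun k => (y k : ℂ)) (map (algebraMap ℝ ℂ) f) := by
  induction f using MvPolynomial.induction_on with
  | C a => simp
  | add p q hp hq => simp only [map_add, hp, hq]
  | mul_X p i hp => simp only [map_mul, hp]; simp

/-- Candidates for the inner variables. -/
theorem exists_inner_cand (hr : Poly r) (hrb : PB r) (hN : Poly N) (hNb : PB N)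
    {Q : ∀ a, MvPolynomial (Fin (r a + N a)) ℤ} (hQ : Good Q) {W : ∀ a, Fin (r a) → ℤ[X]}
    (hW : Good fun x : Σ a, Fin (r a) => W x.1 x.2) {E : α → ℕ} (hE : Poly E)
    (hE0 : ∀ a, 0 < E a)
    (hp : ∀ a (K : Type) [CommRing K] (x : Fin (r a) → K), (Qx x (Q a)).totalDegree ≤ E a)
    {l : α → ℤ} (hl : Good l) {D : ∀ a, Fin (r a) → ℕ}
    (hD : Poly fun x : Σ a, Fin (r a) => D x.1 x.2) :
    ∃ W' : ∀ a, Fin (N a) → ℤ[X], Good (fun x : Σ a, Fin (N a) => W' x.1 x.2) ∧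
      ∀ a x, Roots (W a) x → (∀ i, (W a i).natDegree = D a i) →
        ∀ y, IsSol (E a) (penG (l a : ℝ) (Qx x (Q a))) y → Roots (W' a) y := by
  set Q0 : ∀ a, MvPolynomial (Fin (N a)) (MvPolynomial (Fin (r a)) ℤ) :=
    fun a => Qx (fun i => X i) (Q a) with hQ0
  have gQ0 : Good Q0 := Good.Qx (K := fun a => MvPolynomial (Fin (r a)) ℤ) hr hrb hN hNb
    (Good.mvX (K := fun _ => ℤ) (n := fun y : Σ a, Fin (r a) => r y.1) (by fun_prop)) hQ
  set G : ∀ a, Fin (N a) → MvPolynomial (Fin (N a)) (MvPolynomial (Fin (r a)) ℤ) :=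
    fun a => penG ((l a : ℤ) : MvPolynomial (Fin (r a)) ℤ) (Q0 a) with hG
  have gG : Good (K := fun x : Σ a, Fin (N a) =>
      MvPolynomial (Fin (N x.1)) (MvPolynomial (Fin (r x.1)) ℤ)) fun x => G x.1 x.2 :=
    Good.penG (K := fun a => MvPolynomial (Fin (r a)) ℤ) hN hNb hl.intCast gQ0
  have pG : ∀ a, IsPham (E a) (G a) := fun a => isPham_penG (hE0 a) (hp a _ _) _
  have f1 : Poly fun x : Σ a, Fin (N a) => x.1 := by fun_prop
  have f2 : Poly fun x : (Σ a, Fin (N a)) × ℕ => x.1.1 := by fun_prop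
  have gH : Good (K := fun x : (Σ a, Fin (N a)) × ℕ => MvPolynomial (Fin (r x.1.1)) ℤ)
      fun x => tr (E x.1.1) (G x.1.1) ((-X x.1.2) ^ x.2) := by
    refine Good.tr (K := fun x : (Σ a, Fin (N a)) × ℕ => MvPolynomial (Fin (r x.1.1)) ℤ)
      (hN.comp f2) (hNb.comp f2) (hE.comp f2) (G := fun x => G x.1.1) ?_ (fun x => pG _) ?_
    · exact gG.comp (φ := fun x : Σ b : (Σ a, Fin (N a)) × ℕ, Fin (N b.1.1) =>
        (⟨x.1.1.1, x.2⟩ : Σ a, Fin (N a))) (poly_mkFin (by fun_prop) (by fun_prop))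
    · exact (Good.mvX (K := fun x : (Σ a, Fin (N a)) × ℕ => MvPolynomial (Fin (r x.1.1)) ℤ)
        (n := fun x => N x.1.1) (i := fun x => x.1.2) (by fun_prop)).neg.pow (by fun_prop)
  obtain ⟨W', gW', sW'⟩ := exists_chiT (n := fun x : Σ a, Fin (N a) => r x.1) (hr.comp f1)
    (hrb.comp f1) (U := fun x => W x.1)
    (hW.comp (φ := fun x : Σ b : (Σ a, Fin (N a)), Fin (r b.1) =>
      (⟨x.1.1, x.2⟩ : Σ a, Fin (r a))) (poly_mkFin (by fun_prop) (by fun_prop)))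
    (D := fun x => D x.1)
    (hD.comp (g := fun x : Σ b : (Σ a, Fin (N a)), Fin (r b.1) =>
      (⟨x.1.1, x.2⟩ : Σ a, Fin (r a))) (poly_mkFin (by fun_prop) (by fun_prop)))
    (nn := fun x => E x.1 ^ N x.1) (by fun_prop)
    (H := fun x m => tr (E x.1) (G x.1) ((-X x.2) ^ m)) gH
  refine ⟨fun a i => W' ⟨a, i⟩, gW', fun a x hx hdeg y hy i => ?_⟩
  choose z hz using fun i => exists_enum (hx i).1 (hdeg i)
  have hval : ∀ j : ∀ i, Fin (D a i), ∃ ξ, Valid (E a) (fun k => map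
      (aeval (fun i => z i (j i)) : MvPolynomial (Fin (r a)) ℤ →ₐ[ℤ] ℂ).toRingHom (G a k)) ξ :=
    fun j => exists_valid ((pG a).map _)
  choose ξ hξ using hval
  obtain ⟨c, hc, hW'⟩ := sW' ⟨a, i⟩ z hz (fun j t => -ξ j t i) (by
    intro j m _
    have h1 := map_tr (pG a)
      (aeval (fun i => z i (j i)) : MvPolynomial (Fin (r a)) ℤ →ₐ[ℤ] ℂ).toRingHom ((-X i) ^ m)
    rw [hξ j] at h1
    refine Eq.trans h1 (Finset.sum_congr rfl fun t _ => ?_)
    simp)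
  have hc' : (c : ℂ) ≠ 0 := by exact_mod_cast hc.ne'
  have hne : W' ⟨a, i⟩ ≠ 0 := by
    intro h0
    rw [h0, Polynomial.map_zero] at hW'
    refine mul_ne_zero (Polynomial.C_ne_zero.2 hc') ?_ hW'.symm
    exact (Polynomial.monic_prod_of_monic _ _ fun _ _ => Polynomial.monic_X_add_C _).ne_zero
  refine ⟨hne, ?_⟩
  -- the index of `x`
  have hj : ∀ k, ∃ j, z k j = (x k : ℂ) := fun k => ((hz k).mem_range_iff _).2 (by
    have := (hx k).2
    rw [show ((x k : ℝ) : ℂ) = algebraMap ℝ ℂ (x k) from rfl, Polynomial.aeval_algebraMap_apply,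
      this, map_zero])
  choose j hj using hj
  have hsol : IsSol (E a) (fun k => map
      (aeval (fun i => z i (j i)) : MvPolynomial (Fin (r a)) ℤ →ₐ[ℤ] ℂ).toRingHom (G a k))
      fun k => (y k : ℂ) := by
    intro k
    have h1 := congrArg (algebraMap ℝ ℂ) (hy k)
    rw [map_pow, eval_map_aux, map_penG, map_Qx] at h1
    simp only [hG, hQ0, map_penG, map_Qx_X]
    simpa [hj] using h1
  obtain ⟨t, ht⟩ := ((hξ j).mem_range_iff ((pG a).map _) _).2 hsol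
  have h2 : Polynomial.eval (y i : ℂ) ((W' ⟨a, i⟩).map (Int.castRingHom ℂ)) = 0 := by
    rw [hW', Polynomial.eval_mul, Polynomial.eval_prod]
    refine mul_eq_zero_of_right _ (Finset.prod_eq_zero (Finset.mem_univ (j, t)) ?_)
    simp [ht]
  have h3 : algebraMap ℝ ℂ (Polynomial.aeval (y i) (W' ⟨a, i⟩)) = 0 := by
    rw [← Polynomial.aeval_algebraMap_apply, ← h2, Polynomial.eval_map, Polynomial.aeval_def]
    rfl
  exact (map_eq_zero _).1 h3

/-- Cell data read from a list. -/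
def cellOf (l : List ℕ) : Cell := (l.getD 0 0, l.getD 1 0, l.getD 2 0, l.getD 3 0, l.getD 4 0)

theorem two_pow_le_nu_of_layer {t : ℕ} {W : ℤ[X][X]} (h : layer t W ≠ 0) : 2 ^ t ≤ nu W := by
  obtain ⟨j, hj⟩ : ∃ j, (layer t W).coeff j ≠ 0 := by
    by_contra h0
    push Not at h0
    exact h (Polynomial.ext h0)
  rw [coeff_layer] at hj
  have h1 := nu_polyCoeff_le (W.coeff j) t
  have h2 := nu_polyCoeff_le W j
  have h3 := Nu.nu_pos _ hj
  have h4 : 0 < 2 ^ j := by positivity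
  nlinarith

end MainAux

open MainAux

/-- Deciding `∃ y, Q(x,y) = 0` at real tuples of roots. -/
theorem ch_inner (hr : Poly r) (hrb : PB r) (hN : Poly N) (hNb : PB N)
    {Q : ∀ a, MvPolynomial (Fin (r a + N a)) ℤ} (hQ : Good Q) {W : ∀ a, Fin (r a) → ℤ[X]}
    (hW : Good fun x : Σ a, Fin (r a) => W x.1 x.2) {R : ∀ a, (Fin (r a) → ℝ) → Prop}
    (hR : Defn r R) :
    CH fun a => ∃ x, Roots (W a) x ∧ R a x ∧
      ∃ y : Fin (N a) → ℝ, aeval (Fin.append x y) (Q a) = 0 := by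
  obtain ⟨E, κ, hE, hκ, hp⟩ := exists_params hN hNb hQ
  obtain ⟨L, hL, sL⟩ := exists_threshold hr hrb hN hNb hQ hW hE hκ hp
  obtain ⟨B0, eB0, sB0⟩ := eb_unif_fin hW.eb_natDegree (EB.of_poly hr)
  obtain ⟨B, hB, sB⟩ := eB0.exists_poly
  have hE0 : ∀ a, 0 < E a := fun a => (hp a ℤ fun _ => 0).odd.pos
  have gs : Good fun a => (2 : ℤ) ^ L a := (Good.ofNat (K := fun _ => ℤ) 2).pow hL
  -- the degrees are part of the input
  have f1 : Poly fun b : Σ a, Fin (r a) → ℕ => b.1 := by fun_prop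
  have hWb : Good fun x : Σ b : (Σ a, Fin (r a) → ℕ), Fin (r b.1) => W x.1.1 x.2 :=
    hW.comp (φ := fun x : Σ b : (Σ a, Fin (r a) → ℕ), Fin (r b.1) =>
      (⟨x.1.1, x.2⟩ : Σ a, Fin (r a))) (poly_mkFin (by fun_prop) (by fun_prop))
  have hDb : Poly fun x : Σ b : (Σ a, Fin (r a) → ℕ), Fin (r b.1) => x.1.2 x.2 :=
    poly_appFun (n := r) (g := fun x : Σ b : (Σ a, Fin (r a) → ℕ), Fin (r b.1) => x.1)
      (by fun_prop) (i := fun x => x.2) (by fun_prop)
  obtain ⟨W', gW', sW'⟩ := exists_inner_cand (r := fun b : Σ a, Fin (r a) → ℕ => r b.1)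
    (N := fun b => N b.1) (hr.comp f1) (hrb.comp f1) (hN.comp f1) (hNb.comp f1) (hQ.comp f1)
    (W := fun b => W b.1) hWb (hE.comp f1) (fun b => hE0 _) (fun b K _ x => (hp b.1 K x).deg)
    ((gs.pow hκ).comp f1) (D := fun b => b.2) hDb
  set g : ∀ a, MvPolynomial (Fin (r a + N a)) ℤ := fun a =>
    ∑ i : Fin (N a), X (Fin.natAdd (r a) i) ^ (E a + 1) +
      C (((E a + 1 : ℕ) : ℤ) * (2 ^ L a) ^ κ a) * Q a ^ 2 - C (2 ^ L a) with hg
  have gg : Good g := by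
    refine Good.sub (Good.add (Good.sum_fin hN ?_) (Good.mul (Good.mvC ?_)
      (hQ.pow (n := fun _ => 2) (by fun_prop)))) (Good.mvC gs)
    · exact (Good.mvX (K := fun _ => ℤ) (n := fun x : Σ a, Fin (N a) => r x.1 + N x.1)
        (i := fun x => Fin.natAdd (r x.1) x.2) (by simp only [Fin.val_natAdd]; fun_prop)).pow
        (by fun_prop)
    · exact (Good.natCast (K := fun _ => ℤ) (by fun_prop)).mul (gs.pow hκ)
  have eg : ∀ a (x : Fin (r a) → ℝ) (y : Fin (N a) → ℝ), aeval (Fin.append x y) (g a) =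
      eval y (penF (E a) (((2 : ℝ) ^ L a) ^ κ a) (Qx x (Q a))) - 2 ^ L a := by
    intro a x y
    simp [hg, penF, eval_Qx]
  have hbp := bp (M := fun b : Σ a, Fin (r a) → ℕ => r b.1 + N b.1) (by fun_prop) (by fun_prop)
    (U := fun b => Fin.append (W b.1) (W' b))
    (good_append (K := fun _ => ℤ[X]) (r := fun b : Σ a, Fin (r a) → ℕ => r b.1)
      (N := fun b => N b.1) (u := fun b => W b.1) (v := W') (hr.comp f1) hWb gW')
    (((hR.comp f1).rename (M := fun b : Σ a, Fin (r a) → ℕ => r b.1 + N b.1) (hr.comp f1)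
      (hrb.comp f1) (ι := fun b i => Fin.castAdd (N b.1) i)
      (by simp only [Fin.val_castAdd]; fun_prop)).and (Defn.neg (gg.comp f1)))
  have hdeg := CH.forall_fin (n := fun b : Σ a, Fin (r a) → ℕ => r b.1) (hr.comp f1)
    (hWb.ch_natDegree hDb)
  refine (CH.exists_fun hr hrb hB (hdeg.and hbp)).congr fun a => ⟨?_, ?_⟩
  · rintro ⟨D, -, -, z, hz, hRz, hgz⟩
    have hx : Roots (W a) fun i => z (Fin.castAdd (N a) i) := fun i => by
      simpa using hz (Fin.castAdd (N a) i)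
    refine ⟨_, hx, hRz, (sL a _ hx).1 ⟨fun i => z (Fin.natAdd (r a) i), ?_⟩⟩
    have h1 := eg a (fun i => z (Fin.castAdd (N a) i)) fun i => z (Fin.natAdd (r a) i)
    rw [Fin.append_castAdd_natAdd] at h1
    dsimp only at hgz
    linarith
  · rintro ⟨x, hx, hRx, hT⟩
    obtain ⟨y, hy, hy'⟩ := (exists_crit (Qx_nonneg x (Q a)) (hp a ℝ x).odd (by positivity) _).1
      ((sL a x hx).2 hT)
    refine ⟨fun i => (W a i).natDegree, fun i => (sB0 a i).trans_lt (sB a),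
      fun i => ⟨(hx i).1, rfl⟩, Fin.append x y, ?_, by simpa using hRx, ?_⟩
    · have hy2 := sW' ⟨a, fun i => (W a i).natDegree⟩ x hx (fun _ => rfl) y (by
        push_cast
        exact hy)
      intro i
      refine Fin.addCases (fun k => ?_) (fun k => ?_) i
      · simpa using hx k
      · simpa using hy2 k
    · have h1 := eg a x y
      dsimp only
      linarith

/-- Candidates for the outer variables. -/
theorem exists_cand (hr : Poly r) (hrb : PB r) (hN : Poly N) (hNb : PB N)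
    {Q : ∀ a, MvPolynomial (Fin (r a + N a)) ℤ} (hQ : Good Q) :
    ∃ (m B : α → ℕ) (W : ∀ x : α × List ℕ, Fin (r x.1) → ℤ[X]), Poly m ∧ PB m ∧ Poly B ∧
      Good (fun x : Σ b : α × List ℕ, Fin (r b.1) => W x.1 x.2) ∧
      ∀ a, (∃ x : Fin (r a) → ℝ, ¬∃ y : Fin (N a) → ℝ, aeval (Fin.append x y) (Q a) = 0) →
        ∃ l : List ℕ, l.length = m a ∧ (∀ k ∈ l, k < B a) ∧ ∃ x, Roots (W (a, l)) x ∧
          ¬∃ y : Fin (N a) → ℝ, aeval (Fin.append x y) (Q a) = 0 := by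
  obtain ⟨E, κ, hE, hκ, hp⟩ := exists_params hN hNb hQ
  set Q1 : ∀ a, MvPolynomial (Fin (N a)) (MvPolynomial (Fin (r a + 1)) ℤ) :=
    fun a => Qx (fun i => X (Fin.castSucc i)) (Q a) with hQ1
  have gQ1 : Good Q1 := Good.Qx (K := fun a => MvPolynomial (Fin (r a + 1)) ℤ) hr hrb hN hNb
    (Good.mvX (K := fun _ => ℤ) (n := fun y : Σ a, Fin (r a) => r y.1 + 1)
      (i := fun y => Fin.castSucc y.2) (by simp only [Fin.val_castSucc]; fun_prop)) hQ
  have pQ1 : ∀ a, Params (E a) (κ a) (Q1 a) := fun a => hp a _ _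
  set Qt : ∀ b : α × Cell, MvPolynomial (Fin (r b.1 + 1)) ℤ := fun b =>
    cellEq (E b.1) (κ b.1) (Q1 b.1) b.2 +
      (X (Fin.last _) * cellNe (E b.1) (κ b.1) (Q1 b.1) b.2 - 1) ^ 2 with hQt
  have f1 : Poly fun b : α × Cell => b.1 := by fun_prop
  have gQt : Good Qt := by
    refine Good.add (Good.cellEq (K := fun b : α × Cell => MvPolynomial (Fin (r b.1 + 1)) ℤ)
      (hN.comp f1) (hNb.comp f1) (hE.comp f1) (hκ.comp f1) (gQ1.comp f1) (fun b => pQ1 _)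
      (by fun_prop)) (Good.pow (n := fun _ => 2) (Good.sub (Good.mul ?_ ?_) Good.one)
      (by fun_prop))
    · exact Good.mvX (K := fun _ => ℤ) (n := fun b : α × Cell => r b.1 + 1)
        (i := fun b => Fin.last _) (by simp only [Fin.val_last]; fun_prop)
    · exact Good.cellNe (K := fun b : α × Cell => MvPolynomial (Fin (r b.1 + 1)) ℤ)
        (hN.comp f1) (hNb.comp f1) (hE.comp f1) (hκ.comp f1) (gQ1.comp f1) (fun b => pQ1 _)
        (by fun_prop)
  obtain ⟨g, hg, hg'⟩ := gQt.eb_totalDegree.exists_poly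
  have gW : Good (K := fun _ : Σ b : α × Cell, Fin (r b.1 + 1) => ℤ[X][X])
      fun x => candW (2 * g x.1 + 1) (Qt x.1) x.2 :=
    Good.candW (K := fun _ => ℤ) (n := fun b : α × Cell => r b.1 + 1)
      (E := fun b => 2 * g b + 1) (by fun_prop) (by fun_prop) (by fun_prop) gQt
      (fun _ => Nat.succ_pos _) fun b => by have := hg' b; omega
  -- bounds for the cell data
  have f3 : Poly fun x : (α × ℕ) × ℕ => x.1.1 := by fun_prop
  have gR : Good (K := fun x : (α × ℕ) × ℕ => (MvPolynomial (Fin (r x.1.1 + 1)) ℤ)[X])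
      fun x => cR (E x.1.1) (κ x.1.1) (Q1 x.1.1) x.1.2 x.2 :=
    Good.cR (K := fun x : (α × ℕ) × ℕ => MvPolynomial (Fin (r x.1.1 + 1)) ℤ)
      (hN.comp f3) (hNb.comp f3) (hE.comp f3) (hκ.comp f3) (gQ1.comp f3) (fun x => pQ1 _)
      (by fun_prop) (by fun_prop)
  obtain ⟨H3, dH3, sH3⟩ := eb_unif_nat gR.eb_natDegree
    (n := fun x : α × ℕ => E x.1 ^ N x.1 * E x.1 ^ N x.1) (EB.of_poly (by fun_prop))
  obtain ⟨H4, dH4, sH4⟩ := eb_unif_nat dH3 (n := fun a => gridB (E a) (N a))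
    (EB.of_poly (by unfold gridB; fun_prop))
  have f2 : Poly fun x : α × ℕ => x.1 := by fun_prop
  have gZ : Good (K := fun x : α × ℕ => (MvPolynomial (Fin (r x.1 + 1)) ℤ)[X])
      fun x => cZ (E x.1) (κ x.1) (Q1 x.1) x.2 :=
    Good.cZ (K := fun x : α × ℕ => MvPolynomial (Fin (r x.1 + 1)) ℤ)
      (hN.comp f2) (hNb.comp f2) (hE.comp f2) (hκ.comp f2) (gQ1.comp f2) (fun x => pQ1 _)
      (by fun_prop)
  obtain ⟨J3, dJ3, sJ3⟩ := eb_unif_nat gZ.eb_natDegree (n := fun a => E a ^ N a)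
    (EB.of_poly (by fun_prop))
  set B1 : α → ℕ := fun a =>
    E a ^ N a * E a ^ N a + gridB (E a) (N a) + E a ^ N a + H4 a + J3 a with hB1
  have eB1 : EB B1 := ((EB.of_poly (by unfold gridB; fun_prop)).add dH4).add dJ3
  obtain ⟨T1, dT1, sT1⟩ := db_unif_fin (n := fun b : α × Cell => r b.1 + 1) gW.size
    (EB.of_poly (by fun_prop))
  obtain ⟨T2, dT2, sT2⟩ := dT1.unif (s := fun a => sz a + 20 * sz (B1 a) + 5)
    ((PB.sz_id.add ((PB.const 20).mul eB1.pb_sz)).add (PB.const 5))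
  obtain ⟨T3, hT3, sT3⟩ := dT2.exists_poly
  obtain ⟨B2, hB2, sB2⟩ := eB1.exists_poly
  have fc : Poly fun b : α × List ℕ => ((b.1, cellOf b.2) : α × Cell) := by
    unfold cellOf; fun_prop
  refine ⟨fun a => 5 + r a, fun a => B2 a + T3 a, fun b i => layer (b.2.getD (5 + i) 0)
    (candW (2 * g (b.1, cellOf b.2) + 1) (Qt (b.1, cellOf b.2)) (Fin.castSucc i)),
    by fun_prop, by fun_prop, by fun_prop, ?_, ?_⟩
  · refine Good.layer (K := fun _ => ℤ) (by fun_prop) ?_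
    exact gW.comp (φ := fun x : Σ b : α × List ℕ, Fin (r b.1) =>
      (⟨(x.1.1, cellOf x.1.2), Fin.castSucc x.2⟩ : Σ b : α × Cell, Fin (r b.1 + 1)))
      (poly_mkFin (n := fun b : α × Cell => r b.1 + 1) (fc.comp (by fun_prop))
        (by simp only [Fin.val_castSucc]; fun_prop))
  rintro a ⟨x0, hx0⟩
  obtain ⟨d, hd, hd1, hd2, hd3⟩ := exists_cell (hp a ℝ x0)
  have hmap : ∀ p : Fin (r a + 1) → ℝ,
      map (aeval p : MvPolynomial (Fin (r a + 1)) ℤ →ₐ[ℤ] ℝ).toRingHom (Q1 a) =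
        Qx (fun i => p (Fin.castSucc i)) (Q a) := by
    intro p
    simp only [hQ1, map_Qx]
    simp
  have hev : ∀ p : Fin (r a + 1) → ℝ, aeval p (Qt (a, d)) =
      cellEq (E a) (κ a) (Qx (fun i => p (Fin.castSucc i)) (Q a)) d +
        (p (Fin.last _) * cellNe (E a) (κ a) (Qx (fun i => p (Fin.castSucc i)) (Q a)) d - 1) ^ 2 := by
    intro p
    rw [← hmap, ← map_cellEq (pQ1 a), ← map_cellNe (pQ1 a)]
    simp [hQt]
  have hcell : ∀ p : Fin (r a + 1) → ℝ, aeval p (Qt (a, d)) = 0 →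
      InCell (E a) (κ a) (Qx (fun i => p (Fin.castSucc i)) (Q a)) d := by
    intro p h0
    rw [hev] at h0
    have h1 := cellEq_nonneg (E := E a) (κ := κ a) (Qx (fun i => p (Fin.castSucc i)) (Q a)) d
    have h2 := sq_nonneg (p (Fin.last _) *
      cellNe (E a) (κ a) (Qx (fun i => p (Fin.castSucc i)) (Q a)) d - 1)
    refine ⟨by linarith, fun h3 => ?_⟩
    rw [h3] at h0
    norm_num at h0
    linarith
  set Z : Set (Fin (r a + 1) → ℝ) := {p | aeval p (Qt (a, d)) = 0} with hZ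
  have hcont : ∀ k : MvPolynomial (Fin (r a + 1)) ℤ,
      Continuous fun p : Fin (r a + 1) → ℝ => aeval p k := by
    intro k
    induction k using MvPolynomial.induction_on with
    | C c => simpa using continuous_const
    | add p q hp hq => simpa using hp.fun_add hq
    | mul_X p i hp => simpa using hp.fun_mul (continuous_apply i)
  have hZc : IsClosed Z := isClosed_eq (hcont _) continuous_const
  have hlc := cell_locallyConstant (Θ := Z)
    (fun θ => (aeval θ.1 : MvPolynomial (Fin (r a + 1)) ℤ →ₐ[ℤ] ℝ).toRingHom)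
    (fun k => (hcont k).comp continuous_subtype_val) (pQ1 a)
    (fun θ y => by rw [hmap]; exact Qx_nonneg _ _ _) (d := d)
    (fun θ => by rw [hmap]; exact hcell _ θ.2)
  simp only [hmap, Qx_zero_iff] at hlc
  set T : (Fin (r a + 1) → ℝ) → Prop := fun p =>
    ∃ y : Fin (N a) → ℝ, aeval (Fin.append (fun i => p (Fin.castSucc i)) y) (Q a) = 0 with hT
  have hY : IsClosed {p | p ∈ Z ∧ ¬T p} := by
    have := hZc.isClosedMap_subtype_val _ (hlc.isClosed_fiber False)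
    convert this using 1
    ext p
    simp [hT, and_comm]
  have hY' : IsClosed (Z \ {p | p ∈ Z ∧ ¬T p}) := by
    have := hZc.isClosedMap_subtype_val _ (hlc.isClosed_fiber True)
    convert this using 1
    ext p
    simp only [hT, Set.mem_sdiff, Set.mem_ofPred_eq, not_and, not_not, eq_iff_iff, iff_true,
      Set.mem_image, Subtype.exists, exists_and_right, exists_eq_right, exists_prop]
    tauto
  have hne : {p | p ∈ Z ∧ ¬T p}.Nonempty := by
    refine ⟨Fin.snoc x0 (cellNe (E a) (κ a) (Qx x0 (Q a)) d)⁻¹, ?_, ?_⟩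
    · change aeval _ (Qt (a, d)) = 0
      rw [hev]
      simp only [Fin.snoc_castSucc, Fin.snoc_last]
      rw [hd.1, inv_mul_cancel₀ hd.2]
      simp
    · simpa [hT] using hx0
  obtain ⟨p, ⟨hpZ, hpT⟩, t, ht⟩ := exists_candidate (Q := Qt (a, d)) (E := 2 * g (a, d) + 1)
    (fun p => by
      rw [hev]
      exact add_nonneg (cellEq_nonneg _ _) (sq_nonneg _))
    ⟨g (a, d), rfl⟩ (by have := hg' (a, d); omega) (fun p hp => hp.1) hY hY' hne
  -- bounds
  have hne1 : (cR (E a) (κ a) (Q1 a) d.2.1 d.1).coeff d.2.2.1 ≠ 0 ∧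
      (cZ (E a) (κ a) (Q1 a) d.2.2.2.1).coeff d.2.2.2.2 ≠ 0 := by
    have h1 := (hcell p hpZ).2
    rw [← hmap, ← map_cellNe (pQ1 a)] at h1
    have h2 : cellNe (E a) (κ a) (Q1 a) d ≠ 0 := fun h => h1 (by rw [h, map_zero])
    exact ⟨left_ne_zero_of_mul h2, right_ne_zero_of_mul h2⟩
  have he1 : d.2.2.1 ≤ H4 a := (Polynomial.le_natDegree_of_ne_zero hne1.1).trans
    ((sH3 (a, d.2.1) d.1 hd1).trans (sH4 a d.2.1 hd2.le))
  have he2 : d.2.2.2.2 ≤ J3 a := (Polynomial.le_natDegree_of_ne_zero hne1.2).trans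
    (sJ3 a d.2.2.2.1 hd3)
  have hb : d.1 ≤ B1 a ∧ d.2.1 ≤ B1 a ∧ d.2.2.1 ≤ B1 a ∧ d.2.2.2.1 ≤ B1 a ∧
      d.2.2.2.2 ≤ B1 a := by
    simp only [hB1]
    omega
  have hsz : sz (a, d) ≤ sz a + 20 * sz (B1 a) + 5 := by
    obtain ⟨d1, d2, d3, d4, d5⟩ := d
    have h1 := sz_le_of_le hb.1
    have h2 := sz_le_of_le hb.2.1
    have h3 := sz_le_of_le hb.2.2.1
    have h4 := sz_le_of_le hb.2.2.2.1
    have h5 := sz_le_of_le hb.2.2.2.2
    simp only [sz_pair] at *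
    omega
  have htb : ∀ i, t i < T3 a := by
    intro i
    have h1 := two_pow_le_nu_of_layer (ht i).1
    have h2 := (sT1 (a, d) i).trans (sT2 a _ hsz)
    exact (Nat.pow_lt_pow_iff_right (by norm_num)).1 ((h1.trans h2).trans_lt (sT3 a))
  have hB2' := sB2 a
  refine ⟨[d.1, d.2.1, d.2.2.1, d.2.2.2.1, d.2.2.2.2] ++ List.ofFn fun i => t (Fin.castSucc i),
    by simp; omega, ?_, fun i => p (Fin.castSucc i), fun i => ?_, hpT⟩
  · intro k hk
    simp only [List.mem_append, List.mem_cons, List.not_mem_nil, or_false, List.mem_ofFn] at hk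
    dsimp only
    rcases hk with (rfl | rfl | rfl | rfl | rfl) | ⟨i, rfl⟩
    iterate 5 omega
    have := htb (Fin.castSucc i)
    omega
  · have h1 : cellOf ([d.1, d.2.1, d.2.2.1, d.2.2.2.1, d.2.2.2.2] ++
        List.ofFn fun i : Fin (r a) => t (Fin.castSucc i)) = d := rfl
    have h2 : ([d.1, d.2.1, d.2.2.1, d.2.2.2.1, d.2.2.2.2] ++
        List.ofFn fun i : Fin (r a) => t (Fin.castSucc i)).getD (5 + i) 0 = t (Fin.castSucc i) := by
      rw [List.getD_append_right _ _ _ _ (by simp)]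
      simp
    dsimp only
    rw [h1, h2]
    exact ht (Fin.castSucc i)

theorem ch_ea (hr : Poly r) (hrb : PB r) (hN : Poly N) (hNb : PB N)
    {Q : ∀ a, MvPolynomial (Fin (r a + N a)) ℤ} (hQ : Good Q) :
    CH fun a => ∃ x : Fin (r a) → ℝ,
      ¬∃ y : Fin (N a) → ℝ, aeval (Fin.append x y) (Q a) = 0 := by
  obtain ⟨m, B, W, hm, hmb, hB, hW, h⟩ := exists_cand hr hrb hN hNb hQ
  have hf : Poly fun x : α × List ℕ => x.1 := by fun_prop
  have h1 : CH fun b : α × List ℕ => ∃ x, Roots (W b) x ∧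
      ¬∃ y : Fin (N b.1) → ℝ, aeval (Fin.append x y) (Q b.1) = 0 := by
    refine bp_not (M := fun b : α × List ℕ => r b.1) (hr.comp hf) (hrb.comp hf) hW
      (T := fun b x => ∃ y : Fin (N b.1) → ℝ, aeval (Fin.append x y) (Q b.1) = 0) ?_
    intro β _ f hf' R hR
    have hg : Poly fun b => (f b).1 := hf.comp hf'
    refine ch_inner (r := fun b => r (f b).1) (N := fun b => N (f b).1) (hr.comp hg)
      (hrb.comp hg) (hN.comp hg) (hNb.comp hg) (hQ.comp hg) (W := fun b => W (f b)) ?_ hR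
    exact hW.comp (φ := fun x : Σ b, Fin (r (f b).1) => (⟨f x.1, x.2⟩ : Σ b : α × List ℕ, Fin (r b.1)))
      (poly_mkFin (n := fun b : α × List ℕ => r b.1) (by fun_prop) (by fun_prop))
  refine (CH.exists_list hm hmb hB h1).congr fun a => ⟨?_, h a⟩
  rintro ⟨l, -, -, x, -, hx⟩
  exact ⟨x, hx⟩

theorem main : ∃ j : ℕ, Crest.RealEA.EATR ∈ Crest.CountHier.level j := by
  obtain ⟨ok, r, N, Q, hok, hr, hrb, hN, hNb, hQ, h⟩ := exists_Q
  have h1 := ((CH.of_bool hok).and (ch_ea hr hrb hN hNb hQ)).congr fun w => (h w).symm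
  exact h1.mem_level

end Crest.Agent.R316
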