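import Crest.Agent.R316.CH

/-! Iterated products modulo a prime. -/

set_option autoImplicit false
open Crest.Agent.Lib.PolyTime
open scoped Polynomial

namespace Crest.Agent.R316

variable {α : Type} [PEnc α]

namespace ModAux

theorem chf_bin {op : ℕ × ℕ → ℕ} (hop : Poly op) {f g : α → ℕ} (hf : CHF f) (hg : CHF g) :
    CHF fun a => op (f a, g a) :=
  CHF.subst hf (F := fun x : α × ℕ => op (x.2, g x.1))
    (CHF.subst (hg.comp (φ := fun x : α × ℕ => x.1) (by fun_prop))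
      (F := fun y : (α × ℕ) × ℕ => op (y.1.2, y.2)) (CHF.of_poly (by fun_prop)))

theorem ch_bin {R : ℕ × ℕ → Prop} [DecidablePred R] (hR : Poly fun x => decide (R x))
    {f g : α → ℕ} (hf : CHF f) (hg : CHF g) : CH fun a => R (f a, g a) :=
  CH.subst hf (P := fun x : α × ℕ => R (x.2, g x.1))
    (CH.subst (hg.comp (φ := fun x : α × ℕ => x.1) (by fun_prop))
      (P := fun y : (α × ℕ) × ℕ => R (y.1.2, y.2))
      ((CH.of_decide hR).comp (φ := fun y : (α × ℕ) × ℕ => (y.1.2, y.2)) (by fun_prop)))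

theorem ch_eq {f g : α → ℕ} (hf : CHF f) (hg : CHF g) : CH fun a => f a = g a :=
  ch_bin (R := fun x => x.1 = x.2) (by fun_prop) hf hg

theorem ch_le {f g : α → ℕ} (hf : CHF f) (hg : CHF g) : CH fun a => f a ≤ g a :=
  ch_bin (R := fun x => x.1 ≤ x.2) (by fun_prop) hf hg

theorem ch_lt {f g : α → ℕ} (hf : CHF f) (hg : CHF g) : CH fun a => f a < g a :=
  ch_bin (R := fun x => x.1 < x.2) (by fun_prop) hf hg

theorem ch_dvd {f g : α → ℕ} (hf : CHF f) (hg : CHF g) : CH fun a => f a ∣ g a :=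
  ch_bin (R := fun x => x.1 ∣ x.2) (by fun_prop) hf hg

theorem chf_mod {f g : α → ℕ} (hf : CHF f) (hg : CHF g) : CHF fun a => f a % g a :=
  chf_bin (op := fun x => x.1 % x.2) (by fun_prop) hf hg

theorem chf_div {f g : α → ℕ} (hf : CHF f) (hg : CHF g) : CHF fun a => f a / g a :=
  chf_bin (op := fun x => x.1 / x.2) (by fun_prop) hf hg

theorem chf_powMod {f g p : α → ℕ} (hf : CHF f) (hg : CHF g) (hp : Poly p) :
    CHF fun a => f a ^ g a % max (p a) 1 :=
  CHF.subst hf (F := fun x : α × ℕ => x.2 ^ g x.1 % max (p x.1) 1)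
    (CHF.subst (hg.comp (φ := fun x : α × ℕ => x.1) (by fun_prop))
      (F := fun y : (α × ℕ) × ℕ => y.1.2 ^ y.2 % max (p y.1.1) 1)
      (CHF.of_poly (Poly.powMod (by fun_prop) (by fun_prop) (by fun_prop) fun _ => by omega)))

/-- a witness of a bounded existential statement -/
theorem exists_witness {N : α → ℕ} (hN : Poly N) {B : α × ℕ → Prop} (hB : CH B) :
    ∃ L : α → ℕ, CHF L ∧ ∀ a, (∃ y < N a, B (a, y)) → B (a, L a) := by
  classical
  have h1 : CH fun x : α × ℕ => ∀ y < x.2 + 1, ¬ B (x.1, y) :=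
    CH.forall_lt (N := fun x : α × ℕ => x.2 + 1) (by fun_prop)
      (B := fun y : (α × ℕ) × ℕ => ¬ B (y.1.1, y.2))
      (hB.comp (φ := fun y : (α × ℕ) × ℕ => (y.1.1, y.2)) (by fun_prop)).not
  refine ⟨_, CHF.cnt hN h1, fun a ⟨y, hy, hb⟩ => ?_⟩
  have H : ∃ y, B (a, y) := ⟨y, hb⟩
  have e : cnt (N a) (fun y => ∀ y' < y + 1, ¬ B (a, y')) = Nat.find H := by
    rw [cnt, ← Finset.card_range (Nat.find H)]
    congr 1
    ext k
    simp only [Finset.mem_filter, Finset.mem_range, Nat.lt_find_iff]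
    constructor
    · exact fun h m hm => h.2 m (by omega)
    · intro h
      refine ⟨?_, fun m hm => h m (by omega)⟩
      by_contra hk
      exact h y (by omega) hb
  show B (a, cnt (N a) (fun y => ∀ y' < y + 1, ¬ B (a, y')))
  rw [e]
  exact Nat.find_spec H

theorem exists_gen {p : ℕ} (hp : p.Prime) :
    ∃ g < p, ∀ x < p, x ≠ 0 → ∃ e < p, g ^ e % max p 1 = x := by
  have := Fact.mk hp
  obtain ⟨g, hg⟩ := IsCyclic.exists_generator (α := (ZMod p)ˣ)
  refine ⟨(g : ZMod p).val, ZMod.val_lt _, fun x hx h0 => ?_⟩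
  have hx0 : (x : ZMod p) ≠ 0 := by
    rw [Ne, ZMod.natCast_eq_zero_iff]
    exact Nat.not_dvd_of_pos_of_lt (Nat.pos_of_ne_zero h0) hx
  have hm := hg (Units.mk0 _ hx0)
  rw [mem_zpowers_iff_mem_range_orderOf, Finset.mem_image] at hm
  obtain ⟨e, he, hx'⟩ := hm
  refine ⟨e, ?_, ?_⟩
  · have h1 : orderOf g ≤ Fintype.card (ZMod p)ˣ := orderOf_le_card_univ
    rw [ZMod.card_units] at h1
    have := Finset.mem_range.1 he
    omega
  · rw [max_eq_left hp.one_le, ← Nat.mod_eq_of_lt hx, ← ZMod.natCast_eq_natCast_iff']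
    have := congrArg (Units.val) hx'
    simpa using this

end ModAux

open ModAux

theorem CH.prime {p : α → ℕ} (hp : Poly p) : CH fun a => (p a).Prime := by
  have h1 : CH fun a => 2 ≤ p a := CH.of_decide (by fun_prop)
  have h2 : CH fun a => ∀ m < p a, (m ∣ p a → m = 1) :=
    CH.forall_lt hp (B := fun x : α × ℕ => x.2 ∣ p x.1 → x.2 = 1)
      ((CH.of_decide (by fun_prop)).imp (CH.of_decide (by fun_prop)))
  exact (h1.and h2).congr fun a => Nat.prime_def_lt.symm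

theorem CHF.prodMod {n p : α → ℕ} (hn : Poly n) (hp : Poly p) {f : α → ℕ → ℕ}
    (hf : CHF fun x : α × ℕ => f x.1 x.2) :
    ∃ F : α → ℕ, CHF F ∧ ∀ a, (p a).Prime →
      ((F a : ℕ) : ZMod (p a)) = ∏ i ∈ Finset.range (n a), ((f a i : ℕ) : ZMod (p a)) := by
  classical
  have hgen : CH fun x : α × ℕ =>
      ∀ y < p x.1, y ≠ 0 → ∃ e < p x.1, x.2 ^ e % max (p x.1) 1 = y := by
    refine CH.forall_lt (N := fun x : α × ℕ => p x.1) (by fun_prop)
      (B := fun y : (α × ℕ) × ℕ => y.2 ≠ 0 → ∃ e < p y.1.1, y.1.2 ^ e % max (p y.1.1) 1 = y.2)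
      (CH.imp (CH.of_decide (by fun_prop)) ?_)
    exact CH.exists_lt (N := fun y : (α × ℕ) × ℕ => p y.1.1) (by fun_prop)
      (B := fun w : ((α × ℕ) × ℕ) × ℕ => w.1.1.2 ^ w.2 % max (p w.1.1.1) 1 = w.1.2)
      (ch_eq (chf_powMod (CHF.of_poly (by fun_prop)) (CHF.of_poly (by fun_prop)) (by fun_prop))
        (CHF.of_poly (by fun_prop)))
  obtain ⟨G, hG, hG'⟩ := exists_witness hp hgen
  have hlog : CH fun y : (α × ℕ) × ℕ =>
      G y.1.1 ^ y.2 % max (p y.1.1) 1 = f y.1.1 y.1.2 % p y.1.1 :=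
    ch_eq (chf_powMod (hG.comp (φ := fun y : (α × ℕ) × ℕ => y.1.1) (by fun_prop))
        (CHF.of_poly (by fun_prop)) (by fun_prop))
      (chf_mod (hf.comp (φ := fun y : (α × ℕ) × ℕ => y.1) (by fun_prop))
        (CHF.of_poly (by fun_prop)))
  obtain ⟨L, hL, hL'⟩ := exists_witness (N := fun x : α × ℕ => p x.1) (by fun_prop) hlog
  have hS : CHF fun a => ∑ i ∈ Finset.range (n a), L (a, i) :=
    CHF.sum_range hn (f := fun a i => L (a, i)) hL
  have hZ : CH fun a => ∃ i < n a, p a ∣ f a i :=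
    CH.exists_lt hn (B := fun x : α × ℕ => p x.1 ∣ f x.1 x.2)
      (ch_dvd (CHF.of_poly (by fun_prop)) hf)
  refine ⟨_, CHF.ite hZ (CHF.of_poly (f := fun _ => 0) (by fun_prop)) (chf_powMod hG hS hp), fun a ha => ?_⟩
  split_ifs with h
  · obtain ⟨i, hi, hd⟩ := h
    rw [Nat.cast_zero, eq_comm]
    exact Finset.prod_eq_zero (Finset.mem_range.2 hi) ((ZMod.natCast_eq_zero_iff _ _).2 hd)
  · rw [max_eq_left ha.one_le, ZMod.natCast_mod, Nat.cast_pow, ← Finset.prod_pow_eq_pow_sum]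
    refine Finset.prod_congr rfl fun i hi => ?_
    have h1 := hG' a (exists_gen ha) (f a i % p a) (Nat.mod_lt _ ha.pos)
      (fun h0 => h ⟨i, Finset.mem_range.1 hi, Nat.dvd_of_mod_eq_zero h0⟩)
    have h2 := hL' (a, i) h1
    simp only [max_eq_left ha.one_le] at h2
    rw [← Nat.cast_pow, ZMod.natCast_eq_natCast_iff']
    exact h2

end Crest.Agent.R316
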