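import Crest.Agent.R316.Spec

/-! Real analysis of the penalty function. -/

set_option autoImplicit false
open Crest.Agent.Lib.PolyTime
open scoped Polynomial

namespace Crest.Agent.R316

open MvPolynomial Filter Topology

variable {n E κ : ℕ}

namespace PenAux

/-- The coercive part of the penalty function. -/
def phi (E : ℕ) (y : Fin n → ℝ) : ℝ := ∑ i, y i ^ (E + 1)

theorem continuous_phi : Continuous (phi E : (Fin n → ℝ) → ℝ) := by
  unfold phi
  fun_prop

theorem pow_nonneg' (hE : Odd E) (x : ℝ) : 0 ≤ x ^ (E + 1) := hE.add_one.pow_nonneg x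

theorem phi_nonneg (hE : Odd E) (y : Fin n → ℝ) : 0 ≤ phi E y :=
  Finset.sum_nonneg fun _ _ => pow_nonneg' hE _

theorem eval_penF (l : ℝ) (Q : MvPolynomial (Fin n) ℝ) (y : Fin n → ℝ) :
    eval y (penF E l Q) = phi E y + ((E + 1 : ℕ) : ℝ) * l * eval y Q := by
  simp [penF, phi]

theorem phi_le {Q : MvPolynomial (Fin n) ℝ} (hQ0 : ∀ y, 0 ≤ eval y Q) {l : ℝ} (hl : 0 ≤ l)
    (y : Fin n → ℝ) : phi E y ≤ eval y (penF E l Q) := by
  rw [eval_penF]
  have := hQ0 y
  exact le_add_of_nonneg_right (by positivity)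

theorem isCompact_phi (hE : Odd E) (c : ℝ) : IsCompact {y : Fin n → ℝ | phi E y ≤ c} := by
  refine Metric.isCompact_of_isClosed_isBounded (isClosed_le continuous_phi continuous_const)
    ((Metric.isBounded_closedBall (x := (0 : Fin n → ℝ)) (r := max 1 c)).subset fun y hy => ?_)
  rw [mem_closedBall_zero_iff, pi_norm_le_iff_of_nonneg (le_max_of_le_left zero_le_one)]
  intro i
  by_cases h : ‖y i‖ ≤ 1
  · exact le_max_of_le_left h
  · refine le_max_of_le_right ?_
    have h1 : y i ^ (E + 1) ≤ phi E y :=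
      Finset.single_le_sum (f := fun i => y i ^ (E + 1)) (fun _ _ => pow_nonneg' hE _)
        (Finset.mem_univ i)
    have h2 : ‖y i‖ ≤ ‖y i‖ ^ (E + 1) := le_self_pow₀ (not_le.1 h).le (Nat.succ_ne_zero E)
    rw [Real.norm_eq_abs, hE.add_one.pow_abs] at h2
    exact h2.trans (h1.trans hy)

theorem hasDerivAt_update (f : MvPolynomial (Fin n) ℝ) (y : Fin n → ℝ) (i : Fin n) :
    HasDerivAt (fun t => eval (Function.update y i t) f) (eval y (pderiv i f)) (y i) := by
  induction f using MvPolynomial.induction_on with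
  | C a => simpa using hasDerivAt_const (y i) a
  | add p q hp hq =>
    simp only [map_add]
    exact hp.add hq
  | mul_X p j hp =>
    by_cases hj : j = i
    · subst hj
      have := hp.mul (hasDerivAt_id (y j))
      simp only [map_mul, eval_X, Function.update_self, Derivation.leibniz, pderiv_X_self,
        smul_eq_mul, mul_one, map_add]
      refine this.congr_deriv ?_
      simp only [id, Function.update_eq_self]
      ring
    · have := hp.mul_const (y j)
      simp only [map_mul, eval_X, Function.update_of_ne hj, Derivation.leibniz,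
        pderiv_X_of_ne hj, smul_eq_mul, mul_zero, zero_add]
      refine this.congr_deriv ?_
      ring

theorem isSol_of_isLocalMin {Q : MvPolynomial (Fin n) ℝ} {l : ℝ} {y : Fin n → ℝ}
    (h : IsLocalMin (fun y => eval y (penF E l Q)) y) : IsSol E (penG l Q) y := by
  intro i
  have h1 : IsLocalMin (fun y => eval y (penF E l Q)) (Function.update y i (y i)) := by
    rwa [Function.update_eq_self]
  have h2 := (h1.comp_continuous (g := fun t => Function.update y i t)
    (continuous_const.update i continuous_id).continuousAt).hasDerivAt_eq_zero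
    (hasDerivAt_update _ y i)
  have h3 : pderiv i (penF E l Q) =
      C ((E + 1 : ℕ) : ℝ) * (X i ^ E + C l * pderiv i Q) := by
    rw [penF, map_add, map_sum, pderiv_C_mul, Finset.sum_eq_single i]
    · rw [Derivation.leibniz_pow, pderiv_X_self, map_mul, map_natCast]
      simp only [add_tsub_cancel_right, smul_eq_mul, mul_one, nsmul_eq_mul]
      ring
    · intro j _ hj
      rw [Derivation.leibniz_pow, pderiv_X_of_ne hj]
      simp
    · simp
  rw [h3, map_mul, eval_C, mul_eq_zero] at h2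
  have h4 := h2.resolve_left (Nat.cast_ne_zero.2 (Nat.succ_ne_zero E))
  simp only [map_add, map_pow, eval_X, map_mul, eval_C] at h4
  simp only [penG, map_neg, map_mul, eval_C]
  linarith

theorem exists_min {Q : MvPolynomial (Fin n) ℝ} (hQ0 : ∀ y, 0 ≤ eval y Q) (hE : Odd E) {l : ℝ}
    (hl : 0 ≤ l) : ∃ y, ∀ z, eval y (penF E l Q) ≤ eval z (penF E l Q) := by
  obtain ⟨y, -, hy⟩ := (isCompact_phi (n := n) hE (eval 0 (penF E l Q))).exists_isMinOn
    ⟨0, phi_le hQ0 hl 0⟩ (MvPolynomial.continuous_eval (penF E l Q)).continuousOn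
  refine ⟨y, fun z => ?_⟩
  by_cases hz : phi E z ≤ eval 0 (penF E l Q)
  · exact hy hz
  · exact (hy (phi_le hQ0 hl 0)).trans ((not_le.1 hz).le.trans (phi_le hQ0 hl z))

theorem zero_of_limit {Q : MvPolynomial (Fin n) ℝ} (hQ0 : ∀ y, 0 ≤ eval y Q) (hE : Odd E)
    {l : ℕ → ℝ} {ξ : ℕ → Fin n → ℝ} {a : Fin n → ℝ} {B : ℝ} (hl : Tendsto l atTop atTop)
    (hξ : Tendsto ξ atTop (𝓝 a)) (hB : ∀ᶠ k in atTop, eval (ξ k) (penF E (l k) Q) ≤ B) :
    eval a Q = 0 := by
  refine le_antisymm ?_ (hQ0 a)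
  have h1 : Tendsto (fun k => eval (ξ k) Q) atTop (𝓝 (eval a Q)) :=
    ((MvPolynomial.continuous_eval Q).tendsto a).comp hξ
  refine le_of_tendsto_of_tendsto h1 (hl.const_div_atTop B) ?_
  filter_upwards [hB, hl.eventually_gt_atTop 0] with k hk hk0
  rw [le_div_iff₀ hk0]
  rw [eval_penF] at hk
  have h2 := phi_nonneg hE (ξ k)
  have h3 : 0 ≤ l k * eval (ξ k) Q := mul_nonneg hk0.le (hQ0 _)
  have h4 : (0 : ℝ) ≤ E := Nat.cast_nonneg E
  push_cast at hk
  nlinarith [mul_nonneg h4 h3]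

theorem natDegree_layer_le {K : Type} [CommRing K] (t : ℕ) (W : K[X][X]) :
    (layer t W).natDegree ≤ W.natDegree := by
  rw [Polynomial.natDegree_le_iff_coeff_eq_zero]
  intro j hj
  rw [coeff_layer, Polynomial.coeff_eq_zero_of_natDegree_lt hj, Polynomial.coeff_zero]

theorem exists_top {W : ℝ[X][X]} (hW : W ≠ 0) : ∃ t, layer t W ≠ 0 ∧ ∀ l v : ℝ, 1 ≤ l →
    (W.map (Polynomial.evalRingHom l)).eval v = 0 →
    l * |(layer t W).eval v| ≤ ∑ i ∈ Finset.range t, |(layer i W).eval v| := by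
  obtain ⟨j, hj, hsup⟩ := Finset.exists_mem_eq_sup W.support
    (Polynomial.support_nonempty.2 hW) (fun j => (W.coeff j).natDegree)
  have hle : ∀ k, (W.coeff k).natDegree ≤ (W.coeff j).natDegree := by
    intro k
    by_cases hk : k ∈ W.support
    · rw [← hsup]
      exact Finset.le_sup (f := fun j => (W.coeff j).natDegree) hk
    · rw [Polynomial.notMem_support_iff.1 hk]
      simp
  refine ⟨(W.coeff j).natDegree, fun h => ?_, fun l v hl h => ?_⟩
  · have := coeff_layer (W.coeff j).natDegree W j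
    rw [h, Polynomial.coeff_zero] at this
    exact Polynomial.mem_support_iff.1 hj (Polynomial.leadingCoeff_eq_zero.1 this.symm)
  · generalize (W.coeff j).natDegree = t at *
    have e : (W.map (Polynomial.evalRingHom l)).eval v =
        ∑ i ∈ Finset.range (t + 1), l ^ i * (layer i W).eval v := by
      rw [Polynomial.eval_eq_sum_range' (Nat.lt_succ_of_le Polynomial.natDegree_map_le)]
      simp only [Polynomial.eval_eq_sum_range' (Nat.lt_succ_of_le (natDegree_layer_le _ W)),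
        Polynomial.coeff_map, Polynomial.coe_evalRingHom, coeff_layer, Finset.mul_sum,
        fun k => Polynomial.eval_eq_sum_range' (Nat.lt_succ_of_le (hle k)) l, Finset.sum_mul]
      rw [Finset.sum_comm]
      refine Finset.sum_congr rfl fun i _ => Finset.sum_congr rfl fun k _ => ?_
      ring
    rw [e, Finset.sum_range_succ] at h
    have hl0 : 0 < l := zero_lt_one.trans_le hl
    rcases Nat.eq_zero_or_pos t with rfl | ht
    · simp only [Finset.range_zero, Finset.sum_empty, pow_zero, one_mul, zero_add] at h ⊢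
      rw [h, abs_zero, mul_zero]
    · obtain ⟨u, rfl⟩ : ∃ u, t = u + 1 := ⟨t - 1, by omega⟩
      have h1 : l ^ (u + 1) * |(layer (u + 1) W).eval v| =
          |∑ i ∈ Finset.range (u + 1), l ^ i * (layer i W).eval v| := by
        rw [eq_neg_of_add_eq_zero_left h, abs_neg, abs_mul, abs_of_pos (pow_pos hl0 _)]
      have h2 : |∑ i ∈ Finset.range (u + 1), l ^ i * (layer i W).eval v| ≤
          l ^ u * ∑ i ∈ Finset.range (u + 1), |(layer i W).eval v| := by
        rw [Finset.mul_sum]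
        refine (Finset.abs_sum_le_sum_abs _ _).trans (Finset.sum_le_sum fun i hi => ?_)
        rw [abs_mul, abs_of_pos (pow_pos hl0 _)]
        exact mul_le_mul_of_nonneg_right
          (pow_le_pow_right₀ hl (Nat.lt_succ_iff.1 (Finset.mem_range.1 hi))) (abs_nonneg _)
      rw [← h1, pow_succ, mul_assoc] at h2
      exact le_of_mul_le_mul_left h2 (pow_pos hl0 _)

theorem exists_abs_eval_le (P : ℝ[X]) {D : ℕ} (hD : P.natDegree ≤ D) :
    ∃ c : ℝ, ∀ v s : ℝ, 1 ≤ s → |v| ≤ s → |P.eval v| ≤ c * s ^ D := by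
  refine ⟨∑ j ∈ Finset.range (D + 1), |P.coeff j|, fun v s hs hv => ?_⟩
  rw [Polynomial.eval_eq_sum_range' (Nat.lt_succ_of_le hD), Finset.sum_mul]
  refine (Finset.abs_sum_le_sum_abs _ _).trans (Finset.sum_le_sum fun j hj => ?_)
  rw [abs_mul, abs_pow]
  exact mul_le_mul_of_nonneg_left ((pow_le_pow_left₀ (abs_nonneg _) hv j).trans
    (pow_le_pow_right₀ hs (Nat.lt_succ_iff.1 (Finset.mem_range.1 hj)))) (abs_nonneg _)

theorem exists_le_abs_eval {P : ℝ[X]} (hP : P ≠ 0) :
    ∃ c B : ℝ, 0 < c ∧ ∀ v, B ≤ v → c ≤ |P.eval v| := by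
  by_cases h : 0 < P.degree
  · obtain ⟨B, hB⟩ := eventually_atTop.1 ((P.abs_tendsto_atTop h).eventually_ge_atTop 1)
    exact ⟨1, B, one_pos, hB⟩
  · rw [Polynomial.eq_C_of_degree_le_zero (not_lt.1 h)] at hP ⊢
    exact ⟨|P.coeff 0|, 0, abs_pos.2 fun h0 => hP (by rw [h0, map_zero]), fun v _ => by simp⟩

theorem zeroPoly_ne_zero {K : Type} [CommRing K] {G : Fin n → MvPolynomial (Fin n) K}
    (hG : IsPham E G) (f : K →+* ℂ) (g : MvPolynomial (Fin n) K) : zeroPoly E G g ≠ 0 := by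
  intro h
  have h1 := map_zeroPoly hG f g
  obtain ⟨ξ, hξ⟩ := exists_valid (hG.map f)
  rw [h, Polynomial.map_zero, zeroPoly_eq hξ] at h1
  refine mul_ne_zero (Polynomial.C_ne_zero.2 (pow_ne_zero _ ?_))
    (Polynomial.monic_prod_of_monic _ _ fun j _ => Polynomial.monic_X_add_C _).ne_zero h1.symm
  exact Nat.cast_ne_zero.2 (Nat.factorial_ne_zero _)

theorem eval_ofReal (y : Fin n → ℝ) (g : MvPolynomial (Fin n) ℝ) :
    eval (fun i => (y i : ℂ)) (map Complex.ofRealHom g) = ((eval y g : ℝ) : ℂ) := by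
  induction g using MvPolynomial.induction_on with
  | C a => simp
  | add p q hp hq => simp [hp, hq]
  | mul_X p j hp => simp [hp]

theorem eval_zeroPoly {G : Fin n → MvPolynomial (Fin n) ℝ} (hG : IsPham E G) {y : Fin n → ℝ}
    (hy : IsSol E G y) (g : MvPolynomial (Fin n) ℝ) :
    (zeroPoly E G (-g)).eval (eval y g) = 0 := by
  obtain ⟨ξ, hξ⟩ := exists_valid (hG.map Complex.ofRealHom)
  obtain ⟨j, hj⟩ := (hξ.mem_range_iff (hG.map Complex.ofRealHom) (fun i => (y i : ℂ))).2
    fun i => by rw [eval_ofReal, ← hy i]; simp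
  have h1 := Polynomial.eval_map_apply (p := zeroPoly E G (-g)) Complex.ofRealHom (eval y g)
  rw [map_zeroPoly hG, zeroPoly_eq hξ, Polynomial.eval_mul, Polynomial.eval_prod,
    Finset.prod_eq_zero (Finset.mem_univ j), mul_zero] at h1
  · exact Complex.ofReal_eq_zero.1 h1.symm
  · rw [hj, map_neg, map_neg, eval_ofReal]
    simp

theorem eval_map_zeroPoly {Q : MvPolynomial (Fin n) ℝ} (hE : Odd E) (hQ : Q.totalDegree ≤ E)
    {l : ℝ} {y : Fin n → ℝ} (hy : IsSol E (penG l Q) y) (g : MvPolynomial (Fin n) ℝ[X]) :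
    ((zeroPoly E (penG Polynomial.X (map Polynomial.C Q)) (-g)).map
      (Polynomial.evalRingHom l)).eval (eval y (map (Polynomial.evalRingHom l) g)) = 0 := by
  rw [map_zeroPoly (isPham_penG hE.pos ((SpecAux.totalDegree_map_le _ Q).trans hQ) _)]
  simp only [map_penG, SpecAux.map_eval_C, Polynomial.coe_evalRingHom, Polynomial.eval_X, map_neg]
  exact eval_zeroPoly (isPham_penG hE.pos hQ l) hy _

theorem zeroPoly_pen_ne_zero {Q : MvPolynomial (Fin n) ℝ} (hE : Odd E) (hQ : Q.totalDegree ≤ E)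
    (g : MvPolynomial (Fin n) ℝ[X]) :
    zeroPoly E (penG Polynomial.X (map Polynomial.C Q)) g ≠ 0 :=
  zeroPoly_ne_zero (isPham_penG hE.pos ((SpecAux.totalDegree_map_le _ Q).trans hQ) _)
    (Complex.ofRealHom.comp (Polynomial.evalRingHom 0)) g

end PenAux

theorem exists_crit {Q : MvPolynomial (Fin n) ℝ} (hQ0 : ∀ y, 0 ≤ eval y Q) (hE : Odd E) {l : ℝ}
    (hl : 0 ≤ l) (c : ℝ) :
    (∃ y, eval y (penF E l Q) < c) ↔
      ∃ y, IsSol E (penG l Q) y ∧ eval y (penF E l Q) < c := by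
  refine ⟨fun ⟨y, hy⟩ => ?_, fun ⟨y, _, hy⟩ => ⟨y, hy⟩⟩
  obtain ⟨z, hz⟩ := PenAux.exists_min hQ0 hE hl
  exact ⟨z, PenAux.isSol_of_isLocalMin (Eventually.of_forall hz), (hz y).trans_lt hy⟩

theorem eventually_pen {Q : MvPolynomial (Fin n) ℝ} (hp : Params E κ Q)
    (hQ0 : ∀ y, 0 ≤ eval y Q) :
    ∀ᶠ s : ℝ in atTop, ((∃ y, eval y (penF E (s ^ κ) Q) < s) ↔ ∃ y, eval y Q = 0) := by
  by_cases h0 : ∃ y, eval y Q = 0
  · obtain ⟨y, hy⟩ := h0
    filter_upwards [eventually_gt_atTop (PenAux.phi E y)] with s hs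
    refine iff_of_true ⟨y, ?_⟩ ⟨y, hy⟩
    rwa [PenAux.eval_penF, hy, mul_zero, add_zero]
  · by_contra hcon
    have h1 : ∃ᶠ s : ℝ in atTop, (∃ y, eval y (penF E (s ^ κ) Q) < s) ∧ 1 ≤ s := by
      refine Frequently.and_eventually ?_ (eventually_ge_atTop 1)
      refine (not_eventually.1 hcon).mono fun s hs => ?_
      by_contra hx
      exact hs (iff_of_false hx h0)
    obtain ⟨s, hs, hs'⟩ := exists_seq_forall_of_frequently h1
    have hl : ∀ k, 1 ≤ s k ^ κ := fun k => one_le_pow₀ (hs' k).2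
    choose ξ hξ1 hξ2 using fun k =>
      (exists_crit hQ0 hp.odd (zero_le_one.trans (hl k)) (s k)).1 (hs' k).1
    obtain ⟨t, ht0, ht⟩ := PenAux.exists_top (PenAux.zeroPoly_pen_ne_zero hp.odd hp.deg
      (-penF E Polynomial.X (map Polynomial.C Q)))
    have hroot := fun k => ht _ _ (hl k) (PenAux.eval_map_zeroPoly hp.odd hp.deg (hξ1 k)
      (penF E Polynomial.X (map Polynomial.C Q)))
    simp only [map_penF, SpecAux.map_eval_C, Polynomial.coe_evalRingHom, Polynomial.eval_X]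
      at hroot
    have hdeg : (zeroPoly E (penG Polynomial.X (map Polynomial.C Q))
        (-penF E Polynomial.X (map Polynomial.C Q))).natDegree ≤ E ^ n := natDegree_chi_le _ _ _
    generalize zeroPoly E (penG Polynomial.X (map Polynomial.C Q))
        (-penF E Polynomial.X (map Polynomial.C Q)) = W at *
    choose c hc using fun i =>
      PenAux.exists_abs_eval_le (layer i W) ((PenAux.natDegree_layer_le i W).trans hdeg)
    obtain ⟨c0, B, hc0, hB⟩ := PenAux.exists_le_abs_eval ht0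
    have hv0 : ∀ k, 0 ≤ eval (ξ k) (penF E (s k ^ κ) Q) := fun k =>
      (PenAux.phi_nonneg hp.odd _).trans (PenAux.phi_le hQ0 (zero_le_one.trans (hl k)) _)
    have hev : ∀ᶠ k in atTop, eval (ξ k) (penF E (s k ^ κ) Q) ≤ B := by
      filter_upwards [hs.eventually_gt_atTop ((∑ i ∈ Finset.range t, c i) / c0)] with k hk
      by_contra hx
      have h2 := hB _ (not_le.1 hx).le
      have h3 : ∑ i ∈ Finset.range t, |(layer i W).eval (eval (ξ k) (penF E (s k ^ κ) Q))| ≤
          (∑ i ∈ Finset.range t, c i) * s k ^ E ^ n := by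
        rw [Finset.sum_mul]
        exact Finset.sum_le_sum fun i _ =>
          hc i _ _ (hs' k).2 (by rw [abs_of_nonneg (hv0 k)]; exact (hξ2 k).le)
      have h4 : s k ^ (E ^ n + 1) ≤ s k ^ κ := pow_le_pow_right₀ (hs' k).2 hp.big
      have h5 : 0 < s k ^ E ^ n := pow_pos (zero_lt_one.trans_le (hs' k).2) _
      have h6 : s k ^ (E ^ n + 1) * c0 ≤ (∑ i ∈ Finset.range t, c i) * s k ^ E ^ n :=
        (mul_le_mul h4 h2 hc0.le (zero_le_one.trans (hl k))).trans ((hroot k).trans h3)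
      rw [div_lt_iff₀ hc0] at hk
      rw [pow_succ, mul_assoc, mul_comm] at h6
      exact absurd (le_of_mul_le_mul_right h6 h5) (not_le.2 hk)
    obtain ⟨a, -, φ, hφ, ha⟩ := (PenAux.isCompact_phi (n := n) hp.odd B).tendsto_subseq'
      (x := ξ) (hev.mono fun k hk =>
        (PenAux.phi_le hQ0 (zero_le_one.trans (hl k)) _).trans hk).frequently
    have hκ : κ ≠ 0 := (Nat.zero_lt_of_lt hp.big).ne'
    exact h0 ⟨a, PenAux.zero_of_limit hQ0 hp.odd (l := fun k => s (φ k) ^ κ)
      ((tendsto_pow_atTop hκ).comp (hs.comp hφ.tendsto_atTop)) ha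
      (hφ.tendsto_atTop.eventually hev)⟩

theorem exists_limit {Q : MvPolynomial (Fin n) ℝ} (hQ0 : ∀ y, 0 ≤ eval y Q) (hE : Odd E)
    {Y : Set (Fin n → ℝ)} (hYZ : Y ⊆ {y | eval y Q = 0}) (hY : IsClosed Y)
    (hY' : IsClosed ({y | eval y Q = 0} \ Y)) (hne : Y.Nonempty) :
    ∃ y ∈ Y, ∃ (l : ℕ → ℝ) (ξ : ℕ → Fin n → ℝ), Tendsto l atTop atTop ∧
      Tendsto ξ atTop (𝓝 y) ∧ ∀ k, IsSol E (penG (l k) Q) (ξ k) := by
  obtain ⟨y1, hy1⟩ := hne
  obtain ⟨V, hV, hKV, hVU, hVc⟩ := exists_open_between_and_isCompact_closure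
    ((PenAux.isCompact_phi hE (PenAux.phi E y1)).inter_left hY) hY'.isOpen_compl
    (fun y hy h => h.2 hy.1)
  have hy1V : y1 ∈ closure V := subset_closure (hKV ⟨hy1, le_refl (PenAux.phi E y1)⟩)
  choose ξ hξ1 hξ2 using fun k : ℕ => hVc.exists_isMinOn ⟨y1, hy1V⟩
    (MvPolynomial.continuous_eval (penF E (k : ℝ) Q)).continuousOn
  have hle : ∀ k : ℕ, eval (ξ k) (penF E (k : ℝ) Q) ≤ PenAux.phi E y1 := fun k => by
    have h1 : eval (ξ k) (penF E (k : ℝ) Q) ≤ eval y1 (penF E (k : ℝ) Q) := hξ2 k hy1V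
    have h2 : eval y1 Q = 0 := hYZ hy1
    rwa [PenAux.eval_penF _ _ y1, h2, mul_zero, add_zero] at h1
  obtain ⟨a, haV, φ, hφ, ha⟩ := hVc.tendsto_subseq hξ1
  have hl : Tendsto (fun k => (φ k : ℝ)) atTop atTop :=
    tendsto_natCast_atTop_atTop.comp hφ.tendsto_atTop
  have ha0 : eval a Q = 0 :=
    PenAux.zero_of_limit hQ0 hE hl ha (Eventually.of_forall fun k => hle (φ k))
  have haY : a ∈ Y := by
    by_contra h
    exact hVU haV ⟨ha0, h⟩
  have hap : PenAux.phi E a ≤ PenAux.phi E y1 :=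
    le_of_tendsto' ((PenAux.continuous_phi.tendsto a).comp ha) fun k =>
      (PenAux.phi_le hQ0 (Nat.cast_nonneg _) _).trans (hle (φ k))
  obtain ⟨N, hN⟩ := eventually_atTop.1 (ha.eventually (hV.mem_nhds (hKV ⟨haY, hap⟩)))
  refine ⟨a, haY, fun k => (φ (k + N) : ℝ), fun k => ξ (φ (k + N)),
    hl.comp (tendsto_add_atTop_nat N), ha.comp (tendsto_add_atTop_nat N), fun k => ?_⟩
  exact PenAux.isSol_of_isLocalMin ((hξ2 _).isLocalMin
    (mem_of_superset (hV.mem_nhds (hN (k + N) (Nat.le_add_left _ _))) subset_closure))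

theorem exists_layer_root {W : ℝ[X][X]} (hW : W ≠ 0) {l v : ℕ → ℝ} {v₀ : ℝ}
    (hl : Tendsto l atTop atTop) (hv : Tendsto v atTop (𝓝 v₀))
    (h : ∀ k, (W.map (Polynomial.evalRingHom (l k))).eval (v k) = 0) :
    ∃ t, layer t W ≠ 0 ∧ (layer t W).eval v₀ = 0 := by
  obtain ⟨t, ht0, ht⟩ := PenAux.exists_top hW
  refine ⟨t, ht0, abs_nonpos_iff.1 ?_⟩
  have h1 : ∀ P : ℝ[X], Tendsto (fun k => |P.eval (v k)|) atTop (𝓝 |P.eval v₀|) := fun P =>
    ((P.continuous.tendsto v₀).comp hv).abs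
  have h2 := (tendsto_finsetSum (Finset.range t) fun i _ => h1 (layer i W)).div_atTop hl
  refine le_of_tendsto_of_tendsto (h1 _) h2 ?_
  filter_upwards [hl.eventually_ge_atTop 1] with k hk
  rw [le_div_iff₀ (zero_lt_one.trans_le hk), mul_comm]
  exact ht _ _ hk (h k)

theorem exists_candidate {Q : MvPolynomial (Fin n) ℤ} (hQ0 : ∀ y : Fin n → ℝ, 0 ≤ aeval y Q)
    (hE : Odd E) (hdeg : Q.totalDegree ≤ E) {Y : Set (Fin n → ℝ)}
    (hYZ : Y ⊆ {y | aeval y Q = 0}) (hY : IsClosed Y)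
    (hY' : IsClosed ({y | aeval y Q = 0} \ Y)) (hne : Y.Nonempty) :
    ∃ y ∈ Y, ∃ t : Fin n → ℕ, Roots (fun i => layer (t i) (candW E Q i)) y := by
  have he : ∀ y : Fin n → ℝ, eval y (map (Int.castRingHom ℝ) Q) = aeval y Q := fun y => by
    rw [eval_map, aeval_def]
    rfl
  have hdeg' := (SpecAux.totalDegree_map_le (Int.castRingHom ℝ) Q).trans hdeg
  obtain ⟨y, hy, l, ξ, hl, hξ, hs⟩ := exists_limit (Q := map (Int.castRingHom ℝ) Q) (Y := Y)
    (fun y => by rw [he]; exact hQ0 y) hE (by simpa only [he] using hYZ) hY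
    (by simpa only [he] using hY') hne
  have hmap : ∀ i t, (layer t (candW E Q i)).map (Int.castRingHom ℝ) =
      layer t (candW E (map (Int.castRingHom ℝ) Q) i) := by
    intro i t
    have h1 := map_zeroPoly (isPham_penG hE.pos
      ((SpecAux.totalDegree_map_le Polynomial.C Q).trans hdeg) Polynomial.X)
      (Polynomial.mapRingHom (Int.castRingHom ℝ)) (-X i)
    simp only [map_penG, SpecAux.map_map_C, Polynomial.coe_mapRingHom, Polynomial.map_X, map_neg,
      map_X] at h1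
    ext j
    rw [Polynomial.coeff_map, coeff_layer, coeff_layer, candW, candW, ← h1, Polynomial.coeff_map,
      Polynomial.coe_mapRingHom, Polynomial.coeff_map]
  have key : ∀ i, ∃ t, layer t (candW E (map (Int.castRingHom ℝ) Q) i) ≠ 0 ∧
      (layer t (candW E (map (Int.castRingHom ℝ) Q) i)).eval (y i) = 0 := fun i =>
    exists_layer_root (PenAux.zeroPoly_pen_ne_zero hE hdeg' _) hl
      (((continuous_apply i).tendsto y).comp hξ) fun k => by
        simpa only [map_X, eval_X, Function.comp_apply] using PenAux.eval_map_zeroPoly hE hdeg' (hs k) (X i)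
  choose t ht0 ht using key
  refine ⟨y, hy, t, fun i => ⟨fun h => ht0 i ?_, ?_⟩⟩
  · rw [← hmap]
    simp only at h
    rw [h, Polynomial.map_zero]
  · rw [← ht i, ← hmap, Polynomial.eval_map, Polynomial.aeval_def]
    rfl

end Crest.Agent.R316
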