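import Crest.Agent.R316.PhamAux

/-! Pham systems: the closed formula for the trace form. -/

set_option autoImplicit false
open Crest.Agent.Lib.PolyTime
open scoped Polynomial

namespace Crest.Agent.R316

open MvPolynomial

namespace PhamAux

variable {n E : ℕ}

theorem mul_sub_pow {A : Type} [CommRing A] [Algebra ℂ A] (a : A) (μ : ℂ) (k : ℕ) (v : A) :
    ((LinearMap.mul ℂ A a - μ • (1 : Module.End ℂ A)) ^ k) v = (a - algebraMap ℂ A μ) ^ k * v := by
  induction k with
  | zero => simp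
  | succ k ih =>
    rw [pow_succ', Module.End.mul_apply, ih, pow_succ', LinearMap.sub_apply, LinearMap.smul_apply,
      Module.End.one_apply, LinearMap.mul_apply', Algebra.smul_def]
    ring

theorem aeval_sub_mem {A : Type} [CommRing A] [Algebra ℂ A] (J : Ideal A) (z : Fin n → A)
    (ξ : Fin n → ℂ) (hJ : ∀ i, z i - algebraMap ℂ A (ξ i) ∈ J) (h : MvPolynomial (Fin n) ℂ) :
    aeval z h - algebraMap ℂ A (eval ξ h) ∈ J := by
  induction h using MvPolynomial.induction_on with
  | C c => simp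
  | add p q hp hq =>
    have := J.add_mem hp hq
    rw [map_add, map_add, map_add]
    convert this using 1
    ring
  | mul_X p i hp =>
    have := J.add_mem (J.mul_mem_right (z i) hp)
      (J.mul_mem_left (algebraMap ℂ A (eval ξ p)) (hJ i))
    rw [map_mul, map_mul, map_mul, aeval_X, eval_X]
    convert this using 1
    ring

/-- The trace of multiplication on a finite-dimensional algebra is a sum of point evaluations. -/
theorem points {A : Type} [CommRing A] [Algebra ℂ A] [FiniteDimensional ℂ A] (z : Fin n → A) :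
    ∃ (S : Finset (Fin n → ℂ)) (d : (Fin n → ℂ) → ℕ), (∀ ξ ∈ S, 0 < d ξ) ∧
      (∀ h : MvPolynomial (Fin n) ℂ, LinearMap.trace ℂ A (LinearMap.mul ℂ A (aeval z h)) =
        ∑ ξ ∈ S, (d ξ : ℂ) * eval ξ h) ∧
      ∀ χ : A →ₐ[ℂ] ℂ, (fun i => χ (z i)) ∈ S := by
  classical
  let f : Fin n → Module.End ℂ A := fun i => LinearMap.mul ℂ A (z i)
  let V : (Fin n → ℂ) → Submodule ℂ A := fun ξ => ⨅ i, (f i).maxGenEigenspace (ξ i)
  have hcomm : ∀ a b : A, Commute (LinearMap.mul ℂ A a) (LinearMap.mul ℂ A b) := fun a b => by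
    ext v
    simp [mul_left_comm]
  have hmaps : ∀ i j φ, Set.MapsTo (f i) ((f j).maxGenEigenspace φ) ((f j).maxGenEigenspace φ) :=
    fun i j φ => Module.End.mapsTo_maxGenEigenspace_of_comm (hcomm _ _) φ
  have hind : iSupIndep V := Module.End.independent_iInf_maxGenEigenspace_of_forall_mapsTo f hmaps
  have htop : ⨆ ξ, V ξ = ⊤ := Module.End.iSup_iInf_maxGenEigenspace_eq_top_of_forall_mapsTo f
    hmaps fun i => Module.End.iSup_maxGenEigenspace_eq_top (f i)
  have hds := DirectSum.isInternal_submodule_of_iSupIndep_of_iSup_eq_top hind htop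
  have hfin : {ξ | V ξ ≠ ⊥}.Finite := WellFoundedGT.finite_ne_bot_of_iSupIndep hind
  have hmem : ∀ ξ v, v ∈ V ξ ↔ ∀ i, ∃ k : ℕ, (z i - algebraMap ℂ A (ξ i)) ^ k * v = 0 :=
    fun ξ v => by
      simp only [V, Module.End.mem_iInf_maxGenEigenspace_iff, f, mul_sub_pow]
  have hV : ∀ (a : A) ξ, Set.MapsTo (LinearMap.mul ℂ A a) (V ξ) (V ξ) := fun a ξ v hv => by
    rw [SetLike.mem_coe, hmem] at hv ⊢
    intro i
    obtain ⟨k, hk⟩ := hv i
    exact ⟨k, by rw [LinearMap.mul_apply', mul_left_comm, hk, mul_zero]⟩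
  refine ⟨hfin.toFinset, fun ξ => Module.finrank ℂ (V ξ), fun ξ hξ => ?_, fun h => ?_,
    fun χ => ?_⟩
  · have : Nontrivial (V ξ) := Submodule.nontrivial_iff_ne_bot.2 (by simpa using hξ)
    exact Module.finrank_pos
  · rw [LinearMap.trace_eq_sum_trace_restrict' hds hfin (hV _)]
    refine Finset.sum_congr rfl fun ξ _ => ?_
    have hnil : IsNilpotent ((LinearMap.mul ℂ A
        (aeval z h - algebraMap ℂ A (eval ξ h))).restrict (hV _ ξ)) := by
      refine Module.End.isNilpotent_iff_of_finite.2 fun v => ?_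
      have h1 := aeval_sub_mem (Ideal.radical (LinearMap.ker (LinearMap.toSpanSingleton A A v.1))) z ξ
        (fun i => by
          obtain ⟨k, hk⟩ := (hmem ξ v.1).1 v.2 i
          exact ⟨k, hk⟩) h
      obtain ⟨k, hk⟩ := h1
      refine ⟨k, Subtype.ext ?_⟩
      have h2 : ∀ k : ℕ, ((((LinearMap.mul ℂ A
          (aeval z h - algebraMap ℂ A (eval ξ h))).restrict (hV _ ξ)) ^ k) v : A) =
          (aeval z h - algebraMap ℂ A (eval ξ h)) ^ k * v.1 := fun k => by
        induction k with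
        | zero => simp
        | succ k ih =>
          rw [pow_succ', Module.End.mul_apply, LinearMap.coe_restrict_apply, ih, pow_succ',
            LinearMap.mul_apply', mul_assoc]
      rw [h2]
      exact hk
    have h0 := (LinearMap.isNilpotent_trace_of_isNilpotent hnil).eq_zero
    have e1 : (LinearMap.mul ℂ A (aeval z h)).restrict (hV _ ξ) = (LinearMap.mul ℂ A
        (aeval z h - algebraMap ℂ A (eval ξ h))).restrict (hV _ ξ) +
        eval ξ h • LinearMap.id := by
      ext v
      simp only [LinearMap.coe_restrict_apply, LinearMap.mul_apply', LinearMap.add_apply,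
        LinearMap.smul_apply, LinearMap.id_apply, Submodule.coe_add, Submodule.coe_smul]
      rw [Algebra.smul_def]
      ring
    rw [e1, map_add, h0, zero_add, map_smul, LinearMap.trace_id, smul_eq_mul, mul_comm]
  · have h1 : ∃ ξ, ∃ v ∈ V ξ, χ v ≠ 0 := by
      by_contra hc
      push Not at hc
      have : (⨆ ξ, V ξ) ≤ LinearMap.ker χ.toLinearMap := iSup_le fun ξ v hv => hc ξ v hv
      have h2 : χ 1 = 0 := this (htop ▸ Submodule.mem_top)
      simp at h2
    obtain ⟨ξ, v, hv, hχ⟩ := h1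
    have h2 : (fun i => χ (z i)) = ξ := by
      funext i
      obtain ⟨k, hk⟩ := (hmem ξ v).1 hv i
      have := congrArg χ hk
      rw [map_mul, map_pow, map_sub, AlgHom.commutes, map_zero] at this
      exact sub_eq_zero.1 (eq_zero_of_pow_eq_zero ((mul_eq_zero.1 this).resolve_right hχ))
    rw [h2, Set.Finite.mem_toFinset]
    intro hb
    rw [hb, Submodule.mem_bot] at hv
    exact hχ (by rw [hv, map_zero])

/-- Expansion of the class of a polynomial along the Bezoutian. -/
theorem expand {K A : Type} [CommRing K] [CommRing A] [Algebra K A]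
    {G : Fin n → MvPolynomial (Fin n) K} (hG : IsPham E G) {z : Fin n → A}
    (hz : ∀ i, aeval z (X i ^ E - G i) = 0) :
    ∃ (s : Finset (Fin n →₀ ℕ)) (δ : (Fin n →₀ ℕ) → A),
      ∑ m ∈ s, δ m * aeval z (monomial m (1 : K)) = aeval z (jac E G) ∧
      ∀ h, aeval z h = ∑ m ∈ s, res E G (h * monomial m 1) • δ m := by
  have hG' := isPham_map hG (algebraMap K A)
  obtain ⟨Δ, h1, h2⟩ := bezout hG' (z := z) fun i => by
    have := hz i
    rw [map_sub, map_pow, aeval_X, sub_eq_zero] at this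
    rw [this, eval_map, aeval_def]
  refine ⟨Δ.support, fun m => coeff m Δ, ?_, fun h => ?_⟩
  · rw [← map_jac, eval_map, ← aeval_def] at h1
    rw [← h1, eval_eq']
    refine Finset.sum_congr rfl fun m _ => ?_
    rw [aeval_monomial, map_one, one_mul, Finsupp.prod_fintype _ _ (by simp)]
  · have h3 := h2 (map (algebraMap K A) h)
    rw [eval_map, ← aeval_def] at h3
    rw [← h3]
    conv_lhs => rw [Δ.as_sum, Finset.mul_sum, ← resL_apply hG', map_sum]
    refine Finset.sum_congr rfl fun m _ => ?_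
    have e1 : map (algebraMap K A) h * monomial m (coeff m Δ) =
        coeff m Δ • map (algebraMap K A) (h * monomial m 1) := by
      rw [map_mul, map_monomial, map_one, ← mul_smul_comm, smul_monomial, smul_eq_mul, mul_one]
    rw [e1, map_smul, resL_apply, ← map_res hG, smul_eq_mul, Algebra.smul_def, mul_comm]

theorem exists_list {G : Fin n → MvPolynomial (Fin n) ℂ} (hG : IsPham E G) :
    ∃ ξ, Valid E G ξ ∧ ∀ ζ, IsSol E G ζ → ζ ∈ Set.range ξ := by
  classical
  let I : Ideal (MvPolynomial (Fin n) ℂ) := Ideal.span (Set.range fun i => X i ^ E - G i)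
  let A := MvPolynomial (Fin n) ℂ ⧸ I
  let π : MvPolynomial (Fin n) ℂ →ₐ[ℂ] A := Ideal.Quotient.mkₐ ℂ I
  let z : Fin n → A := fun i => π (X i)
  have hπ : ∀ h, aeval z h = π h := fun h => by
    have : aeval z = π := MvPolynomial.algHom_ext fun i => aeval_X _ _
    rw [this]
  have hsurj : Function.Surjective π := Ideal.Quotient.mkₐ_surjective ℂ I
  have hker : ∀ x, π x = 0 → res E G x = 0 := fun x hx => by
    obtain ⟨c, rfl⟩ := Ideal.mem_span_range_iff_exists_fun.1 (Ideal.Quotient.eq_zero_iff_mem.1 hx)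
    rw [← resL_apply hG, map_sum]
    exact Finset.sum_eq_zero fun i _ => by rw [resL_apply, mul_comm, res_F_mul hG]
  obtain ⟨σ, hσ⟩ := LinearMap.exists_rightInverse_of_surjective π.toLinearMap
    (LinearMap.range_eq_top.2 hsurj)
  let T : A →ₗ[ℂ] ℂ := resL hG ∘ₗ σ
  have hT : ∀ h, T (π h) = res E G h := fun h => by
    have h1 : π (σ (π h)) = π h := LinearMap.congr_fun hσ (π h)
    have h2 := hker (σ (π h) - h) (by rw [map_sub, h1, sub_self])
    rw [← resL_apply hG, map_sub, sub_eq_zero] at h2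
    exact h2
  obtain ⟨s, δ, h1, h2⟩ := expand hG (z := z) fun i => by
    rw [hπ]
    exact Ideal.Quotient.eq_zero_iff_mem.2 (Ideal.subset_span ⟨i, rfl⟩)
  simp only [hπ] at h1 h2
  have hfin : FiniteDimensional ℂ A := by
    refine ⟨⟨s.image δ, eq_top_iff.2 fun x _ => ?_⟩⟩
    obtain ⟨h, rfl⟩ := hsurj x
    rw [h2 h]
    exact Submodule.sum_mem _ fun m hm => Submodule.smul_mem _ _
      (Submodule.subset_span (Finset.mem_coe.2 (Finset.mem_image_of_mem δ hm)))
  have htr : ∀ g, LinearMap.trace ℂ A (LinearMap.mul ℂ A (π g)) = tr E G g := fun g => by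
    have e1 : LinearMap.mul ℂ A (π g) = ∑ m ∈ s,
        (T ∘ₗ LinearMap.mul ℂ A (π (monomial m 1))).smulRight (π g * δ m) := by
      refine LinearMap.ext fun x => ?_
      obtain ⟨h, rfl⟩ := hsurj x
      rw [LinearMap.sum_apply, LinearMap.mul_apply']
      conv_lhs => rw [h2 h, Finset.mul_sum]
      refine Finset.sum_congr rfl fun m _ => ?_
      rw [LinearMap.smulRight_apply, LinearMap.comp_apply, LinearMap.mul_apply', ← map_mul, hT,
        mul_comm (monomial m 1), mul_smul_comm]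
    rw [e1, map_sum, tr_eq_res hG, ← hT, map_mul, ← h1, Finset.mul_sum, map_sum]
    refine Finset.sum_congr rfl fun m _ => ?_
    rw [LinearMap.trace_smulRight, LinearMap.comp_apply, LinearMap.mul_apply']
    congr 1
    ring
  obtain ⟨S, d, hd, hS, hχ⟩ := points z
  simp only [hπ, htr] at hS
  have hsum : ∀ h, tr E G h = ∑ j : (Σ ξ : S, Fin (d ξ)), eval j.1.1 h := fun h => by
    rw [hS, Fintype.sum_sigma, ← Finset.sum_coe_sort S]
    simp
  have hcard : Fintype.card (Σ ξ : S, Fin (d ξ)) = E ^ n := by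
    have h3 := hsum 1
    rw [tr_eq_res hG, one_mul, (jac_top hG).2] at h3
    simp only [map_one, Finset.sum_const, Finset.card_univ, nsmul_eq_mul, mul_one] at h3
    exact_mod_cast h3.symm
  let e := (Fintype.equivFinOfCardEq hcard).symm
  refine ⟨fun j => (e j).1.1, fun h => ?_, fun ζ hζ => ?_⟩
  · rw [hsum, ← e.sum_comp]
  · have hI : ∀ a ∈ I, aeval ζ a = 0 := fun a ha => by
      obtain ⟨c, rfl⟩ := Ideal.mem_span_range_iff_exists_fun.1 ha
      rw [map_sum]
      refine Finset.sum_eq_zero fun i _ => ?_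
      rw [map_mul, map_sub, map_pow, aeval_X, hζ i, aeval_eq_eval, sub_self, mul_zero]
    let χ : A →ₐ[ℂ] ℂ := Ideal.Quotient.liftₐ I (aeval ζ) hI
    have hχπ : ∀ h, χ (π h) = aeval ζ h := fun h =>
      AlgHom.congr_fun (Ideal.Quotient.liftₐ_comp I (aeval ζ) hI) h
    have h3 : (fun i => χ (z i)) = ζ := by
      funext i
      rw [hχπ, aeval_X]
    have h4 := hχ χ
    rw [h3] at h4
    refine ⟨e.symm ⟨⟨ζ, h4⟩, ⟨0, hd ζ h4⟩⟩, ?_⟩
    change (e (e.symm _)).1.1 = ζ
    rw [Equiv.apply_symm_apply]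

theorem interp (S : Finset (Fin n → ℂ)) (ζ : Fin n → ℂ) :
    ∃ q : MvPolynomial (Fin n) ℂ, eval ζ q = 1 ∧ ∀ η ∈ S, η ≠ ζ → eval η q = 0 := by
  classical
  induction S using Finset.induction_on with
  | empty => exact ⟨1, by simp, by simp⟩
  | insert a S _ ih =>
    obtain ⟨q, h1, h2⟩ := ih
    by_cases ha : a = ζ
    · refine ⟨q, h1, fun η hη hne => ?_⟩
      rcases Finset.mem_insert.1 hη with rfl | hη
      · exact absurd ha hne
      · exact h2 η hη hne
    · obtain ⟨i, hi⟩ := Function.ne_iff.1 ha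
      refine ⟨q * (C (ζ i - a i)⁻¹ * (X i - C (a i))), ?_, fun η hη hne => ?_⟩
      · simp [h1, inv_mul_cancel₀ (sub_ne_zero.2 hi.symm)]
      · rcases Finset.mem_insert.1 hη with rfl | hη
        · simp
        · simp [h2 η hη hne]

open Classical in
theorem sum_eval {ι : Type} [Fintype ι] (ξ : ι → Fin n → ℂ) (ζ : Fin n → ℂ)
    (q : MvPolynomial (Fin n) ℂ) (hq : ∀ j, ξ j ≠ ζ → eval (ξ j) q = 0) :
    ∑ j, eval (ξ j) q = ((Finset.univ.filter fun j => ξ j = ζ).card : ℂ) * eval ζ q := by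
  rw [← nsmul_eq_mul, ← Finset.sum_const, Finset.sum_filter]
  refine Finset.sum_congr rfl fun j _ => ?_
  split_ifs with h
  · rw [h]
  · exact hq j h

open Classical in
theorem card_ne_zero_iff {ι : Type} [Fintype ι] (ξ : ι → Fin n → ℂ) (ζ : Fin n → ℂ) :
    ((Finset.univ.filter fun j => ξ j = ζ).card : ℂ) ≠ 0 ↔ ζ ∈ Set.range ξ := by
  rw [Nat.cast_ne_zero, Finset.card_ne_zero, Finset.filter_nonempty_iff]
  simp

end PhamAux

variable {K K' : Type} [CommRing K] [CommRing K'] {n E : ℕ}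

theorem IsPham.map {G : Fin n → MvPolynomial (Fin n) K} (hG : IsPham E G) (f : K →+* K') :
    IsPham E fun i => map f (G i) :=
  PhamAux.isPham_map hG f

theorem trB_eq_tr {B : ℕ} {G : Fin n → MvPolynomial (Fin n) K} (hG : IsPham E G)
    {h : MvPolynomial (Fin n) K} (hB : h.totalDegree < B) : trB E B G h = tr E G h := by
  rw [PhamAux.trB_eq_res hG hB, PhamAux.tr_eq_res hG]

theorem map_tr {G : Fin n → MvPolynomial (Fin n) K} (hG : IsPham E G) (f : K →+* K')
    (h : MvPolynomial (Fin n) K) : f (tr E G h) = tr E (fun i => map f (G i)) (map f h) := by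
  rw [PhamAux.tr_eq_res hG, PhamAux.tr_eq_res (hG.map f), PhamAux.map_res hG, map_mul,
    PhamAux.map_jac]

theorem exists_valid {G : Fin n → MvPolynomial (Fin n) ℂ} (hG : IsPham E G) :
    ∃ ξ, Valid E G ξ :=
  (PhamAux.exists_list hG).imp fun _ h => h.1

theorem Valid.mem_range_iff {G : Fin n → MvPolynomial (Fin n) ℂ} (hG : IsPham E G)
    {ξ : Fin (E ^ n) → Fin n → ℂ} (hξ : Valid E G ξ) (ζ : Fin n → ℂ) :
    ζ ∈ Set.range ξ ↔ IsSol E G ζ := by
  classical
  constructor
  · intro hζ i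
    obtain ⟨q, h1, h2⟩ := PhamAux.interp (Finset.univ.image ξ) ζ
    have h3 := hξ ((X i ^ E - G i) * q)
    rw [PhamAux.tr_eq_res hG, mul_assoc, PhamAux.res_F_mul hG,
      PhamAux.sum_eval ξ ζ _ fun j hj => by
        rw [map_mul, h2 _ (Finset.mem_image_of_mem ξ (Finset.mem_univ j)) hj, mul_zero]] at h3
    have h4 := (mul_eq_zero.1 h3.symm).resolve_left ((PhamAux.card_ne_zero_iff ξ ζ).2 hζ)
    rw [map_mul, h1, mul_one, map_sub, map_pow, eval_X, sub_eq_zero] at h4
    exact h4
  · intro hζ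
    obtain ⟨ξ', hv, hr⟩ := PhamAux.exists_list hG
    obtain ⟨q, h1, h2⟩ := PhamAux.interp (Finset.univ.image ξ ∪ Finset.univ.image ξ') ζ
    have h3 := (hξ q).symm.trans (hv q)
    rw [PhamAux.sum_eval ξ ζ _ fun j hj => h2 _ (Finset.mem_union_left _
        (Finset.mem_image_of_mem ξ (Finset.mem_univ j))) hj,
      PhamAux.sum_eval ξ' ζ _ fun j hj => h2 _ (Finset.mem_union_right _
        (Finset.mem_image_of_mem ξ' (Finset.mem_univ j))) hj, h1, mul_one, mul_one] at h3
    rw [← PhamAux.card_ne_zero_iff, h3, PhamAux.card_ne_zero_iff]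
    exact hr ζ hζ

end Crest.Agent.R316
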