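import Crest.Agent.R316.Defs

/-! Pham systems: the global residue and the Bezoutian. -/

set_option autoImplicit false

namespace Crest.Agent.R316.PhamAux

open MvPolynomial

variable {K K' : Type} [CommRing K] [CommRing K'] {n E : ℕ}

/-- All monomials have degree `< d`. -/
def Lt (d : ℕ) (p : MvPolynomial (Fin n) K) : Prop :=
  ∀ m : Fin n →₀ ℕ, d ≤ m.degree → coeff m p = 0

section Lt
variable {d e : ℕ} {p q : MvPolynomial (Fin n) K}

theorem Lt.mono (h : Lt d p) (hde : d ≤ e) : Lt e p := fun m hm => h m (hde.trans hm)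

theorem lt_zero (d : ℕ) : Lt d (0 : MvPolynomial (Fin n) K) := fun _ _ => coeff_zero _

theorem Lt.add (hp : Lt d p) (hq : Lt d q) : Lt d (p + q) := fun m hm => by
  rw [coeff_add, hp m hm, hq m hm, add_zero]

theorem Lt.neg (hp : Lt d p) : Lt d (-p) := fun m hm => by rw [coeff_neg, hp m hm, neg_zero]

theorem Lt.sub (hp : Lt d p) (hq : Lt d q) : Lt d (p - q) := fun m hm => by
  rw [coeff_sub, hp m hm, hq m hm, sub_zero]

theorem Lt.C_mul (c : K) (hp : Lt d p) : Lt d (C c * p) := fun m hm => by
  rw [coeff_C_mul, hp m hm, mul_zero]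

theorem Lt.intCast_mul (c : ℤ) (hp : Lt d p) : Lt d ((c : MvPolynomial (Fin n) K) * p) := by
  have := hp.C_mul (c : K)
  rwa [map_intCast] at this

theorem lt_sum {ι : Type*} (s : Finset ι) {f : ι → MvPolynomial (Fin n) K}
    (h : ∀ i ∈ s, Lt d (f i)) : Lt d (∑ i ∈ s, f i) := fun m hm => by
  rw [coeff_sum]
  exact Finset.sum_eq_zero fun i hi => h i hi m hm

theorem Lt.mul (hp : Lt d p) (hq : Lt (e + 1) q) : Lt (d + e) (p * q) := fun m hm => by
  classical
  rw [coeff_mul]
  refine Finset.sum_eq_zero fun x hx => ?_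
  have h1 : x.1.degree + x.2.degree = m.degree := by
    rw [← map_add, Finset.HasAntidiagonal.mem_antidiagonal.1 hx]
  by_cases h2 : d ≤ x.1.degree
  · rw [hp _ h2, zero_mul]
  · rw [hq _ (by omega), mul_zero]

theorem lt_monomial (m : Fin n →₀ ℕ) (c : K) : Lt (m.degree + 1) (monomial m c) := fun m' hm => by
  classical
  rw [coeff_monomial, if_neg]
  rintro rfl
  omega

theorem lt_one : Lt 1 (1 : MvPolynomial (Fin n) K) := by
  simpa using lt_monomial (0 : Fin n →₀ ℕ) (1 : K)

theorem lt_prod {ι : Type*} (s : Finset ι) {f : ι → MvPolynomial (Fin n) K} {e : ι → ℕ}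
    (h : ∀ i ∈ s, Lt (e i + 1) (f i)) : Lt (∑ i ∈ s, e i + 1) (∏ i ∈ s, f i) := by
  classical
  induction s using Finset.induction_on with
  | empty => simpa using lt_one
  | insert a s ha ih =>
    rw [Finset.sum_insert ha, Finset.prod_insert ha]
    have := (h a (Finset.mem_insert_self _ _)).mul
      (ih fun i hi => h i (Finset.mem_insert_of_mem hi))
    exact this.mono (by omega)

theorem Lt.pow (hp : Lt (e + 1) p) (k : ℕ) : Lt (k * e + 1) (p ^ k) := by
  have := lt_prod (Finset.range k) (f := fun _ => p) (e := fun _ => e) fun _ _ => hp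
  simpa using this

theorem lt_X_pow (i : Fin n) (k : ℕ) : Lt (k + 1) (X i ^ k : MvPolynomial (Fin n) K) := by
  rw [X_pow_eq_monomial]
  simpa using lt_monomial (Finsupp.single i k) (1 : K)

theorem lt_of_totalDegree (h : p.totalDegree < d) : Lt d p := fun _ hm =>
  coeff_eq_zero_of_totalDegree_lt (lt_of_lt_of_le h hm)

theorem Lt.pderiv (hp : Lt (d + 1) p) (j : Fin n) : Lt d (pderiv j p) := fun m hm => by
  rw [coeff_pderiv, hp, zero_mul]
  simpa using hm

theorem Lt.map (hp : Lt d p) (f : K →+* K') : Lt d (map f p) := fun m hm => by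
  rw [coeff_map, hp m hm, map_zero]

theorem lt_prod_sub {ι : Type*} (s : Finset ι) {u v : ι → MvPolynomial (Fin n) K}
    (hv : ∀ i, Lt (e + 1) (v i)) (h : ∀ i, Lt e (u i - v i)) :
    Lt (s.card * e) (∏ i ∈ s, u i - ∏ i ∈ s, v i) := by
  classical
  have hu : ∀ i, Lt (e + 1) (u i) := fun i => by
    have := ((h i).mono (Nat.le_succ e)).add (hv i)
    rwa [sub_add_cancel] at this
  induction s using Finset.induction_on with
  | empty => simpa using lt_zero _
  | insert a s ha ih =>
    rw [Finset.prod_insert ha, Finset.prod_insert ha, Finset.card_insert_of_notMem ha]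
    have e1 : u a * ∏ i ∈ s, u i - v a * ∏ i ∈ s, v i =
        (u a - v a) * ∏ i ∈ s, u i + (∏ i ∈ s, u i - ∏ i ∈ s, v i) * v a := by ring
    rw [e1]
    have h1 := (h a).mul (lt_prod s (e := fun _ => e) fun i _ => hu i)
    have h2 := ih.mul (hv a)
    refine (h1.mono ?_).add (h2.mono ?_)
    · rw [Finset.sum_const, smul_eq_mul, add_mul]; omega
    · rw [add_mul]; omega

end Lt

@[simp] theorem ex_apply (k : Fin n → ℕ) (i : Fin n) : ex k i = k i := rfl

theorem degree_ex (k : Fin n → ℕ) : (ex k).degree = ∑ i, k i := by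
  rw [Finsupp.degree_eq_sum]; rfl

theorem mem_box {B : ℕ} {k : Fin n → ℕ} : k ∈ box n B ↔ ∀ i, k i < B := by
  simp [box]

/-- One term of the residue. -/
noncomputable def term (E : ℕ) (G : Fin n → MvPolynomial (Fin n) K) (k : Fin n → ℕ)
    (h : MvPolynomial (Fin n) K) : K :=
  coeff (ex fun i => E * (k i + 1) - 1) (h * ∏ i, G i ^ k i)

/-- The global residue. -/
noncomputable def res (E : ℕ) (G : Fin n → MvPolynomial (Fin n) K)
    (h : MvPolynomial (Fin n) K) : K := ∑ᶠ k, term E G k h

variable {G : Fin n → MvPolynomial (Fin n) K}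

theorem pham_pos (hG : IsPham E G) (i : Fin n) : E - 1 + 1 = E := by
  have := hG i; omega

theorem pham_lt (hG : IsPham E G) (i : Fin n) : Lt (E - 1 + 1) (G i) := by
  rw [pham_pos hG i]; exact lt_of_totalDegree (hG i)

theorem term_eq_zero (hG : IsPham E G) {d : ℕ} {h : MvPolynomial (Fin n) K} (hh : Lt d h)
    {k : Fin n → ℕ} (hk : d ≤ ∑ i, k i + n * (E - 1)) : term E G k h = 0 := by
  refine (hh.mul (lt_prod Finset.univ fun i _ => (pham_lt hG i).pow (k i))) _ ?_
  rw [degree_ex]
  have : ∑ i, (E * (k i + 1) - 1) = ∑ i, (k i * (E - 1) + (k i + (E - 1))) := by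
    refine Finset.sum_congr rfl fun i _ => ?_
    have := pham_pos hG i
    obtain ⟨e, rfl⟩ : ∃ e, E = e + 1 := ⟨E - 1, this.symm⟩
    simp only [Nat.add_sub_cancel]
    have : (e + 1) * (k i + 1) = k i * e + (k i + e) + 1 := by ring
    omega
  rw [this, Finset.sum_add_distrib, Finset.sum_add_distrib, Finset.sum_const, Finset.card_univ,
    Fintype.card_fin, smul_eq_mul]
  omega

theorem term_eq_zero_box (hG : IsPham E G) {B : ℕ} {h : MvPolynomial (Fin n) K}
    (hh : Lt (B + n * (E - 1)) h) {k : Fin n → ℕ} (hk : k ∉ box n B) : term E G k h = 0 := by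
  refine term_eq_zero hG hh ?_
  rw [mem_box] at hk
  push Not at hk
  obtain ⟨i, hi⟩ := hk
  have := Finset.single_le_sum (f := k) (fun _ _ => Nat.zero_le _) (Finset.mem_univ i)
  omega

theorem res_eq_sum {h : MvPolynomial (Fin n) K} (s : Finset (Fin n → ℕ))
    (hs : ∀ k, k ∉ s → term E G k h = 0) : res E G h = ∑ k ∈ s, term E G k h :=
  finsum_eq_sum_of_support_subset _ fun k hk => by
    by_contra hc
    exact hk (hs k hc)

theorem tau_eq_res (hG : IsPham E G) {B : ℕ} {h : MvPolynomial (Fin n) K}
    (hh : Lt (B + n * (E - 1)) h) : tau E B G h = res E G h :=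
  (res_eq_sum _ fun _ hk => term_eq_zero_box hG hh hk).symm

theorem tau_eq_res' (hG : IsPham E G) {B : ℕ} {h : MvPolynomial (Fin n) K}
    (hh : h.totalDegree < B) : tau E B G h = res E G h :=
  tau_eq_res hG ((lt_of_totalDegree hh).mono (Nat.le_add_right _ _))

/-- The residue as a linear map. -/
noncomputable def resL (hG : IsPham E G) : MvPolynomial (Fin n) K →ₗ[K] K where
  toFun := res E G
  map_add' p q := by
    have h1 := totalDegree_add p q
    rw [← tau_eq_res' hG (B := max p.totalDegree q.totalDegree + 1) (by omega),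
      ← tau_eq_res' hG (B := max p.totalDegree q.totalDegree + 1) (by omega),
      ← tau_eq_res' hG (B := max p.totalDegree q.totalDegree + 1) (by omega)]
    simp only [tau, add_mul, coeff_add, Finset.sum_add_distrib]
  map_smul' c p := by
    have h1 := totalDegree_smul_le c p
    rw [← tau_eq_res' hG (B := p.totalDegree + 1) (by omega),
      ← tau_eq_res' hG (B := p.totalDegree + 1) (by omega)]
    simp only [tau, smul_mul_assoc, coeff_smul, RingHom.id_apply, Finset.smul_sum]

@[simp] theorem resL_apply (hG : IsPham E G) (h : MvPolynomial (Fin n) K) :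
    resL hG h = res E G h := rfl

theorem totalDegree_map (f : K →+* K') (p : MvPolynomial (Fin n) K) :
    (map f p).totalDegree ≤ p.totalDegree :=
  Finset.sup_mono (support_map_subset f p)

theorem isPham_map (hG : IsPham E G) (f : K →+* K') : IsPham E fun i => map f (G i) := fun i =>
  lt_of_le_of_lt (totalDegree_map f (G i)) (hG i)

theorem map_res (hG : IsPham E G) (f : K →+* K') (h : MvPolynomial (Fin n) K) :
    f (res E G h) = res E (fun i => map f (G i)) (map f h) := by
  have h1 := totalDegree_map f h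
  rw [← tau_eq_res' hG (B := h.totalDegree + 1) (by omega),
    ← tau_eq_res' (isPham_map hG f) (B := h.totalDegree + 1) (by omega)]
  simp only [tau, map_sum, ← coeff_map, map_mul, map_prod, map_pow]

theorem term_succ (hG : IsPham E G) (i : Fin n) (k : Fin n → ℕ) (h : MvPolynomial (Fin n) K) :
    term E G (k + Pi.single i 1) (X i ^ E * h) = term E G k (G i * h) := by
  have hE := pham_pos hG i
  have e1 : (ex fun j => E * ((k + Pi.single i 1 : Fin n → ℕ) j + 1) - 1) =
      Finsupp.single i E + ex fun j => E * (k j + 1) - 1 := by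
    ext j
    by_cases hj : j = i
    · subst hj
      simp only [ex_apply, Pi.add_apply, Pi.single_eq_same, Finsupp.add_apply,
        Finsupp.single_eq_same]
      have : E * (k j + 1 + 1) = E + E * (k j + 1) := by ring
      have : E ≤ E * (k j + 1) := Nat.le_mul_of_pos_right _ (Nat.succ_pos _)
      omega
    · simp [hj]
  have e2 : ∏ j, G j ^ (k + Pi.single i 1 : Fin n → ℕ) j = G i * ∏ j, G j ^ k j := by
    simp only [Pi.add_apply, pow_add, Finset.prod_mul_distrib]
    rw [mul_comm, Finset.prod_eq_single i] <;> simp +contextual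
  rw [term, term, e1, e2, X_pow_eq_monomial, mul_assoc, coeff_monomial_mul, one_mul]
  congr 1
  ring

theorem term_zero (hG : IsPham E G) (i : Fin n) (k : Fin n → ℕ) (hk : k i = 0)
    (h : MvPolynomial (Fin n) K) : term E G k (X i ^ E * h) = 0 := by
  classical
  have hE := pham_pos hG i
  rw [term, X_pow_eq_monomial, mul_assoc, coeff_monomial_mul', if_neg]
  intro hle
  have := hle i
  simp only [Finsupp.single_eq_same, ex_apply, hk] at this
  omega

theorem res_X_pow_mul (hG : IsPham E G) (i : Fin n) (h : MvPolynomial (Fin n) K) :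
    res E G (X i ^ E * h) = res E G (G i * h) := by
  classical
  have hb : ∀ k, k ∉ box n ((G i * h).totalDegree + 1) → term E G k (G i * h) = 0 := fun k hk =>
    term_eq_zero_box hG ((lt_of_totalDegree (Nat.lt_succ_self _)).mono (Nat.le_add_right _ _)) hk
  rw [res_eq_sum _ hb, res_eq_sum ((box n ((G i * h).totalDegree + 1)).image
    fun k => k + Pi.single i 1), Finset.sum_image fun a _ b _ hab => add_right_cancel hab]
  · exact Finset.sum_congr rfl fun k _ => term_succ hG i k h
  · intro k hk
    by_cases h0 : k i = 0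
    · exact term_zero hG i k h0 h
    · have e1 : k = (k - Pi.single i 1) + Pi.single i 1 := by
        funext j
        by_cases hj : j = i
        · subst hj
          simp only [Pi.add_apply, Pi.sub_apply, Pi.single_eq_same]
          omega
        · simp [hj]
      rw [e1, term_succ hG]
      exact hb _ fun hm => hk (Finset.mem_image.2 ⟨_, hm, e1.symm⟩)

theorem res_F_mul (hG : IsPham E G) (i : Fin n) (h : MvPolynomial (Fin n) K) :
    res E G ((X i ^ E - G i) * h) = 0 := by
  rw [sub_mul, ← resL_apply hG, map_sub, resL_apply, resL_apply, res_X_pow_mul hG, sub_self]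

theorem res_top (hG : IsPham E G) {h : MvPolynomial (Fin n) K} (hh : Lt (1 + n * (E - 1)) h) :
    res E G h = coeff (ex fun _ => E - 1) h := by
  have : box n 1 = {0} := by
    ext k
    simp [mem_box, funext_iff]
  rw [← tau_eq_res hG hh, tau, this, Finset.sum_singleton]
  simp

theorem det_top (hG : IsPham E G) (a : Matrix (Fin n) (Fin n) (MvPolynomial (Fin n) K)) (c : K)
    (ha : ∀ i j, Lt (E - 1) (a i j - if i = j then C c * X i ^ (E - 1) else 0)) :
    Lt (1 + n * (E - 1)) a.det ∧ res E G a.det = c ^ n := by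
  classical
  let D : Matrix (Fin n) (Fin n) (MvPolynomial (Fin n) K) :=
    Matrix.diagonal fun i => C c * X i ^ (E - 1)
  have hD : ∀ i j, Lt (E - 1 + 1) (D i j) := fun i j => by
    simp only [D, Matrix.diagonal_apply]
    split_ifs
    · exact (lt_X_pow i _).C_mul c
    · exact lt_zero _
  have h1 : Lt (n * (E - 1)) (a.det - D.det) := by
    rw [Matrix.det_apply', Matrix.det_apply', ← Finset.sum_sub_distrib]
    refine lt_sum _ fun σ _ => ?_
    rw [← mul_sub]
    refine Lt.intCast_mul _ ?_
    have := lt_prod_sub Finset.univ (u := fun i => a (σ i) i) (v := fun i => D (σ i) i)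
      (fun i => hD _ _) (fun i => by simpa only [D, Matrix.diagonal_apply] using ha (σ i) i)
    rwa [Finset.card_univ, Fintype.card_fin] at this
  have h2 : D.det = monomial (ex fun _ => E - 1) (c ^ n) := by
    rw [Matrix.det_diagonal, Finset.prod_mul_distrib, Finset.prod_const, Finset.card_univ,
      Fintype.card_fin, monomial_eq, Finsupp.prod_fintype _ _ (by simp), map_pow]
    rfl
  have h3 : (ex fun _ : Fin n => E - 1).degree = n * (E - 1) := by
    rw [degree_ex]; simp
  have h4 : Lt (1 + n * (E - 1)) a.det := by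
    have h5 : Lt (1 + n * (E - 1)) D.det := by
      rw [h2, add_comm, ← h3]; exact lt_monomial _ _
    have := (h1.mono (Nat.le_add_left _ 1)).add h5
    rwa [sub_add_cancel] at this
  refine ⟨h4, ?_⟩
  have h6 := h1 _ h3.ge
  rw [coeff_sub, sub_eq_zero] at h6
  rw [res_top hG h4, h6, h2, coeff_monomial, if_pos rfl]

theorem jac_top (hG : IsPham E G) :
    Lt (1 + n * (E - 1)) (jac E G) ∧ res E G (jac E G) = (E : K) ^ n := by
  classical
  refine det_top hG _ (E : K) fun i j => ?_
  have h1 := ((pham_lt hG i).pderiv j).neg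
  convert h1 using 1
  rw [Matrix.of_apply, map_sub, Derivation.leibniz_pow, pderiv_X]
  by_cases hij : i = j
  · subst hij
    simp
  · simp [hij]

theorem trB_eq_res (hG : IsPham E G) {B : ℕ} {h : MvPolynomial (Fin n) K}
    (hB : h.totalDegree < B) : trB E B G h = res E G (h * jac E G) := by
  refine tau_eq_res hG ((lt_of_totalDegree hB).mul ?_)
  rw [add_comm]
  exact (jac_top hG).1

theorem tr_eq_res (hG : IsPham E G) (h : MvPolynomial (Fin n) K) :
    tr E G h = res E G (h * jac E G) := trB_eq_res hG (Nat.lt_succ_self _)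

theorem map_jac (f : K →+* K') : map f (jac E G) = jac E fun i => map f (G i) := by
  rw [jac, jac, RingHom.map_det]
  congr 1
  ext1 i j
  simp only [RingHom.mapMatrix_apply, Matrix.map_apply, Matrix.of_apply, ← pderiv_map, map_sub,
    map_pow, map_X]

/-! ### Division by the maximal ideal of a point -/

theorem div_monomial (z : Fin n → K) (d : ℕ) : ∀ (m : Fin n →₀ ℕ), m.degree ≤ d → ∀ c : K,
    ∃ g : Fin n → MvPolynomial (Fin n) K, (∀ j, Lt d (g j)) ∧
      monomial m c - C (eval z (monomial m c)) = ∑ j, (X j - C (z j)) * g j := by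
  classical
  induction d with
  | zero =>
    intro m hm c
    have : m = 0 := (Finsupp.degree_eq_zero_iff m).1 (Nat.le_zero.1 hm)
    subst this
    exact ⟨0, fun _ => lt_zero _, by simp⟩
  | succ d ih =>
    intro m hm c
    by_cases h0 : m = 0
    · subst h0
      exact ⟨0, fun _ => lt_zero _, by simp⟩
    obtain ⟨i, hi⟩ := Finsupp.support_nonempty_iff.2 h0
    have hi' : m i ≠ 0 := Finsupp.mem_support_iff.1 hi
    obtain ⟨m', rfl⟩ : ∃ m', m = m' + Finsupp.single i 1 := by
      refine ⟨m - Finsupp.single i 1, ?_⟩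
      ext j
      by_cases hj : j = i
      · subst hj
        simp only [Finsupp.add_apply, Finsupp.tsub_apply, Finsupp.single_eq_same]
        omega
      · simp [hj]
    have hm' : m'.degree ≤ d := by
      rw [map_add, Finsupp.degree_single] at hm
      omega
    obtain ⟨g, hg, hsum⟩ := ih m' hm' c
    refine ⟨fun j => C (z i) * g j + if j = i then monomial m' c else 0, fun j => ?_, ?_⟩
    · refine (((hg j).C_mul _).mono (Nat.le_succ _)).add ?_
      split_ifs
      · exact (lt_monomial _ _).mono (by omega)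
      · exact lt_zero _
    · have e1 : ∑ j, (X j - C (z j)) * (C (z i) * g j + if j = i then monomial m' c else 0) =
          C (z i) * ∑ j, (X j - C (z j)) * g j + (X i - C (z i)) * monomial m' c := by
        simp only [mul_add, Finset.sum_add_distrib, Finset.mul_sum, mul_ite, mul_zero,
          Finset.sum_ite_eq', Finset.mem_univ, if_true]
        congr 1
        exact Finset.sum_congr rfl fun j _ => by ring
      rw [e1, ← hsum, monomial_add_single, pow_one, map_mul, eval_X, map_mul]
      ring

theorem div_lt (z : Fin n → K) {d : ℕ} {f : MvPolynomial (Fin n) K} (hf : Lt (d + 1) f) :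
    ∃ g : Fin n → MvPolynomial (Fin n) K, (∀ j, Lt d (g j)) ∧
      f - C (eval z f) = ∑ j, (X j - C (z j)) * g j := by
  have h : ∀ m : f.support, ∃ g : Fin n → MvPolynomial (Fin n) K, (∀ j, Lt d (g j)) ∧
      monomial m.1 (coeff m.1 f) - C (eval z (monomial m.1 (coeff m.1 f))) =
        ∑ j, (X j - C (z j)) * g j := fun m => by
    refine div_monomial z d m.1 ?_ _
    by_contra hc
    exact mem_support_iff.1 m.2 (hf _ (by omega))
  choose g hg hs using h
  refine ⟨fun j => ∑ m, g m j, fun j => lt_sum _ fun m _ => hg m j, ?_⟩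
  have e1 : f = ∑ m : f.support, monomial m.1 (coeff m.1 f) := by
    rw [Finset.sum_coe_sort f.support fun m => monomial m (coeff m f)]
    exact f.as_sum
  calc f - C (eval z f) = ∑ m : f.support, (monomial m.1 (coeff m.1 f) -
        C (eval z (monomial m.1 (coeff m.1 f)))) := by
        rw [Finset.sum_sub_distrib, ← map_sum, ← map_sum, ← e1]
    _ = _ := by
        simp only [hs, Finset.mul_sum]
        exact Finset.sum_comm

theorem div_X_pow (z : Fin n → K) (i : Fin n) (e : ℕ) :
    ∃ b : MvPolynomial (Fin n) K, Lt e (b - X i ^ e) ∧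
      X i ^ (e + 1) - C (z i ^ (e + 1)) = (X i - C (z i)) * b := by
  induction e with
  | zero => exact ⟨1, by simpa using lt_zero _, by simp⟩
  | succ e ih =>
    obtain ⟨b, hb, he⟩ := ih
    refine ⟨X i ^ (e + 1) + C (z i) * b, ?_, ?_⟩
    · rw [add_sub_cancel_left]
      have := (hb.mono (Nat.le_succ _)).add (lt_X_pow i e)
      rw [sub_add_cancel] at this
      exact this.C_mul _
    · rw [mul_add, mul_left_comm, ← he]
      simp only [map_pow]
      ring

/-- The Bezoutian at a root `z` of the system. -/
theorem bezout (hG : IsPham E G) {z : Fin n → K} (hz : IsSol E G z) :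
    ∃ Δ : MvPolynomial (Fin n) K, eval z Δ = eval z (jac E G) ∧
      ∀ p, res E G (p * Δ) = eval z p := by
  classical
  have h1 : ∀ i, ∃ a : Fin n → MvPolynomial (Fin n) K,
      (∀ j, Lt (E - 1) (a j - if i = j then C 1 * X i ^ (E - 1) else 0)) ∧
      X i ^ E - G i = ∑ j, (X j - C (z j)) * a j := fun i => by
    obtain ⟨g, hg, hs⟩ := div_lt z (pham_lt hG i)
    obtain ⟨b, hb, he⟩ := div_X_pow z i (E - 1)
    rw [pham_pos hG i] at he
    refine ⟨fun j => (if i = j then b else 0) - g j, fun j => ?_, ?_⟩
    · by_cases hij : i = j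
      · simp only [if_pos hij]
        rw [map_one, one_mul, sub_right_comm]
        exact hb.sub (hg j)
      · simpa [if_neg hij] using (hg j).neg
    · simp only [mul_sub, Finset.sum_sub_distrib, mul_ite, mul_zero, Finset.sum_ite_eq,
        Finset.mem_univ, if_true]
      rw [← he, ← hs, hz i]
      ring
  choose a ha hs using h1
  let A : Matrix (Fin n) (Fin n) (MvPolynomial (Fin n) K) := Matrix.of a
  have htop := (det_top hG A 1 ha).2
  have hkill : ∀ j q, res E G ((X j - C (z j)) * A.det * q) = 0 := fun j q => by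
    have e1 : A.mulVec (fun l => X l - C (z l)) = fun i => X i ^ E - G i := by
      funext i
      rw [hs i]
      simp only [Matrix.mulVec, dotProduct, A, Matrix.of_apply]
      exact Finset.sum_congr rfl fun l _ => mul_comm _ _
    have e2 := congrFun (congrArg (A.adjugate.mulVec) e1) j
    rw [Matrix.mulVec_mulVec, Matrix.adjugate_mul, Matrix.smul_mulVec, Matrix.one_mulVec,
      Pi.smul_apply, smul_eq_mul] at e2
    rw [mul_comm _ A.det, e2]
    simp only [Matrix.mulVec, dotProduct, Finset.sum_mul]
    rw [← resL_apply hG, map_sum]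
    refine Finset.sum_eq_zero fun i _ => ?_
    rw [resL_apply, mul_comm (A.adjugate j i), mul_assoc, res_F_mul hG]
  refine ⟨A.det, ?_, fun p => ?_⟩
  · rw [jac, RingHom.map_det, RingHom.map_det]
    congr 1
    ext i j
    simp only [RingHom.mapMatrix_apply, Matrix.map_apply, Matrix.of_apply, A]
    rw [hs i, map_sum, map_sum, Finset.sum_eq_single j]
    · simp
    · intro l _ hl
      simp [pderiv_X, hl]
    · simp
  · obtain ⟨g, -, hg⟩ := div_lt z (lt_of_totalDegree (Nat.lt_succ_self p.totalDegree))
    have e1 : p * A.det = eval z p • A.det + ∑ j, (X j - C (z j)) * A.det * g j := by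
      rw [smul_eq_C_mul, ← sub_eq_iff_eq_add', ← sub_mul, hg, Finset.sum_mul]
      exact Finset.sum_congr rfl fun j _ => by ring
    rw [e1, ← resL_apply hG, map_add, map_smul, map_sum]
    simp only [resL_apply, hkill, htop]
    simp

end Crest.Agent.R316.PhamAux
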